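import Vale.Agent.P011NM.D4c

/-!
The trialitarian groups: every normal subgroup is central or everything, under the inputs.
-/

namespace Vale.Agent.P011.NM

open Vale.Agent.P011.H900

variable {F : Type} [Field F] [NumberField F] {r s i : F → F} {a b c d q : F}

/-- **Trialitarian groups over cyclic cubic extensions.** -/
theorem d3m (h : Hyp) (hD : Dat [r, s] r s a b c d q) :
    OnlyC (grp fun f : Oc a b → Oc a b => Tri c r f ∧ Twi c r s d q f) :=
  onlyC_of h (H984.d3_m hD)

/-- **Trialitarian groups over noncyclic cubic extensions.** -/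
theorem d4m (h : Hyp) (hD : Dat [r, s, i] r s a b c d q) (hi : Aut 2 i)
    (hsi : ∀ x, s (i x) = i (s x)) (hri : ∀ x, r (i (r x)) = i x) (hid : i d = d)
    (hiq : r (i q) = q) :
    OnlyC (grp fun f : Oc a b → Oc a b => Tri c r f ∧ Twi c r s d q f ∧ Swp i f) :=
  onlyC_of h (H984.d4_m hD hi hsi hri hid hiq)

end Vale.Agent.P011.NM
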