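import Vale.Agent.P011.D4X.H369.AutI
import Vale.Agent.P011.D4Y.H68.AutI

/-!
The intersection of the noncentral normal subgroups, and the two inputs from the normal subgroup
theorem for the trialitarian groups.
-/

open NumberField

namespace Vale.Agent.P011.NM

open Vale.Agent.P011.MPQ Vale.Agent.P011.D4 Vale.Agent.P011.D4.Oct
open Vale.Agent.P011.D4.B.FI (fixI longI)

/-- Noncentral normal subgroups of the norm one group of a quaternion division algebra have finite
index. -/
def QProp : Prop :=
  ∀ (F : Type) [Field F] [NumberField F] (a b : Fˣ), Aniso a b → ∀ N : Subgroup (SL1 a b),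
    N.Normal → ¬ N ≤ Subgroup.center _ → N.index ≠ 0

/-- A noncentral normal subgroup meets the long subgroup noncentrally, cyclic case. -/
def MeetT : Prop :=
  ∀ (k L E : Type) [Field k] [NumberField k] [Field L] [Field E] [Algebra k L] [Algebra k E]
    [Algebra L E] [IsScalarTower k L E] [NeZero (2 : E)] (ρ σ : E ≃ₐ[k] E) (ρL : L ≃ₐ[k] L)
    (α : E) (a b c : kˣ) (q : Lˣ), D4X.Hy ρ σ ρL α a b c q →
    ∀ N : Subgroup (D4X.GT ρ σ α a b c q), N.Normal → ¬ N ≤ Subgroup.center _ →
      ∃ t : SL1 a b, t ∉ Subgroup.center (SL1 a b) ∧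
        D4X.H369.extI ρ σ α a b c q (longI a b c t) ∈ N

/-- A noncentral normal subgroup meets the long subgroup noncentrally, noncyclic case. -/
def MeetI : Prop :=
  ∀ (k L E : Type) [Field k] [NumberField k] [Field L] [Field E] [Algebra k L] [Algebra k E]
    [Algebra L E] [IsScalarTower k L E] [NeZero (2 : E)] (ρ σ ι : E ≃ₐ[k] E)
    (α : E) (a b c : kˣ) (q : Lˣ), D4Y.HyI ρ σ ι α a b c q →
    ∀ N : Subgroup (D4Y.GTI ρ σ ι α a b c q), N.Normal → ¬ N ≤ Subgroup.center _ →
      ∃ t : SL1 a b, t ∉ Subgroup.center (SL1 a b) ∧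
        D4Y.H68.extI ρ σ ι α a b c q (longI a b c t) ∈ N

/-- The inputs. -/
def Hyp : Prop := QProp ∧ MeetT ∧ MeetI

/-- Noncentral normal subgroups, under the inputs. -/
def Big {G : Type} [Group G] (N : Subgroup G) : Prop :=
  Hyp ∧ N.Normal ∧ ¬ N ≤ Subgroup.center G

theorem Big.comap_surj {G G' : Type} [Group G] [Group G'] (e : G →* G')
    (he : Function.Surjective e) {N : Subgroup G'} (h : Big N) : Big (N.comap e) := by
  refine ⟨h.1, h.2.1.comap _, fun hc => h.2.2 fun x hx => ?_⟩
  obtain ⟨y, rfl⟩ := he x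
  have hy := Subgroup.mem_center_iff.1 (hc (show y ∈ N.comap e from hx))
  refine Subgroup.mem_center_iff.2 fun g => ?_
  obtain ⟨z, rfl⟩ := he g
  rw [← map_mul, ← map_mul, hy]

theorem Big.comap {G G' : Type} [Group G] [Group G'] (e : G ≃* G') {N : Subgroup G'}
    (h : Big N) : Big (N.comap (e : G →* G')) := h.comap_surj _ e.surjective

/-- The property of a group that every normal subgroup is central or everything. -/
def OnlyC (G : Type) [Group G] : Prop :=
  ∀ N : Subgroup G, N.Normal → N ≤ Subgroup.center G ∨ N = ⊤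

theorem onlyC_of {G : Type} [Group G] (h : Hyp) (hG : ∀ N : Subgroup G, Big N → N = ⊤) :
    OnlyC G := fun N hN => by
  by_cases hc : N ≤ Subgroup.center G
  · exact Or.inl hc
  · exact Or.inr (hG N ⟨h, hN, hc⟩)

end Vale.Agent.P011.NM
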