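import Vale.Agent.P011NM.Defs
import Vale.Agent.P011NM.FixM
import Vale.Agent.P011.D4X.H637.Tor
import Vale.Agent.P011.D4X.H691.Tr
import Vale.Agent.P011.D4Y.H691.Tr
import Vale.Agent.P011.D4Y.H862.Short

/-!
Noncentral normal subgroups of the trialitarian groups contain the automorphisms which fix the
first generator and meet the short subgroups in subgroups of finite index.
-/

open NumberField

set_option linter.unusedSectionVars false

namespace Vale.Agent.P011.NM

open Vale.Agent.P011.MPQ Vale.Agent.P011.D4 Vale.Agent.P011.D4.Oct Vale.Agent.P011.E6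
  Vale.Agent.P011.D4X Vale.Agent.P011.D4Y
open Vale.Agent.P011.D4.B.FI (fixI longI conjI LF fixI_top_m)

/-- A noncentral element of the torus with coordinates in the ground field. -/
theorem exists_noncentral {k L : Type} [Field k] [CharZero k] [Field L] [Algebra k L] {a b : kˣ}
    (hab : Aniso a b) {B : Lˣ} (hB : Aniso (up L a) B) : ∃ (p r : k) (x : SL1 (up L a) B),
      p ^ 2 - a * r ^ 2 = 1 ∧ ((x : (Qt (up L a) B)ˣ) : Qt (up L a) B) =
        ⟨algebraMap k L p, algebraMap k L r, 0, 0⟩ ∧ x ∉ Subgroup.center (SL1 (up L a) B) := by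
  have hL : CharZero L := charZero_of_injective_algebraMap (algebraMap k L).injective
  have h1 : (1 : k) - a ≠ 0 := fun h => by
    have := congrArg QuaternionAlgebra.re (hab ⟨1, 1, 0, 0⟩ (by
      simp only [nrd]
      linear_combination h))
    simp at this
  have h2 : (1 : L) - B ≠ 0 := fun h => by
    have := congrArg QuaternionAlgebra.re (hB ⟨1, 0, 1, 0⟩ (by
      simp only [nrd]
      linear_combination h))
    simp at this
  have h3 : ((1 + a) / (1 - a) : k) ^ 2 - a * (2 / (1 - a)) ^ 2 = 1 := by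
    field_simp
    ring
  have e1 : ((up L a : Lˣ) : L) = algebraMap k L a := rfl
  have h4 : nrd (⟨algebraMap k L ((1 + a) / (1 - a)), algebraMap k L (2 / (1 - a)), 0, 0⟩ :
      Qt (up L a) B) = 1 := by
    have := congrArg (algebraMap k L) h3
    simp only [map_sub, map_mul, map_pow, map_one] at this
    simp only [nrd, e1]
    linear_combination this
  have h5 : nrd (⟨(1 + B) / (1 - B), 0, 2 / (1 - B), 0⟩ : Qt (up L a) B) = 1 := by
    simp only [nrd]
    field_simp
    ring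
  refine ⟨_, _, H24.mkSL _ h4, h3, rfl, fun hc => ?_⟩
  have h6 := congrArg (fun x : SL1 (up L a) B => ((x : (Qt (up L a) B)ˣ) : Qt (up L a) B).imK)
    (Subgroup.mem_center_iff.1 hc (H24.mkSL _ h5))
  simp only [Subgroup.coe_mul, Units.val_mul, H24.coe_mkSL, QuaternionAlgebra.imK_mul] at h6
  have h7 : algebraMap k L (2 / (1 - a)) ≠ 0 :=
    (map_ne_zero_iff _ (algebraMap k L).injective).2 (div_ne_zero two_ne_zero h1)
  have h8 : (2 : L) / (1 - B) ≠ 0 := div_ne_zero two_ne_zero h2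
  apply mul_ne_zero (two_ne_zero (α := L)) (mul_ne_zero h7 h8)
  linear_combination -h6

theorem emb_of_hom {F : Type} [Field F] {a b c b' c' : Fˣ} {Φ : Oct a b' c' ≃ₗ[F] Oct a b c}
    (h3 : ∀ x y, Φ (x * y) = Φ x * Φ y) (hi : Φ gi = gi) (x : Oct a b' c') :
    Φ x = emb gi (Φ gj) (Φ gl) x := by
  conv_lhs => rw [← emb_std x]
  simp only [emb, qemb, map_add, map_smul, h3, hom_one h3, hi]

section alg

variable {k L E : Type} [Field k] [Field L] [Field E] [Algebra k L] [Algebra k E] [Algebra L E]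
  [IsScalarTower k L E] [NeZero (2 : E)] {ρ : E ≃ₐ[k] E} {α : E} {a b c : kˣ} {q : Lˣ}

theorem cj_ext {b' c' : kˣ} {Φ : Oct a b' c' ≃ₗ[k] Oct a b c}
    (h3 : ∀ x y, Φ (x * y) = Φ x * Φ y) (hi : Φ gi = gi) (T : Trip a b' c' gi (Φ gj) (Φ gl))
    (g : fixI a b' c') :
    cjE (tripO E T) (Em.extE E g.1.1) = Em.extE E (conjI Φ h3 hi g).1.1 := by
  refine Em.equiv_unique fun x => ?_
  obtain ⟨y, rfl⟩ := Φ.surjective x
  have e : ∀ z, oup E (Φ z) = tripO E T (oup E z) := fun z => by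
    rw [tripO_oup, ← emb_of_hom h3 hi]
  rw [Em.extE_oup, e y, cjE_apply, Em.extE_oup, ← e]
  change _ = oup E (Φ (g.1.1 (Φ.symm (Φ y))))
  rw [Φ.symm_apply_apply]

theorem short_ep {p r : k} (h : p ^ 2 - a * r ^ 2 = 1) :
    shortFun ρ (psiL α q (⟨algebraMap k L p, algebraMap k L r, 0, 0⟩ :
      Qt (up L a) (q * up L b))) (ep α : OctL E a b c) = ep α := by
  have h0 : (ep α : OctL E a b c) = ⟨⟨1 / 2, 1 / (2 * α), 0, 0⟩, 0⟩ := rfl
  have e1 : ((up E a : Eˣ) : E) = algebraMap k E a := rfl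
  have h1 := congrArg (algebraMap k E) h
  simp only [map_sub, map_mul, map_pow, map_one] at h1
  rw [H637.psiL_torus, h0, H637.shortFun_torus, ← IsScalarTower.algebraMap_apply,
    ← IsScalarTower.algebraMap_apply, ρ.commutes, ρ.commutes, ρ.commutes, ρ.commutes]
  rw [← e1] at h1
  congr 2
  · linear_combination (1 / 2 : E) * h1
  · linear_combination (1 / (2 * α) : E) * h1

end alg

section cyclic

variable {k L E : Type} [Field k] [NumberField k] [Field L] [Field E]
  [Algebra k L] [Algebra k E] [Algebra L E]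
  [IsScalarTower k L E] [NeZero (2 : E)] {ρ σ : E ≃ₐ[k] E} {ρL : L ≃ₐ[k] L} {α : E}
  {a b c : kˣ} {q : Lˣ} (H : Hy ρ σ ρL α a b c q) {N : Subgroup (GT ρ σ α a b c q)} (hN : Big N)

include H hN

theorem long_T : ((N.comap (H369.extI ρ σ α a b c q)).comap (longI a b c)).index ≠ 0 := by
  obtain ⟨t, h1, h2⟩ := hN.1.2.1 k L E ρ σ ρL α a b c q H N hN.2.1 hN.2.2
  exact hN.1.1 k a b H.hdiv.aniso _ ((hN.2.1.comap _).comap _) fun h => h1 (h h2)

theorem aut_T {g : GT ρ σ α a b c q} (he : g.1 (ep α) = ep α) : g ∈ N := by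
  obtain ⟨g0, hg0⟩ := H369.exists_fixI H g.2 he
  have e1 : g = H369.extI ρ σ α a b c q g0 := Subtype.ext hg0
  have h := fixI_top_m H.hdiv (N.comap (H369.extI ρ σ α a b c q)) (hN.2.1.comap _) (by
    intro b' c' Φ h3 hi
    have T : Trip a b' c' gi (Φ gj) (Φ gl) := by
      have := trip_map (trip_std (a := a) (b := b') (c := c')) h3
      rwa [hi] at this
    have := long_T (H691.hyTrip H T) (hN.comap (H691.cjG ρ σ α q T))
    convert this using 2
    ext t
    simp only [Subgroup.mem_comap, MonoidHom.comp_apply]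
    have e : H369.extI ρ σ α a b c q (conjI Φ h3 hi (longI a b' c' t)) =
        H691.cjG ρ σ α q T (H369.extI ρ σ α a b' c' q (longI a b' c' t)) :=
      Subtype.ext (cj_ext h3 hi T _).symm
    rw [e]
    rfl)
  have h2 : g0 ∈ N.comap (H369.extI ρ σ α a b c q) := by
    rw [h]
    exact Subgroup.mem_top _
  rw [e1]
  exact h2

theorem short_T [NumberField L] (s : SL1 (up L a) (q * up L b) →* GT ρ σ α a b c q)
    (hs : ∀ x y, (s x).1 y = shortFun ρ (psiL α q ((x : (Qt (up L a) (q * up L b))ˣ) :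
      Qt (up L a) (q * up L b))) y) : (N.comap s).index ≠ 0 := by
  obtain ⟨p, r, x, h1, h2, h3⟩ := exists_noncentral H.hdiv.aniso (H637.aniso1 H)
  refine hN.1.1 L _ _ (H637.aniso1 H) _ (hN.2.1.comap _) fun h => h3 (h ?_)
  refine aut_T H hN ?_
  rw [hs, h2]
  exact short_ep h1

end cyclic

section noncyclic

variable {k L E : Type} [Field k] [NumberField k] [Field L] [Field E]
  [Algebra k L] [Algebra k E] [Algebra L E]
  [IsScalarTower k L E] [NeZero (2 : E)] {ρ σ ι : E ≃ₐ[k] E} {α : E}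
  {a b c : kˣ} {q : Lˣ} (H : HyI ρ σ ι α a b c q) {N : Subgroup (GTI ρ σ ι α a b c q)}
  (hN : Big N)

include H hN

theorem long_I : ((N.comap (H68.extI ρ σ ι α a b c q)).comap (longI a b c)).index ≠ 0 := by
  obtain ⟨t, h1, h2⟩ := hN.1.2.2 k L E ρ σ ι α a b c q H N hN.2.1 hN.2.2
  exact hN.1.1 k a b H.hdiv.aniso _ ((hN.2.1.comap _).comap _) fun h => h1 (h h2)

theorem aut_I {g : GTI ρ σ ι α a b c q} (he : g.1 (ep α) = ep α) : g ∈ N := by
  obtain ⟨g0, hg0⟩ := H68.exists_fixII H.α2 H.σα H.ρ3 H.fixk g.2 he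
  have e1 : g = H68.extI ρ σ ι α a b c q g0 := Subtype.ext hg0
  have h := fixI_top_m H.hdiv (N.comap (H68.extI ρ σ ι α a b c q)) (hN.2.1.comap _) (by
    intro b' c' Φ h3 hi
    have T : Trip a b' c' gi (Φ gj) (Φ gl) := by
      have := trip_map (trip_std (a := a) (b := b') (c := c')) h3
      rwa [hi] at this
    have := long_I (hyTripI H T) (hN.comap (cjGI ρ σ ι α q T))
    convert this using 2
    ext t
    simp only [Subgroup.mem_comap, MonoidHom.comp_apply]
    have e : H68.extI ρ σ ι α a b c q (conjI Φ h3 hi (longI a b' c' t)) =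
        cjGI ρ σ ι α q T (H68.extI ρ σ ι α a b' c' q (longI a b' c' t)) :=
      Subtype.ext (cj_ext h3 hi T _).symm
    rw [e]
    rfl)
  have h2 : g0 ∈ N.comap (H68.extI ρ σ ι α a b c q) := by
    rw [h]
    exact Subgroup.mem_top _
  rw [e1]
  exact h2

theorem short_I [NumberField L] (s : SL1 (up L a) (q * up L b) →* GTI ρ σ ι α a b c q)
    (hs : ∀ x y, (s x).1 y = shortFun ρ (psiL α q ((x : (Qt (up L a) (q * up L b))ˣ) :
      Qt (up L a) (q * up L b))) y) : (N.comap s).index ≠ 0 := by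
  obtain ⟨p, r, x, h1, h2, h3⟩ := exists_noncentral H.hdiv.aniso H.aniso1
  refine hN.1.1 L _ _ H.aniso1 _ (hN.2.1.comap _) fun h => h3 (h ?_)
  refine aut_I H hN ?_
  rw [hs, h2]
  exact short_ep h1

end noncyclic

/-- The torus trick with two indices. -/
theorem torus_two {L : Type} [Field L] [NumberField L] {a b b₁ : Lˣ}
    (hram : ∀ w, Ram a b w → ¬ Ram a b₁ w)
    (hA : Aniso a b) (hA₁ : Aniso a b₁) {G : Type} [Group G]
    (s : SL1 a b →* G) (s₁ : SL1 a b₁ →* G)
    (N : Subgroup G) (hn : N.Normal) (hN : (N.comap s).index ≠ 0) (hN₁ : (N.comap s₁).index ≠ 0)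
    (m3 : ∀ (t : SL1 a b) (t' : SL1 a b₁) (p q : L),
      ((t : (Qt a b)ˣ) : Qt a b) = ⟨p, q, 0, 0⟩ →
      ((t' : (Qt a b₁)ˣ) : Qt a b₁) = ⟨p, q, 0, 0⟩ →
      s₁ t' ∈ N → s t ∈ N)
    (x : SL1 a b) (hJ : ((x : (Qt a b)ˣ) : Qt a b).imJ = 0)
    (hK : ((x : (Qt a b)ˣ) : Qt a b).imK = 0) : s x ∈ N := by
  have h1 : (N.comap s).Normal := hn.comap _
  have h2 : (N.comap s₁).Normal := hn.comap _
  have h := H637.torus_abs hram hA hA₁ (MonoidHom.inl (SL1 a b) (SL1 a b₁))
    (MonoidHom.inr (SL1 a b) (SL1 a b₁)) ((N.comap s).prod (N.comap s₁))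
    (by rw [Subgroup.index_prod]; exact mul_ne_zero hN hN₁)
    (fun t t' p q e1 e2 h => ⟨m3 t t' p q e1 e2 h.2, one_mem _⟩) x hJ hK
  exact h.1

end Vale.Agent.P011.NM
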