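import Vale.Agent.P011.D4X.Defs
import Vale.Agent.P011NM.Defs
import Vale.Agent.P011.D4X.H691.Na
import Vale.Agent.P011.D4X.H691.Tr
import Vale.Agent.P011.D4Y.Defs
import Vale.Agent.P011.D4Y.H691.Na
import Vale.Agent.P011.D4Y.H691.Tr
import Vale.Agent.P011NM.Base
import Vale.Agent.P011.D4X.H862.Short
import Vale.Agent.P011.D4X.H369.AutI
import Vale.Agent.P011.D4Y.H68.AutI
import Vale.Agent.P011.D4X.H637.Tor
import Vale.Agent.P011.D4Y.H553.Tran
import Vale.Agent.P011.D4X.H63.MixB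
import Vale.Agent.P011.D4X.H553.Tran
import Vale.Agent.P011.D4Y.H63.Mix
import Vale.Agent.P011.D4Y.H691.StabN
import Vale.Agent.P011.D4Y.H691.StabOf
import Vale.Agent.P011.D4X.H370.TripConj
import Vale.Agent.P011.D4Y.H370.TripConjI
import Vale.Agent.P011.D4X.H63.PartA
import Vale.Agent.P011.D4X.H547.PartA
import Vale.Agent.P011.D4X.H547.PartB
import Vale.Agent.P011.D4Y.H63.PartA
import Vale.Agent.P011.D4Y.H547.PartC
import Vale.Agent.P011.D4Y.H691.FinX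
import Vale.Agent.P011.D4Y.H691.OpenX

/-! The version for arbitrary normal subgroups. -/

set_option linter.unusedSectionVars false

section

open NumberField Topology

namespace Vale.Agent.P011.D4X

open Vale.Agent.P011.MPQ Vale.Agent.P011.D4 Vale.Agent.P011.D4.Oct Vale.Agent.P011.E6

/-- The intersection of all big subgroups. -/
def fres_m (G : Type) [Group G] : Subgroup G := ⨅ N : {N : Subgroup G // NM.Big N}, N.1

section classes

variable {k L E : Type} [Field k] [Field L] [Field E] [Algebra k L] [Algebra k E] [Algebra L E]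
  [IsScalarTower k L E]

/-- The residual of `GT`, as a group of linear maps. -/
def Rs_m (ρ σ : E ≃ₐ[k] E) (α : E) (a b c : kˣ) (q : Lˣ) :
    Subgroup (OctL E a b c ≃ₗ[E] OctL E a b c) :=
  (fres_m (GT ρ σ α a b c q)).map (GT ρ σ α a b c q).subtype

/-- The elements of `AT` which are scalar multiples of elements of the residual. -/
def IsN_m (ρ σ : E ≃ₐ[k] E) (α : E) (a b c : kˣ) (q : Lˣ) (z : AT ρ σ α a b c q) : Prop :=
  ∃ (l : Lˣ) (g : OctL E a b c ≃ₗ[E] OctL E a b c), g ∈ Rs_m ρ σ α a b c q ∧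
    ∀ x, z.1 x = algebraMap L E (l : L) • g x

end classes

end Vale.Agent.P011.D4X

end

section

open NumberField Topology

namespace Vale.Agent.P011.D4X

open Vale.Agent.P011.MPQ Vale.Agent.P011.D4 Vale.Agent.P011.D4.Oct Vale.Agent.P011.E6

theorem mem_fres_m {G : Type} [Group G] {x : G} :
    x ∈ fres_m G ↔ ∀ N : Subgroup G, NM.Big N → x ∈ N := by
  rw [fres_m, Subgroup.mem_iInf]
  exact ⟨fun h N hN => h ⟨N, hN⟩, fun h N => h N.1 N.2⟩

theorem fres_map_m {G G' : Type} [Group G] [Group G'] (e : G ≃* G') {x : G} (hx : x ∈ fres_m G) :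
    e x ∈ fres_m G' := by
  rw [mem_fres_m] at hx ⊢
  intro N hN
  have h := hx (N.comap (e : G →* G')) (hN.comap e)
  exact h

section model

variable {k L E : Type} [Field k] [Field L] [Field E] [Algebra k L] [Algebra k E] [Algebra L E]
  [IsScalarTower k L E] {ρ σ : E ≃ₐ[k] E} {ρL : L ≃ₐ[k] L} {α : E}
  {a b c : kˣ} {q : Lˣ}

theorem mem_Rs_m {g : OctL E a b c ≃ₗ[E] OctL E a b c} : g ∈ Rs_m ρ σ α a b c q ↔
    ∃ h : g ∈ GT ρ σ α a b c q, (⟨g, h⟩ : GT ρ σ α a b c q) ∈ fres_m (GT ρ σ α a b c q) := by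
  rw [Rs_m, Subgroup.mem_map]
  constructor
  · rintro ⟨x, hx, rfl⟩
    exact ⟨x.2, hx⟩
  · rintro ⟨h, hx⟩
    exact ⟨_, hx, rfl⟩

theorem Rs_le_m : Rs_m ρ σ α a b c q ≤ GT ρ σ α a b c q := fun _ h => (mem_Rs_m.1 h).1

theorem conj_mem_Rs_m (z : AT ρ σ α a b c q) {g : OctL E a b c ≃ₗ[E] OctL E a b c}
    (h : g ∈ Rs_m ρ σ α a b c q) : z.1 * g * z.1⁻¹ ∈ Rs_m ρ σ α a b c q := by
  obtain ⟨h1, h2⟩ := mem_Rs_m.1 h
  have h3 := fres_map_m (conjG z) h2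
  exact mem_Rs_m.2 ⟨_, h3⟩

variable (H : Hy ρ σ ρL α a b c q)

include H

/-- The normal subgroup `N`. -/
def Hy.NA_m (H : Hy ρ σ ρL α a b c q) : Subgroup (AT ρ σ α a b c q) where
  carrier := {z | IsN_m ρ σ α a b c q z}
  mul_mem' := by
    rintro z w ⟨l, g, hg, h1⟩ ⟨l', g', hg', h2⟩
    refine ⟨l * l', g * g', Subgroup.mul_mem _ hg hg', fun x => ?_⟩
    change z.1 (w.1 x) = _
    rw [h2, map_smul, h1, smul_smul, LinearEquiv.mul_apply, Units.val_mul, map_mul,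
      mul_comm (algebraMap L E (l : L))]
  one_mem' := ⟨1, 1, Subgroup.one_mem _, fun x => by
    rw [Units.val_one, map_one, one_smul]; rfl⟩
  inv_mem' := by
    rintro z ⟨l, g, hg, h1⟩
    refine ⟨l⁻¹, g⁻¹, Subgroup.inv_mem _ hg, fun x => ?_⟩
    have h2 : ∀ v, g (g⁻¹ v) = v := fun v => by
      rw [← LinearEquiv.mul_apply, mul_inv_cancel]; rfl
    have h3 : ∀ v, z.1 ((z⁻¹ : AT ρ σ α a b c q).1 v) = v := fun v => by
      change (z * z⁻¹ : AT ρ σ α a b c q).1 v = v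
      rw [mul_inv_cancel]; rfl
    apply z.1.injective
    rw [h3, map_smul, h1, h2, smul_smul, ← map_mul, Units.inv_mul, map_one, one_smul]

instance Hy.NA_normal_m : H.NA_m.Normal := ⟨by
  rintro z ⟨l, g, hg, h1⟩ w
  refine ⟨l, w.1 * g * w.1⁻¹, conj_mem_Rs_m w hg, fun x => ?_⟩
  change w.1 (z.1 (w.1⁻¹ x)) = _
  rw [h1, map_smul]
  rfl⟩

theorem Hy.NA_le_ker_m : H.NA_m ≤ (clT ρ σ α a b c q).ker := by
  rintro z ⟨l, g, hg, h1⟩
  rw [MonoidHom.mem_ker, clT_eq_one_iff (isKap_kap z)]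
  have h2 : z = H.scal l * ⟨g, GT_le_AT (Rs_le_m hg)⟩ := by
    apply Subtype.ext
    apply LinearEquiv.ext
    intro x
    rw [h1, ← H.scal_apply]
    rfl
  rw [h2, kap_mul, kap_of_GT (Rs_le_m hg), mul_one]
  exact scal_mem_SqL H l

/-- The elements of `GT` which lie in `NA` lie in the residual, if so do the scalars of
`GT`. -/
theorem mem_of_isN_m (g : OctL E a b c ≃ₗ[E] OctL E a b c) (hg : g ∈ GT ρ σ α a b c q)
    (h : IsN_m ρ σ α a b c q ⟨g, GT_le_AT hg⟩) : g ∈ Rs_m ρ σ α a b c q := by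
  obtain ⟨l, g', hg', h1⟩ := h
  have h1' : ∀ x, g x = algebraMap L E (l : L) • g' x := h1
  -- the scalar `l` has multiplier one
  have hg2 := Rs_le_m hg'
  have h2 : algebraMap L E (l : L) = ρ (algebraMap L E (l : L)) * ρ (ρ (algebraMap L E (l : L))) := by
    have h3 := hg.1 1 1
    rw [tri_one_one, h1', tri_smul_left, tri_smul_right, smul_smul, ← hg2.1, tri_one_one] at h3
    have h4 : g' (1 : OctL E a b c) ≠ 0 := by
      intro h5
      have h6 : (1 : OctL E a b c) = 0 := by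
        apply g'.injective
        rw [h5, map_zero]
      have h7 := congrArg (fun x : OctL E a b c => x.fst.re) h6
      simp at h7
    exact smul_left_injective E h4 h3
  have hl0 : algebraMap L E (l : L) ≠ 0 :=
    (map_ne_zero_iff _ (algebraMap L E).injective).2 l.ne_zero
  have hl1 : algebraMap L E (l : L) = 1 := by
    -- `l = ρ l ρ² l`, so `N(l) = l²`, `ρ l = ± l`, and `l = 1`
    set t := algebraMap L E (l : L) with ht
    have h3 : ρ t = ρ (ρ t) * t := by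
      have := congrArg ρ h2
      rwa [map_mul, H.ρ3] at this
    have h4 : t = t * (ρ (ρ t)) ^ 2 := by
      linear_combination h2 + ρ (ρ t) * h3
    have h5 : (ρ (ρ t)) ^ 2 = 1 := by
      have := mul_left_cancel₀ hl0 (h4.symm.trans (mul_one t).symm)
      exact this
    have h6 : (ρ (ρ t) - 1) * (ρ (ρ t) + 1) = 0 := by linear_combination h5
    rcases mul_eq_zero.1 h6 with h7 | h7
    · have h8 : ρ (ρ t) = 1 := by linear_combination h7
      have h9 := congrArg ρ h8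
      rwa [H.ρ3, map_one] at h9
    · have h8 : ρ (ρ t) = -1 := by linear_combination h7
      have h9 := congrArg ρ h8
      rw [H.ρ3, map_neg, map_one] at h9
      have h10 := congrArg ρ h9
      rw [map_neg, map_one] at h10
      linear_combination h2 + ρ t * h8 - h10
  have h3 : g = g' := by
    apply LinearEquiv.ext
    intro x
    rw [h1', hl1, one_smul]
  rw [h3]
  exact hg'

end model

end Vale.Agent.P011.D4X

end

section

open NumberField Topology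

namespace Vale.Agent.P011.D4X

open Vale.Agent.P011.MPQ Vale.Agent.P011.D4 Vale.Agent.P011.D4.Oct Vale.Agent.P011.E6

namespace H691

variable {k L E : Type} [Field k] [Field L] [Field E] [Algebra k L] [Algebra k E] [Algebra L E]
  [IsScalarTower k L E] {ρ σ : E ≃ₐ[k] E} {ρL : L ≃ₐ[k] L} {α : E}
  {a b c : kˣ} {q : Lˣ}

variable [NeZero (2 : E)] {b' c' : kˣ} {j l : Oct a b c} (h : Trip a b' c' gi j l)

theorem cj_mem_Rs_m {g : OctL E a b' c' ≃ₗ[E] OctL E a b' c'} (hg : g ∈ Rs_m ρ σ α a b' c' q) :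
    cjE (tripO E h) g ∈ Rs_m ρ σ α a b c q := by
  obtain ⟨h1, h2⟩ := mem_Rs_m.1 hg
  exact mem_Rs_m.2 ⟨_, fres_map_m (cjG ρ σ α q h) h2⟩

theorem cjA_isN_m {z : AT ρ σ α a b' c' q} (hz : IsN_m ρ σ α a b' c' q z) :
    IsN_m ρ σ α a b c q (cjA ρ σ α q h z) := by
  obtain ⟨l', g, hg, h1⟩ := hz
  refine ⟨l', _, cj_mem_Rs_m h hg, fun x => ?_⟩
  change cjE (tripO E h) z.1 x = _
  obtain ⟨x, rfl⟩ := (tripO E h).surjective x
  rw [cj_apply, cj_apply, h1, map_smul]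

end H691

end Vale.Agent.P011.D4X

end

section

open NumberField IsDedekindDomain Topology

namespace Vale.Agent.P011.D4Y

open Vale.Agent.P011.Arith Vale.Agent.P011.MPQ Vale.Agent.P011.D4 Vale.Agent.P011.D4.Oct
  Vale.Agent.P011.E6 Vale.Agent.P011.D4X

section classes

variable {k L E : Type} [Field k] [Field L] [Field E] [Algebra k L] [Algebra k E] [Algebra L E]
  [IsScalarTower k L E]

/-- The residual of `GTI`, as a group of linear maps. -/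
def RsI_m (ρ σ ι : E ≃ₐ[k] E) (α : E) (a b c : kˣ) (q : Lˣ) :
    Subgroup (OctL E a b c ≃ₗ[E] OctL E a b c) :=
  (fres_m (GTI ρ σ ι α a b c q)).map (GTI ρ σ ι α a b c q).subtype

/-- The elements of `ATI` which are scalar multiples of elements of the residual. -/
def IsNI_m (ρ σ ι : E ≃ₐ[k] E) (α : E) (a b c : kˣ) (q : Lˣ) (z : ATI ρ σ ι α a b c q) : Prop :=
  ∃ (l : Lˣ) (g : OctL E a b c ≃ₗ[E] OctL E a b c), g ∈ RsI_m ρ σ ι α a b c q ∧
    ∀ x, z.1 x = ρ (algebraMap L E (l : L)) • g x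

end classes

end Vale.Agent.P011.D4Y

end

section

open NumberField Topology

namespace Vale.Agent.P011.D4Y

open Vale.Agent.P011.MPQ Vale.Agent.P011.D4 Vale.Agent.P011.D4.Oct Vale.Agent.P011.E6

open Vale.Agent.P011.D4X

section model

variable {k L E : Type} [Field k] [Field L] [Field E] [Algebra k L] [Algebra k E] [Algebra L E]
  [IsScalarTower k L E] {ρ σ ι : E ≃ₐ[k] E} {α : E}
  {a b c : kˣ} {q : Lˣ}

theorem mem_RsI_m {g : OctL E a b c ≃ₗ[E] OctL E a b c} : g ∈ RsI_m ρ σ ι α a b c q ↔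
    ∃ h : g ∈ GTI ρ σ ι α a b c q,
      (⟨g, h⟩ : GTI ρ σ ι α a b c q) ∈ fres_m (GTI ρ σ ι α a b c q) := by
  rw [RsI_m, Subgroup.mem_map]
  constructor
  · rintro ⟨x, hx, rfl⟩
    exact ⟨x.2, hx⟩
  · rintro ⟨h, hx⟩
    exact ⟨_, hx, rfl⟩

theorem RsI_le_m : RsI_m ρ σ ι α a b c q ≤ GTI ρ σ ι α a b c q := fun _ h => (mem_RsI_m.1 h).1

theorem conj_mem_RsI_m (z : ATI ρ σ ι α a b c q) {g : OctL E a b c ≃ₗ[E] OctL E a b c}
    (h : g ∈ RsI_m ρ σ ι α a b c q) : z.1 * g * z.1⁻¹ ∈ RsI_m ρ σ ι α a b c q := by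
  obtain ⟨h1, h2⟩ := mem_RsI_m.1 h
  have h3 := fres_map_m (conjGI z) h2
  exact mem_RsI_m.2 ⟨_, h3⟩

variable (H : HyI ρ σ ι α a b c q)

include H

/-- The normal subgroup `N`. -/
def HyI.NA_m (H : HyI ρ σ ι α a b c q) : Subgroup (ATI ρ σ ι α a b c q) where
  carrier := {z | IsNI_m ρ σ ι α a b c q z}
  mul_mem' := by
    rintro z w ⟨l, g, hg, h1⟩ ⟨l', g', hg', h2⟩
    refine ⟨l * l', g * g', Subgroup.mul_mem _ hg hg', fun x => ?_⟩
    change z.1 (w.1 x) = _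
    rw [h2, map_smul, h1, smul_smul, LinearEquiv.mul_apply, Units.val_mul, map_mul, map_mul,
      mul_comm (ρ (algebraMap L E (l : L)))]
  one_mem' := ⟨1, 1, Subgroup.one_mem _, fun x => by
    rw [Units.val_one, map_one, map_one, one_smul]; rfl⟩
  inv_mem' := by
    rintro z ⟨l, g, hg, h1⟩
    refine ⟨l⁻¹, g⁻¹, Subgroup.inv_mem _ hg, fun x => ?_⟩
    have h2 : ∀ v, g (g⁻¹ v) = v := fun v => by
      rw [← LinearEquiv.mul_apply, mul_inv_cancel]; rfl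
    have h3 : ∀ v, z.1 ((z⁻¹ : ATI ρ σ ι α a b c q).1 v) = v := fun v => by
      change (z * z⁻¹ : ATI ρ σ ι α a b c q).1 v = v
      rw [mul_inv_cancel]; rfl
    apply z.1.injective
    rw [h3, map_smul, h1, h2, smul_smul, ← map_mul, ← map_mul, Units.inv_mul, map_one, map_one,
      one_smul]

instance HyI.NA_normal_m : H.NA_m.Normal := ⟨by
  rintro z ⟨l, g, hg, h1⟩ w
  refine ⟨l, w.1 * g * w.1⁻¹, conj_mem_RsI_m w hg, fun x => ?_⟩
  change w.1 (z.1 (w.1⁻¹ x)) = _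
  rw [h1, map_smul]
  rfl⟩

theorem HyI.kap_mem_of_NA_m {z : ATI ρ σ ι α a b c q} (hz : z ∈ H.NA_m) : kapI z ∈ SqL k L := by
  obtain ⟨l, g, hg, h1⟩ := hz
  have h2 : z = H.scal l * ⟨g, GTI_le_ATI (RsI_le_m hg)⟩ := by
    apply Subtype.ext
    apply LinearEquiv.ext
    intro x
    rw [h1, ← H.scal_apply]
    rfl
  rw [h2, kapI_mul, kapI_of_GTI (RsI_le_m hg), mul_one]
  exact scal_mem_SqLI H l

/-- The elements of `GTI` which lie in `NA` lie in the residual. -/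
theorem mem_of_isNI_m (g : OctL E a b c ≃ₗ[E] OctL E a b c) (hg : g ∈ GTI ρ σ ι α a b c q)
    (h : IsNI_m ρ σ ι α a b c q ⟨g, GTI_le_ATI hg⟩) : g ∈ RsI_m ρ σ ι α a b c q := by
  obtain ⟨l, g', hg', h1⟩ := h
  have h1' : ∀ x, g x = ρ (algebraMap L E (l : L)) • g' x := h1
  have hg2 := RsI_le_m hg'
  obtain ⟨t, ht⟩ : ∃ t, t = ρ (algebraMap L E (l : L)) := ⟨_, rfl⟩
  rw [← ht] at h1'
  have h2 : t = ρ t * ρ (ρ t) := by
    have h3 := hg.1 1 1
    rw [tri_one_one, h1', tri_smul_left, tri_smul_right, smul_smul, ← hg2.1, tri_one_one] at h3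
    have h4 : g' (1 : OctL E a b c) ≠ 0 := by
      intro h5
      have h6 : (1 : OctL E a b c) = 0 := by
        apply g'.injective
        rw [h5, map_zero]
      have h7 := congrArg (fun x : OctL E a b c => x.fst.re) h6
      simp at h7
    exact smul_left_injective E h4 h3
  have hl0 : t ≠ 0 := by
    rw [ht]
    exact (map_ne_zero_iff ρ ρ.injective).2
      ((map_ne_zero_iff _ (algebraMap L E).injective).2 l.ne_zero)
  have hl1 : t = 1 := by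
    have h3 : ρ t = ρ (ρ t) * t := by
      have := congrArg ρ h2
      rwa [map_mul, H.ρ3] at this
    have h4 : t = t * (ρ (ρ t)) ^ 2 := by
      linear_combination h2 + ρ (ρ t) * h3
    have h5 : (ρ (ρ t)) ^ 2 = 1 := by
      have := mul_left_cancel₀ hl0 (h4.symm.trans (mul_one t).symm)
      exact this
    have h6 : (ρ (ρ t) - 1) * (ρ (ρ t) + 1) = 0 := by linear_combination h5
    rcases mul_eq_zero.1 h6 with h7 | h7
    · have h8 : ρ (ρ t) = 1 := by linear_combination h7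
      have h9 := congrArg ρ h8
      rwa [H.ρ3, map_one] at h9
    · have h8 : ρ (ρ t) = -1 := by linear_combination h7
      have h9 := congrArg ρ h8
      rw [H.ρ3, map_neg, map_one] at h9
      have h10 := congrArg ρ h9
      rw [map_neg, map_one] at h10
      linear_combination h2 + ρ t * h8 - h10
  have h3 : g = g' := by
    apply LinearEquiv.ext
    intro x
    rw [h1', hl1, one_smul]
  rw [h3]
  exact hg'

end model

end Vale.Agent.P011.D4Y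

end

section

open NumberField Topology

namespace Vale.Agent.P011.D4Y

open Vale.Agent.P011.MPQ Vale.Agent.P011.D4 Vale.Agent.P011.D4.Oct Vale.Agent.P011.E6

open Vale.Agent.P011.D4X Vale.Agent.P011.D4X.H691

variable {k L E : Type} [Field k] [Field L] [Field E] [Algebra k L] [Algebra k E] [Algebra L E]
  [IsScalarTower k L E] {ρ σ ι : E ≃ₐ[k] E} {α : E}
  {a b c : kˣ} {q : Lˣ}

variable [NeZero (2 : E)] {b' c' : kˣ} {j l : Oct a b c} (h : Trip a b' c' gi j l)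

theorem cj_mem_RsI_m {g : OctL E a b' c' ≃ₗ[E] OctL E a b' c'} (hg : g ∈ RsI_m ρ σ ι α a b' c' q) :
    cjE (tripO E h) g ∈ RsI_m ρ σ ι α a b c q := by
  obtain ⟨h1, h2⟩ := mem_RsI_m.1 hg
  exact mem_RsI_m.2 ⟨_, fres_map_m (cjGI ρ σ ι α q h) h2⟩

theorem cjAI_isNI_m {z : ATI ρ σ ι α a b' c' q} (hz : IsNI_m ρ σ ι α a b' c' q z) :
    IsNI_m ρ σ ι α a b c q (cjAI ρ σ ι α q h z) := by
  obtain ⟨l', g, hg, h1⟩ := hz
  refine ⟨l', _, cj_mem_RsI_m h hg, fun x => ?_⟩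
  change cjE (tripO E h) z.1 x = _
  obtain ⟨x, rfl⟩ := (tripO E h).surjective x
  rw [cj_apply, cj_apply, h1, map_smul]

end Vale.Agent.P011.D4Y

end

section

open NumberField IsDedekindDomain Topology

namespace Vale.Agent.P011.D4X

open Vale.Agent.P011.Arith Vale.Agent.P011.MPQ Vale.Agent.P011.D4 Vale.Agent.P011.D4.Oct
  Vale.Agent.P011.E6

section

variable {k L E : Type} [Field k] [NumberField k] [Field L] [NumberField L] [Field E]
  [Algebra k L] [Algebra k E] [Algebra L E]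
  [IsScalarTower k L E] [NeZero (2 : E)] {ρ σ : E ≃ₐ[k] E} {ρL : L ≃ₐ[k] L} {α : E}
  {a b c : kˣ} {q : Lˣ} (H : Hy ρ σ ρL α a b c q)

include H

/-- The short subgroup lies in the residual. -/
theorem short_mem_of_m
    (hEx : ∀ x : SL1 (up L a) (q * up L b), ∃ g ∈ GT ρ σ α a b c q,
      ∀ y : OctL E a b c, g y = shortFun ρ (psiL α q ((x : (Qt (up L a) (q * up L b))ˣ) :
        Qt (up L a) (q * up L b))) y)
    (hMul : ∀ x y : Qt (up L a) (q * up L b),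
      (psiL α q (x * y) : Qt (up E a) (up E b)) = psiL α q x * psiL α q y)
    (hTor : ∀ {x : SL1 (up L a) (q * up L b)} {D : k} {w : Qt (up L a) (q * up L b)},
      GoodD a b q D → ¬ IsSquare D → ¬ IsSquare ((a : k) * D) → w.re = 0 →
      w * w = algebraMap k L D • 1 → ∀ {s t : L},
      ((x : (Qt (up L a) (q * up L b))ˣ) : Qt (up L a) (q * up L b)) = s • 1 + t • w →
      ∀ {g : OctL E a b c ≃ₗ[E] OctL E a b c},
      (∀ y : OctL E a b c, g y = shortFun ρ (psiL α q ((x : (Qt (up L a) (q * up L b))ˣ) :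
        Qt (up L a) (q * up L b))) y) → g ∈ Rs_m ρ σ α a b c q)
    {x : SL1 (up L a) (q * up L b)} {g : OctL E a b c ≃ₗ[E] OctL E a b c}
    (hg : ∀ y : OctL E a b c, g y = shortFun ρ (psiL α q ((x : (Qt (up L a) (q * up L b))ˣ) :
      Qt (up L a) (q * up L b))) y) : g ∈ Rs_m ρ σ α a b c q := by
  choose S hS1 hS2 using hEx
  have hmul : ∀ x y, S (x * y) = S x * S y := by
    intro x y
    apply LinearEquiv.ext
    intro z
    rw [LinearEquiv.mul_apply, hS2, hS2, hS2, ← Em.shortFun_mul, ← hMul]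
    rfl
  let s : SL1 (up L a) (q * up L b) →* GT ρ σ α a b c q :=
    MonoidHom.mk' (fun x => ⟨S x, hS1 x⟩) fun x y => Subtype.ext (hmul x y)
  have hs : ∀ x, ((s x : GT ρ σ α a b c q) : OctL E a b c ≃ₗ[E] OctL E a b c) = S x :=
    fun _ => rfl
  have hgS : g = S x := by
    apply LinearEquiv.ext
    intro y
    rw [hg, hS2]
  rw [hgS, mem_Rs_m]
  refine ⟨hS1 x, ?_⟩
  rw [mem_fres_m]
  intro N hN
  suffices h : N.comap s = ⊤ by
    have : x ∈ N.comap s := by rw [h]; exact Subgroup.mem_top x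
    exact this
  obtain ⟨c', D, hD, h1, h2, h3, h4, h5⟩ := exists_D (k := k) (L := L) H.h3 H.ρ1 (a := a) (b := b)
    (q := q)
  obtain ⟨g1, g2, g3, g4⟩ := good_of H.h3 H.hdiv.aniso h2 h3 fun τ hτ => (h4 τ).2 hτ
  have hns : ¬ IsSquare (D : k) := by
    obtain ⟨τ, ha, hb, -⟩ := exists_dfn H.hdiv
    rintro ⟨r, hr⟩
    have h6 := (h4 τ).2 ha
    rw [hr, map_mul] at h6
    exact absurd h6 (not_lt.2 (mul_self_nonneg _))
  refine sl1_top (D := up L D) (c := algebraMap k L c') H.aniso1 ?_ h1 g4 _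
    (hN.2.1.comap s) (NM.short_T H hN s hS2) ?_
  · change algebraMap k L (D : k) = _
    rw [hD, map_add, map_mul, map_one, map_ofNat]
  · intro w hw0 hww y p r hy
    have h8 := hTor (x := y) ⟨g1, g2, g3, g4, fun τ hτ => (h4 τ).1 hτ⟩ hns h5 hw0 hww hy
      (g := S y) (hS2 y)
    obtain ⟨h6, h7⟩ := mem_Rs_m.1 h8
    exact mem_fres_m.1 h7 _ hN

end

end Vale.Agent.P011.D4X

end

section

open NumberField Topology

namespace Vale.Agent.P011.D4X.H369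

open Vale.Agent.P011.MPQ Vale.Agent.P011.D4 Vale.Agent.P011.D4.Oct Vale.Agent.P011.D4.Em

open Vale.Agent.P011.D4.B.FI (fixI fixI_top mem_fixI)

section arith

variable {k L E : Type} [Field k] [NumberField k] [Field L] [Field E]
  [Algebra k L] [Algebra k E] [Algebra L E]
  [IsScalarTower k L E] [NeZero (2 : E)] {ρ σ : E ≃ₐ[k] E} {ρL : L ≃ₐ[k] L} {α : E}
  {a b c : kˣ} {q : Lˣ} (H : Hy ρ σ ρL α a b c q)

include H

/-- **F1a**: the automorphisms of the octonion algebra which fix `i`. -/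
theorem autI_mem_m {g : OctL E a b c ≃ₗ[E] OctL E a b c} (hg : g ∈ GT ρ σ α a b c q)
    (he : g (ep α) = ep α) : g ∈ Rs_m ρ σ α a b c q := by
  refine ⟨⟨g, hg⟩, ?_, rfl⟩
  change (⟨g, hg⟩ : GT ρ σ α a b c q) ∈ fres_m _
  rw [fres_m, Subgroup.mem_iInf]
  rintro ⟨N, hN⟩
  exact NM.aut_T H hN he

end arith

end Vale.Agent.P011.D4X.H369

end

section

open NumberField Topology

namespace Vale.Agent.P011.D4Y.H68

open Vale.Agent.P011.MPQ Vale.Agent.P011.D4 Vale.Agent.P011.D4.Oct Vale.Agent.P011.D4.Em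

open Vale.Agent.P011.D4.B.FI (fixI fixI_top mem_fixI)

open Vale.Agent.P011.D4X Vale.Agent.P011.D4X.H369

end Vale.Agent.P011.D4Y.H68

namespace Vale.Agent.P011.D4Y

open Vale.Agent.P011.MPQ Vale.Agent.P011.D4 Vale.Agent.P011.D4.Oct Vale.Agent.P011.D4.Em

open Vale.Agent.P011.D4.B.FI (fixI fixI_top mem_fixI)

open Vale.Agent.P011.D4X

section arith

variable {k L E : Type} [Field k] [NumberField k] [Field L] [Field E]
  [Algebra k L] [Algebra k E] [Algebra L E]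
  [IsScalarTower k L E] [NeZero (2 : E)] {ρ σ ι : E ≃ₐ[k] E} {α : E}
  {a b c : kˣ} {q : Lˣ} (H : HyI ρ σ ι α a b c q)

include H

/-- **F1a**: the automorphisms of the octonion algebra which fix `i`. -/
theorem autI_mem_m {g : OctL E a b c ≃ₗ[E] OctL E a b c} (hg : g ∈ GTI ρ σ ι α a b c q)
    (he : g (ep α) = ep α) : g ∈ RsI_m ρ σ ι α a b c q := by
  refine ⟨⟨g, hg⟩, ?_, rfl⟩
  change (⟨g, hg⟩ : GTI ρ σ ι α a b c q) ∈ fres_m _
  rw [fres_m, Subgroup.mem_iInf]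
  rintro ⟨N, hN⟩
  exact NM.aut_I H hN he

end arith

end Vale.Agent.P011.D4Y

end

section

open NumberField Topology

namespace Vale.Agent.P011.D4X

open Vale.Agent.P011.Arith Vale.Agent.P011.MPQ Vale.Agent.P011.D4 Vale.Agent.P011.D4.Oct
  Vale.Agent.P011.E6

section arith

variable {k L E : Type} [Field k] [NumberField k] [Field L] [NumberField L] [Field E]
  [Algebra k L] [Algebra k E] [Algebra L E]
  [IsScalarTower k L E] [NeZero (2 : E)] {ρ σ : E ≃ₐ[k] E} {ρL : L ≃ₐ[k] L} {α : E}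
  {a b c : kˣ} {q : Lˣ} (H : Hy ρ σ ρL α a b c q)

include H

/-- F1b (637): the torus. -/
theorem tor_mem_m {x : SL1 (up L a) (q * up L b)}
    (hJ : ((x : (Qt (up L a) (q * up L b))ˣ) : Qt (up L a) (q * up L b)).imJ = 0)
    (hK : ((x : (Qt (up L a) (q * up L b))ˣ) : Qt (up L a) (q * up L b)).imK = 0)
    {g : OctL E a b c ≃ₗ[E] OctL E a b c}
    (hg : ∀ y : OctL E a b c, g y = shortFun ρ (psiL α q ((x : (Qt (up L a) (q * up L b))ˣ) :
      Qt (up L a) (q * up L b))) y) : g ∈ Rs_m ρ σ α a b c q := by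
  obtain ⟨u, b₁, hb₁, -, hram⟩ := H637.exists_u H.h3 H.ρ1 H.ρL3 a b c q
  have ht := H24.trip_u (a := a) (b := b) (c := c) hb₁
  have H₁ : Hy ρ σ ρL α a b₁ b q := H637.hy_trip H ht
  obtain ⟨s, hs⟩ := H637.exists_shortHom H
  obtain ⟨s₁, hs₁⟩ := H637.exists_shortHom H₁
  have hgs : g = (s x).1 := by
    apply LinearEquiv.ext
    intro y
    rw [hg, hs]
  rw [hgs, mem_Rs_m]
  refine ⟨(s x).2, ?_⟩
  rw [mem_fres_m]
  intro N hN
  refine NM.torus_two hram (H637.aniso1 H) (H637.aniso1 H₁) s ((H637.tripHom ht).comp s₁) N hN.2.1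
    (NM.short_T H hN s hs) (NM.short_T H₁ (hN.comap (H691.cjG ρ σ α q ht)) s₁ hs₁) ?_ x hJ hK
  intro t t' p r e1 e2 h
  have h0 : ∀ {b' c' : kˣ}, (ep α : OctL E a b' c') = ⟨⟨1 / 2, 1 / (2 * α), 0, 0⟩, 0⟩ := rfl
  have hT : ∀ x y : E, tripO E ht ⟨⟨x, y, 0, 0⟩, 0⟩ = ⟨⟨x, y, 0, 0⟩, 0⟩ := fun x y => by
    rw [tripO_apply]
    exact H24.emb_torus _ _ x y
  have h1 : (s t).1 (ep α) = ((H637.tripHom ht).comp s₁ t').1 (ep α) := by
    rw [hs, e1, H637.psiL_torus, h0, H637.shortFun_torus]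
    conv_rhs => rw [← hT]
    rw [MonoidHom.comp_apply, H637.tripHom_apply, hs₁, e2, H637.psiL_torus, H637.shortFun_torus, hT]
  have h2 : (((H637.tripHom ht).comp s₁ t')⁻¹ * s t).1 (ep α) = ep α := by
    rw [Subgroup.coe_mul, Subgroup.coe_inv, LinearEquiv.mul_apply, h1, ← LinearEquiv.mul_apply,
      inv_mul_cancel]
    rfl
  obtain ⟨h3, h4⟩ := mem_Rs_m.1 (H369.autI_mem_m H (((H637.tripHom ht).comp s₁ t')⁻¹ * s t).2 h2)
  have h5 := mem_fres_m.1 h4 _ hN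
  have h6 := mul_mem h h5
  have h7 : (H637.tripHom ht).comp s₁ t' * (((H637.tripHom ht).comp s₁ t')⁻¹ * s t) = s t := by group
  rw [← h7]
  exact h6

end arith

end Vale.Agent.P011.D4X

end

section

namespace Vale.Agent.P011.D4Y

open Vale.Agent.P011.MPQ Vale.Agent.P011.D4 Vale.Agent.P011.D4.Oct Vale.Agent.P011.E6

open Vale.Agent.P011.D4X

section tran

variable {k L E E1 : Type} [Field k] [Field L] [Field E] [Field E1] [Algebra k L] [Algebra k E]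
  [Algebra k E1] [Algebra L E] [Algebra L E1] [IsScalarTower k L E] [IsScalarTower k L E1]
  {ρ σ ι : E ≃ₐ[k] E} {ρ1 σ1 ι1 : E1 ≃ₐ[k] E1} {α : E} {α1 : E1} {a b c a1 b1 c1 : kˣ} {q q1 : Lˣ}

/-- The residual is kept. -/
theorem tran_RsI_m (φ : ATI ρ σ ι α a b c q ≃* ATI ρ1 σ1 ι1 α1 a1 b1 c1 q1) (hφ : ∀ z, kapI (φ z) = kapI z)
    {z : ATI ρ σ ι α a b c q} (h : (φ z).1 ∈ RsI_m ρ1 σ1 ι1 α1 a1 b1 c1 q1) :
    z.1 ∈ RsI_m ρ σ ι α a b c q := by
  obtain ⟨h1, h2⟩ := mem_RsI_m.1 h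
  have h3 := fres_map_m (tranGI φ hφ).symm h2
  have h4 : (((tranGI φ hφ).symm ⟨(φ z).1, h1⟩ : GTI ρ σ ι α a b c q) :
      OctL E a b c ≃ₗ[E] OctL E a b c) = z.1 := by
    change (φ.symm ⟨(φ z).1, _⟩).1 = z.1
    have h5 : (⟨(φ z).1, GTI_le_ATI h1⟩ : ATI ρ1 σ1 ι1 α1 a1 b1 c1 q1) = φ z := rfl
    rw [h5, φ.symm_apply_apply]
  refine mem_RsI_m.2 ⟨h4 ▸ ((tranGI φ hφ).symm ⟨(φ z).1, h1⟩).2, ?_⟩
  have h5 : (⟨z.1, h4 ▸ ((tranGI φ hφ).symm ⟨(φ z).1, h1⟩).2⟩ : GTI ρ σ ι α a b c q) =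
      (tranGI φ hφ).symm ⟨(φ z).1, h1⟩ := Subtype.ext h4.symm
  rw [h5]
  exact h3

end tran

end Vale.Agent.P011.D4Y

end

section

open NumberField Topology

namespace Vale.Agent.P011.D4X

open Vale.Agent.P011.MPQ Vale.Agent.P011.D4 Vale.Agent.P011.D4.Oct Vale.Agent.P011.E6

section mix

variable {k L E : Type} [Field k] [NumberField k] [Field L] [NumberField L] [Field E]
  [Algebra k L] [Algebra k E] [Algebra L E]
  [IsScalarTower k L E] [NeZero (2 : E)] {ρ σ : E ≃ₐ[k] E} {ρL : L ≃ₐ[k] L} {α : E}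
  {a b c : kˣ} {q : Lˣ} (H : Hy ρ σ ρL α a b c q)

include H

/-- **F1d**, from the case of elements with a common good discriminant. -/
theorem mix_mem_of_m
    (hshort : ∀ (x : SL1 (up L a) (q * up L b)) (g : OctL E a b c ≃ₗ[E] OctL E a b c),
      (∀ y : OctL E a b c, g y = shortFun ρ (psiL α q ((x : (Qt (up L a) (q * up L b))ˣ) :
        Qt (up L a) (q * up L b))) y) → g ∈ Rs_m ρ σ α a b c q)
    (hmid : ∀ (s : kˣ) (u : k) (D : kˣ) (w : Qt a b) (p : Qt (up L a) (q * up L b)),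
      (D : k) = u ^ 2 - 4 * s → GoodD a b q (D : k) → (∀ τ : k →+* ℝ, τ D < 0 ↔ τ a < 0) →
      (∀ r : k, (D : k) ≠ a * r ^ 2) → w.re = 0 → w * w = (D : k) • 1 → p.re = 0 →
      p * p = algebraMap k L (D : k) • 1 →
      ∀ g : OctL E a b c ≃ₗ[E] OctL E a b c, (∀ y, g y = (algebraMap k E (s : k))⁻¹ •
        zF ρ ρL α q ((1 / 2 : k) • (u • 1 + w)) ((1 / 2 : L) • (algebraMap k L u • 1 + p))
          (s ^ 2) y) → g ∈ Rs_m ρ σ α a b c q)
    {x0 : Qt a b} {x : Qt (up L a) (q * up L b)} {s : kˣ} (h0 : nrd x0 = s)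
    (h1 : nrd x = algebraMap k L (s : k)) {g : OctL E a b c ≃ₗ[E] OctL E a b c}
    (hg : ∀ y : OctL E a b c, g y =
      (algebraMap k E (s : k))⁻¹ • zF ρ ρL α q x0 x (s ^ 2) y) : g ∈ Rs_m ρ σ α a b c q := by
  -- products of long and short elements
  have hLS : ∀ (g0 : Qt a b) (g1 : Qt (up L a) (q * up L b)), nrd g0 = 1 → nrd g1 = 1 →
      ∃ h ∈ Rs_m ρ σ α a b c q, ∀ y, h y = zFun ρ (psiL α q g1) (qup E g0) 1 y := by
    intro g0 g1 hg0 hg1
    obtain ⟨y0, hy0⟩ := exists_SL1 hg0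
    obtain ⟨y1, hy1⟩ := exists_SL1 hg1
    obtain ⟨l, hl, hl'⟩ := exists_long H y0
    obtain ⟨m, hm, hm'⟩ := exists_short H y1
    have hlR : l ∈ Rs_m ρ σ α a b c q := H369.autI_mem_m H hl (by
      rw [hl']
      ext1
      · rfl
      · change _ * (0 : Qt (up E a) (up E b)) = 0
        rw [mul_zero])
    refine ⟨l * m, (Rs_m ρ σ α a b c q).mul_mem hlR (hshort y1 m hm'), fun y => ?_⟩
    rw [LinearEquiv.mul_apply, hl', hm', hy0, hy1]
    ext1
    · rfl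
    · change _ * (_ * _) = (1 : E) • (_ * _ * _)
      rw [one_smul, mul_assoc]
  by_cases hs1 : s = 1
  · subst hs1
    rw [Units.val_one] at h0 h1
    rw [map_one] at h1
    obtain ⟨h, hh, hh'⟩ := hLS x0 x h0 h1
    have e1 : g = h := by
      apply LinearEquiv.ext
      intro y
      rw [hg, hh', Mix.zF_eq x0 (s := 1) (by rw [h1, Units.val_one, map_one]), Units.val_one,
        map_one, inv_one, one_smul]
    rw [e1]
    exact hh
  · have hpos : ∀ τ : k →+* ℝ, τ a < 0 → 0 < τ s := by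
      intro τ hτ
      have hs0 : τ (s : k) ≠ 0 := (map_ne_zero τ).2 s.ne_zero
      by_cases hb' : 0 < τ b
      · -- the algebra `Q₁` is definite at one of the places
        obtain ⟨w, hw, hqw⟩ := H.exists_neg hτ hb'
        have hwk : ∀ t : k, w (algebraMap k L t) = τ t := fun t => by rw [← hw]; rfl
        rw [← hwk, ← h1]
        refine lt_of_le_of_ne ?_ (fun h0' => hs0 ?_)
        · have e1 : ((up L a : Lˣ) : L) = algebraMap k L (a : k) := rfl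
          have e2 : ((q * up L b : Lˣ) : L) = (q : L) * algebraMap k L (b : k) := rfl
          simp only [nrd, e1, e2, map_sub, map_add, map_mul, map_pow, hwk]
          have hqb : w (q : L) * τ b < 0 := mul_neg_of_neg_of_pos hqw hb'
          nlinarith [sq_nonneg (w x.re), mul_nonneg (neg_nonneg.2 hτ.le) (sq_nonneg (w x.imI)),
            mul_nonneg (neg_nonneg.2 hqb.le) (sq_nonneg (w x.imJ)),
            mul_nonneg (mul_nonneg (neg_nonneg.2 hτ.le) (neg_nonneg.2 hqb.le))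
              (sq_nonneg (w x.imK))]
        · rw [← hwk, ← h1, ← h0']
      have hb' : τ b < 0 := lt_of_le_of_ne (not_lt.1 hb') ((map_ne_zero τ).2 b.ne_zero)
      refine lt_of_le_of_ne ?_ (Ne.symm hs0)
      rw [← h0]
      simp only [nrd, map_sub, map_add, map_mul, map_pow]
      nlinarith [sq_nonneg (τ x0.re), mul_nonneg (neg_nonneg.2 hτ.le) (sq_nonneg (τ x0.imI)),
        mul_nonneg (neg_nonneg.2 hb'.le) (sq_nonneg (τ x0.imJ)),
        mul_nonneg (mul_nonneg (neg_nonneg.2 hτ.le) (neg_nonneg.2 hb'.le))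
          (sq_nonneg (τ x0.imK))]
    obtain ⟨u, D, hD, hgood, hsign, hns⟩ := exists_goodu (q := q) H.h3 H.ρ1 H.hdiv.aniso hs1 hpos
    obtain ⟨-, ⟨w, hw0, hw⟩, -, ⟨p, hp0, hp⟩, -⟩ := id hgood
    have hNw := nrd_half hw0 hw hD
    have hNp := nrd_half (u := algebraMap k L u) (s := algebraMap k L (s : k)) hp0 hp (by
      rw [hD, map_sub, map_mul, map_pow, map_ofNat])
    set x0' : Qt a b := (1 / 2 : k) • (u • 1 + w) with hx0'
    set x' : Qt (up L a) (q * up L b) := (1 / 2 : L) • (algebraMap k L u • 1 + p) with hx'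
    have hsk : (s : k) ≠ 0 := s.ne_zero
    have hsL : algebraMap k L (s : k) ≠ 0 := (map_ne_zero _).2 hsk
    have f0 : x0' * ((s : k)⁻¹ • (star x0' * x0)) = x0 := by
      rw [mul_smul_comm, ← mul_assoc, q_mul_star, hNw, smul_mul_assoc, one_mul, smul_smul,
        inv_mul_cancel₀ hsk, one_smul]
    have f1 : x' * ((algebraMap k L (s : k))⁻¹ • (star x' * x)) = x := by
      rw [mul_smul_comm, ← mul_assoc, q_mul_star, hNp, smul_mul_assoc, one_mul, smul_smul,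
        inv_mul_cancel₀ hsL, one_smul]
    have n0 : nrd ((s : k)⁻¹ • (star x0' * x0)) = 1 := by
      have := congrArg nrd f0
      rw [nrd_mul, hNw, h0] at this
      exact mul_left_cancel₀ hsk (by rw [this, mul_one])
    have n1 : nrd ((algebraMap k L (s : k))⁻¹ • (star x' * x)) = 1 := by
      have := congrArg nrd f1
      rw [nrd_mul, hNp, h1] at this
      exact mul_left_cancel₀ hsL (by rw [this, mul_one])
    obtain ⟨h, hh, hh'⟩ := hLS _ _ n0 n1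
    have key : ∀ y, g (h⁻¹ y) = (algebraMap k E (s : k))⁻¹ • zF ρ ρL α q x0' x' (s ^ 2) y := by
      intro y
      rw [hg, Mix.zF_eq x0 h1, Mix.zF_eq x0' hNp]
      congr 1
      have e1 : y = h (h⁻¹ y) := by
        rw [← LinearEquiv.mul_apply, mul_inv_cancel]; rfl
      conv_rhs => rw [e1, hh', zFun_mul, ← psiL_mul H, ← qup_mul, f0, f1, one_mul]
    have h5 : g * h⁻¹ ∈ Rs_m ρ σ α a b c q :=
      hmid s u D w p hD hgood hsign hns hw0 hw hp0 hp _ key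
    have e2 : g = g * h⁻¹ * h := by group
    rw [e2]
    exact (Rs_m ρ σ α a b c q).mul_mem h5 hh

end mix

end Vale.Agent.P011.D4X

end

section

namespace Vale.Agent.P011.D4X

open Vale.Agent.P011.MPQ Vale.Agent.P011.D4 Vale.Agent.P011.D4.Oct Vale.Agent.P011.E6

section tran

variable {k L E E1 : Type} [Field k] [Field L] [Field E] [Field E1] [Algebra k L] [Algebra k E]
  [Algebra k E1] [Algebra L E] [Algebra L E1] [IsScalarTower k L E] [IsScalarTower k L E1]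
  {ρ σ : E ≃ₐ[k] E} {ρ1 σ1 : E1 ≃ₐ[k] E1} {α : E} {α1 : E1} {a b c a1 b1 c1 : kˣ} {q q1 : Lˣ}

/-- The residual is kept. -/
theorem tran_Rs_m (φ : AT ρ σ α a b c q ≃* AT ρ1 σ1 α1 a1 b1 c1 q1) (hφ : ∀ z, kap (φ z) = kap z)
    {z : AT ρ σ α a b c q} (h : (φ z).1 ∈ Rs_m ρ1 σ1 α1 a1 b1 c1 q1) :
    z.1 ∈ Rs_m ρ σ α a b c q := by
  obtain ⟨h1, h2⟩ := mem_Rs_m.1 h
  have h3 := fres_map_m (tranG φ hφ).symm h2
  have h4 : (((tranG φ hφ).symm ⟨(φ z).1, h1⟩ : GT ρ σ α a b c q) :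
      OctL E a b c ≃ₗ[E] OctL E a b c) = z.1 := by
    change (φ.symm ⟨(φ z).1, _⟩).1 = z.1
    have h5 : (⟨(φ z).1, GT_le_AT h1⟩ : AT ρ1 σ1 α1 a1 b1 c1 q1) = φ z := rfl
    rw [h5, φ.symm_apply_apply]
  refine mem_Rs_m.2 ⟨h4 ▸ ((tranG φ hφ).symm ⟨(φ z).1, h1⟩).2, ?_⟩
  have h5 : (⟨z.1, h4 ▸ ((tranG φ hφ).symm ⟨(φ z).1, h1⟩).2⟩ : GT ρ σ α a b c q) =
      (tranG φ hφ).symm ⟨(φ z).1, h1⟩ := Subtype.ext h4.symm
  rw [h5]
  exact h3

end tran

end Vale.Agent.P011.D4X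

end

section

open NumberField

namespace Vale.Agent.P011.D4Y.H63

open Vale.Agent.P011.MPQ Vale.Agent.P011.D4 Vale.Agent.P011.D4.Oct Vale.Agent.P011.E6

open Vale.Agent.P011.D4X

variable {k L E : Type} [Field k] [NumberField k] [Field L] [NumberField L] [Field E]
  [Algebra k L] [Algebra k E] [Algebra L E] [IsScalarTower k L E] [NeZero (2 : E)]
  {ρ σ ι : E ≃ₐ[k] E} {α : E} {a b c : kˣ} {q : Lˣ}
  (H : HyI ρ σ ι α a b c q)

include H

/-- The middle element. -/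
theorem mid_mem_m (s : kˣ) (u : k) (D : kˣ) (w : Qt a b) (p : Qt (up L a) (q * up L b))
    (hDu : (D : k) = u ^ 2 - 4 * s) (hD : GoodD a b q (D : k))
    (hns : ∀ e : E, e * e ≠ algebraMap k E (D : k)) (hw0 : w.re = 0)
    (hw : w * w = (D : k) • 1) (hp0 : p.re = 0) (hp : p * p = algebraMap k L (D : k) • 1)
    (g : OctL E a b c ≃ₗ[E] OctL E a b c) (hg : ∀ y, g y = (algebraMap k E (s : k))⁻¹ •
      zFI ρ α q ((1 / 2 : k) • (u • 1 + w)) ((1 / 2 : L) • (algebraMap k L u • 1 + p))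
        (s ^ 2) y) : g ∈ RsI_m ρ σ ι α a b c q := by
  obtain ⟨E1, O, _, _, _, _, _, _, _, _, _, _, _, _, _, _, _, _, ρ1, σ1, ι1, α1, ρ', σ', τ', ι',
    a1, b1, c1, q1, u1, φ, X⟩ := exists_kcxI H hD.1 hD.2.2.2.2 hns hw0 hw hp0 hp hD.2.2.1
  have hs0 : (s : k) ≠ 0 := s.ne_zero
  have hsL : algebraMap k L (s : k) ≠ 0 := (map_ne_zero _).2 hs0
  have hDL : algebraMap k L (D : k) = algebraMap k L u ^ 2 - 4 * algebraMap k L (s : k) := by
    rw [hDu, map_sub, map_pow, map_mul, map_ofNat]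
  have n0 : nrd ((1 / 2 : k) • (u • 1 + w)) = (s : k) := nrd_half hw0 hw hDu
  have n1 : nrd ((1 / 2 : L) • (algebraMap k L u • 1 + p)) = algebraMap k L (s : k) :=
    nrd_half hp0 hp hDL
  obtain ⟨z0, -, hz0κ, hz0⟩ := exists_zI (c := c) H ((1 / 2 : k) • (u • 1 + w))
    ((1 / 2 : L) • (algebraMap k L u • 1 + p)) (s ^ 2) (by
      rw [n0, n1, ← IsScalarTower.algebraMap_apply, ρ.commutes, ρ.commutes,
        Units.val_pow_eq_pow_val, map_pow, map_pow]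
      ring)
  set l : Lˣ := up L s⁻¹ with hl
  have hlv : (l : L) = (algebraMap k L (s : k))⁻¹ := by
    change algebraMap k L ((s⁻¹ : kˣ) : k) = _
    rw [Units.val_inv_eq_inv_val, map_inv₀]
  have hlE0 : algebraMap L E (l : L) = (algebraMap k E (s : k))⁻¹ := by
    rw [hlv, map_inv₀, ← IsScalarTower.algebraMap_apply]
  have hlE : ρ (algebraMap L E (l : L)) = (algebraMap k E (s : k))⁻¹ := by
    rw [hlE0, map_inv₀, ρ.commutes]
  have hφ : ∀ z, kapI (φ z) = kapI z := fun z => kapI_eq ((X.kp z _).1 (isKapI_kapI z))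
  have hgz : g = (H.scal l * z0 : ATI ρ σ ι α a b c q).1 := by
    apply LinearEquiv.ext
    intro y
    rw [hg]
    change _ = (H.scal l).1 (z0.1 y)
    rw [H.scal_apply, hz0, hlE]
  -- the multiplier
  have hk0 : kapI z0 = (up L s)⁻¹ := by
    apply kapI_eq
    apply hz0κ
    rw [n1]
    change algebraMap k L (s : k) * (((up L s)⁻¹ : Lˣ) : L) = 1
    rw [Units.val_inv_eq_inv_val]
    exact mul_inv_cancel₀ hsL
  have hk1 : kapI (H.scal l) = up L s := by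
    rw [kapI_scal H (n := (s⁻¹) ^ 3) (by
      rw [hlE0, map_inv₀, map_inv₀, ρ.commutes, ρ.commutes, Units.val_pow_eq_pow_val, map_pow,
        Units.val_inv_eq_inv_val, map_inv₀]
      ring)]
    apply Units.ext
    change (l : L) ^ 2 * (((up L (s⁻¹ ^ 3))⁻¹ : Lˣ) : L) = algebraMap k L (s : k)
    rw [Units.val_inv_eq_inv_val, hlv]
    change _ * (algebraMap k L ((s⁻¹ ^ 3 : kˣ) : k))⁻¹ = _
    rw [Units.val_pow_eq_pow_val, Units.val_inv_eq_inv_val, map_pow, map_inv₀]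
    field_simp
  have hk : kapI (H.scal l * z0 : ATI ρ σ ι α a b c q) = 1 := by
    rw [kapI_mul, hk0, hk1, mul_inv_cancel]
  rw [hgz]
  refine tran_RsI_m φ hφ ?_
  -- the formula in the new model
  have hz : ∀ y, (H.scal l * z0 : ATI ρ σ ι α a b c q).1 y = ρ (algebraMap L E (l : L)) •
      zFI ρ α q ((1 / 2 * u : k) • 1 + (1 / 2 : k) • w)
        ((1 / 2 * algebraMap k L u : L) • 1 + (1 / 2 : L) • p) (s ^ 2) y := by
    intro y
    have e1 : (1 / 2 : k) • (u • 1 + w) = (1 / 2 * u : k) • 1 + (1 / 2 : k) • w := by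
      rw [smul_add, smul_smul]
    have e2 : (1 / 2 : L) • (algebraMap k L u • 1 + p) =
        (1 / 2 * algebraMap k L u : L) • 1 + (1 / 2 : L) • p := by
      rw [smul_add, smul_smul]
    rw [← e1, ← e2, ← hz0, ← H.scal_apply]
    rfl
  have h1 := X.zf _ _ _ _ _ _ _ hz
  refine autI_mem_m X.H1 (mem_GTI_of_kapI_one (by rw [hφ, hk])) ?_
  rw [h1, KCx.zFI_eq]
  -- the quaternion
  obtain ⟨Y, hY⟩ : ∃ Y : Qt (up E1 a1) (up E1 b1), Y = psiL α1 q1
    ((1 / 2 * algebraMap k L u : L) • 1 + (1 / 2 : L) • ⟨0, 1, 0, 0⟩) := ⟨_, rfl⟩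
  rw [← hY]
  have hYn : nrd Y = algebraMap k E1 (s : k) := by
    have e : ((up L a1 : Lˣ) : L) = algebraMap k L (u ^ 2 - 4 * s) := by
      rw [← hDu, ← X.ha1]
      rfl
    rw [hY, X.H1.nrd_psiL, D4X.KCx.nrd_i, e, IsScalarTower.algebraMap_apply k L E1]
    congr 1
    rw [map_sub, map_pow, map_mul, map_ofNat]
    ring
  have hYe : Y = (1 / 2 * algebraMap k E1 u : E1) • 1 + (1 / 2 : E1) • ⟨0, 1, 0, 0⟩ := by
    rw [hY, D4X.KCx.psiL_add, D4X.KCx.psiL_smul, D4X.KCx.psiL_smul, D4X.KCx.psiL_one,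
      D4X.KCx.psiL_i, map_mul, map_div₀, map_one, map_ofNat, ← IsScalarTower.algebraMap_apply]
  have hY1 : Y = ⟨1 / 2 * algebraMap k E1 u, 1 / 2, 0, 0⟩ := by
    rw [hYe]
    apply QuaternionAlgebra.ext
    · change 1 / 2 * algebraMap k E1 u * 1 + 1 / 2 * 0 = 1 / 2 * algebraMap k E1 u
      ring
    · change 1 / 2 * algebraMap k E1 u * 0 + 1 / 2 * 1 = (1 / 2 : E1)
      ring
    · change 1 / 2 * algebraMap k E1 u * 0 + 1 / 2 * 0 = (0 : E1)
      ring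
    · change 1 / 2 * algebraMap k E1 u * 0 + 1 / 2 * 0 = (0 : E1)
      ring
  have hYρ : qmap ρ1 Y = Y := by
    rw [hY1]
    apply QuaternionAlgebra.ext
    · change ρ1 (1 / 2 * algebraMap k E1 u) = 1 / 2 * algebraMap k E1 u
      rw [map_mul, map_div₀, map_one, map_ofNat, ρ1.commutes]
    · change ρ1 (1 / 2) = 1 / 2
      rw [map_div₀, map_one, map_ofNat]
    · exact map_zero _
    · exact map_zero _
  have hcomm : Y * (⟨1 / 2, 1 / (2 * α1), 0, 0⟩ : Qt (up E1 a1) (up E1 b1)) =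
      ⟨1 / 2, 1 / (2 * α1), 0, 0⟩ * Y := by
    rw [hY1]
    exact Mx.comm_diag _ _ _ _
  have hlE1 : ρ1 (algebraMap L E1 (l : L)) * nrd Y = 1 := by
    rw [hYn, hlv, map_inv₀, map_inv₀, ← IsScalarTower.algebraMap_apply, ρ1.commutes]
    exact inv_mul_cancel₀ ((map_ne_zero _).2 hs0)
  apply Oct.ext
  · rw [fst_smul, fst_zFun, hYρ, hYρ]
    change ρ1 (algebraMap L E1 (l : L)) • (Y * ⟨1 / 2, 1 / (2 * α1), 0, 0⟩ * star Y) =
      ⟨1 / 2, 1 / (2 * α1), 0, 0⟩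
    rw [hcomm, mul_assoc, mul_star_self', mul_smul_comm, mul_one, smul_smul, hlE1, one_smul]
  · rw [snd_smul, snd_zFun]
    change _ • (_ • (_ * (0 : Qt (up E1 a1) (up E1 b1)) * _)) = 0
    rw [mul_zero, zero_mul, smul_zero, smul_zero]

end Vale.Agent.P011.D4Y.H63

end

section

open NumberField Topology

namespace Vale.Agent.P011.D4Y

open Vale.Agent.P011.MPQ Vale.Agent.P011.D4 Vale.Agent.P011.D4.Oct Vale.Agent.P011.E6

open Vale.Agent.P011.D4X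

namespace H691

end H691

section std

variable {k L E : Type} [Field k] [Field L] [Field E]
  [Algebra k L] [Algebra k E] [Algebra L E]
  [IsScalarTower k L E] [NeZero (2 : k)] [NeZero (2 : E)] {ρ σ ι : E ≃ₐ[k] E} {α : E}
  {a b c : kˣ} {q : Lˣ} (H : HyI ρ σ ι α a b c q)

include H

/-- The elements of class one which commute with the standard involution, from `cent`, `exists_z`
and `mix_mem`. -/
theorem stab0_NI_of_m
    (hcent : ∀ z : ATI ρ σ ι α a b c q, z ∈ stab0I ρ σ ι α a b c q →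
      ∃ (x0 : Qt a b) (x : Qt (up L a) (q * up L b)) (s : kˣ) (l : Lˣ),
        algebraMap k E (nrd x0) * (algebraMap L E (nrd x) * ρ (algebraMap L E (nrd x)) *
          ρ (ρ (algebraMap L E (nrd x)))) = algebraMap k E ((s : k) ^ 2) ∧
        ∀ y, z.1 y = ρ (algebraMap L E (l : L)) • zFI ρ α q x0 x s y)
    (hz : ∀ (x0 : Qt a b) (x : Qt (up L a) (q * up L b)) (s : kˣ),
      algebraMap k E (nrd x0) * (algebraMap L E (nrd x) * ρ (algebraMap L E (nrd x)) *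
          ρ (ρ (algebraMap L E (nrd x)))) = algebraMap k E ((s : k) ^ 2) →
      ∃ z : ATI ρ σ ι α a b c q, z ∈ stab0I ρ σ ι α a b c q ∧
        (∀ κ : Lˣ, nrd x * κ = 1 → IsKapI ρ z.1 κ) ∧ ∀ y, z.1 y = zFI ρ α q x0 x s y)
    (hmix : ∀ (x0 : Qt a b) (x : Qt (up L a) (q * up L b)) (s : kˣ), nrd x0 = s →
      nrd x = algebraMap k L (s : k) → ∀ g : OctL E a b c ≃ₗ[E] OctL E a b c,
      (∀ y : OctL E a b c, g y = (algebraMap k E (s : k))⁻¹ • zFI ρ α q x0 x (s ^ 2) y) →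
        g ∈ RsI_m ρ σ ι α a b c q)
    {z : ATI ρ σ ι α a b c q} (hz0 : z ∈ stab0I ρ σ ι α a b c q) (hcl : kapI z ∈ SqL k L) :
    IsNI_m ρ σ ι α a b c q z := by
  obtain ⟨x0, x, s, l, h1, h2⟩ := hcent z hz0
  obtain ⟨z1, -, hz1, hz2⟩ := hz x0 x s h1
  have hν0 : nrd x ≠ 0 := by
    intro h0
    rw [h0, map_zero, zero_mul, zero_mul, mul_zero] at h1
    exact pow_ne_zero 2 s.ne_zero ((map_eq_zero_iff _ (algebraMap k E).injective).1 h1.symm)
  have e1 : z = H.scal l * z1 := by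
    apply Subtype.ext
    apply LinearEquiv.ext
    intro y
    rw [h2, ← hz2, ← H.scal_apply]
    rfl
  have e2 : kapI z1 = (Units.mk0 (nrd x) hν0)⁻¹ := by
    apply kapI_eq
    apply hz1
    rw [Units.val_inv_eq_inv_val]
    exact mul_inv_cancel₀ hν0
  -- the class of the reduced norm
  have e3 : Units.mk0 (nrd x) hν0 ∈ SqL k L := by
    rw [e1, kapI_mul, e2] at hcl
    have h3 := (SqL k L).mul_mem ((SqL k L).inv_mem hcl) (scal_mem_SqLI H l)
    have e4 : (kapI (H.scal l) * (Units.mk0 (nrd x) hν0)⁻¹)⁻¹ * kapI (H.scal l) =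
        Units.mk0 (nrd x) hν0 := by
      rw [mul_inv, inv_inv, mul_comm (kapI (H.scal l))⁻¹, mul_assoc, inv_mul_cancel, mul_one]
    rwa [e4] at h3
  obtain ⟨t, m, h3⟩ := mem_SqL.1 e3
  have h4 : nrd x = algebraMap k L (t : k) * (m : L) ^ 2 := by
    have := congrArg (fun u : Lˣ => (u : L)) h3
    exact this
  obtain ⟨n, hn⟩ := H.exists_norm m
  obtain ⟨x', hx'⟩ : ∃ x' : Qt (up L a) (q * up L b), x' = (m : L)⁻¹ • x := ⟨_, rfl⟩
  have hm0 : (m : L) ≠ 0 := m.ne_zero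
  have hxx : x = (m : L) • x' := by
    rw [hx', smul_smul, mul_inv_cancel₀ hm0, one_smul]
  have hnx' : nrd x' = algebraMap k L (t : k) := by
    rw [hx', H691.nrd_smulQ, h4]
    field_simp
  obtain ⟨s', hs'⟩ : ∃ s' : kˣ, s = n * s' := ⟨n⁻¹ * s, by rw [mul_inv_cancel_left]⟩
  have hs : algebraMap k E (s : k) = algebraMap L E (m : L) * ρ (algebraMap L E (m : L)) *
      ρ (ρ (algebraMap L E (m : L))) * algebraMap k E (s' : k) := by
    rw [hs', Units.val_mul, map_mul, hn]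
  have hn0 : algebraMap k E (n : k) ≠ 0 :=
    (map_ne_zero_iff _ (algebraMap k E).injective).2 n.ne_zero
  have hE : algebraMap L E (algebraMap k L (t : k)) = algebraMap k E (t : k) :=
    (IsScalarTower.algebraMap_apply k L E _).symm
  have h7 : nrd x0 * (t : k) ^ 3 = (s' : k) ^ 2 := by
    apply (algebraMap k E).injective
    have h8 : algebraMap k E (nrd x0) * (algebraMap k E (t : k) ^ 3 * algebraMap k E (n : k) ^ 2) =
        (algebraMap k E (n : k) * algebraMap k E (s' : k)) ^ 2 := by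
      rw [← map_mul (algebraMap k E) (n : k) (s' : k), ← Units.val_mul, ← hs',
        ← map_pow (algebraMap k E) (s : k) 2, ← h1, h4]
      simp only [map_mul, map_pow, hE, AlgEquiv.commutes]
      rw [hn]
      ring
    rw [map_mul, map_pow, map_pow]
    have h9 : algebraMap k E (n : k) ^ 2 ≠ 0 := pow_ne_zero 2 hn0
    apply mul_right_cancel₀ h9
    linear_combination h8
  have ht0 : (t : k) ≠ 0 := t.ne_zero
  have hs0 : (s' : k) ≠ 0 := s'.ne_zero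
  have h10 : nrd (((t : k) ^ 2 / (s' : k)) • x0) = (t : k) := by
    rw [H691.nrd_smulQ]
    field_simp
    linear_combination h7
  -- the scalar and the element of `GTI`
  obtain ⟨r, hr⟩ : ∃ r : Lˣ, r = l * (m⁻¹ * up L n) * up L t := ⟨_, rfl⟩
  have hM0 : algebraMap L E (m : L) ≠ 0 :=
    (map_ne_zero_iff _ (algebraMap L E).injective).2 hm0
  have hrE : ρ (algebraMap L E (r : L)) = ρ (algebraMap L E (l : L)) *
      (algebraMap L E (m : L) * ρ (ρ (algebraMap L E (m : L)))) * algebraMap k E (t : k) := by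
    have hM1 : ρ (algebraMap L E (m : L)) ≠ 0 := (map_ne_zero_iff ρ ρ.injective).2 hM0
    have e5 : algebraMap L E (r : L) = algebraMap L E (l : L) *
        ((algebraMap L E (m : L))⁻¹ * algebraMap k E (n : k)) * algebraMap k E (t : k) := by
      rw [hr, Units.val_mul, Units.val_mul, Units.val_mul, Units.val_inv_eq_inv_val, map_mul,
        map_mul, map_mul, map_inv₀, IsScalarTower.algebraMap_apply k L E,
        IsScalarTower.algebraMap_apply k L E]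
      rfl
    rw [e5]
    simp only [map_mul, map_inv₀, AlgEquiv.commutes]
    rw [hn]
    field_simp
  have hg : ∀ y, ((H.scal r)⁻¹ * z : ATI ρ σ ι α a b c q).1 y = (algebraMap k E (t : k))⁻¹ •
      zFI ρ α q (((t : k) ^ 2 / (s' : k)) • x0) x' (t ^ 2) y := by
    intro y
    have h11 : z.1 y = ρ (algebraMap L E (r : L)) • ((algebraMap k E (t : k))⁻¹ •
        zFI ρ α q (((t : k) ^ 2 / (s' : k)) • x0) x' (t ^ 2) y) := by
      have hE0 : algebraMap k E (t : k) ≠ 0 :=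
        (map_ne_zero_iff _ (algebraMap k E).injective).2 ht0
      rw [h2, hxx, H691.zFI_scal hnx' hs, smul_smul, smul_smul, hrE]
      congr 1
      field_simp
    apply (H.scal r).1.injective
    rw [H.scal_apply, H.scal_apply, ← h11, ← H.scal_apply]
    change (H.scal r * ((H.scal r)⁻¹ * z) : ATI ρ σ ι α a b c q).1 y = z.1 y
    rw [mul_inv_cancel_left]
  refine ⟨r, _, hmix _ _ t h10 hnx' _ hg, fun y => ?_⟩
  rw [← H.scal_apply]
  change z.1 y = (H.scal r * ((H.scal r)⁻¹ * z) : ATI ρ σ ι α a b c q).1 y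
  rw [mul_inv_cancel_left]

end std

end Vale.Agent.P011.D4Y

end

section

open NumberField Topology

namespace Vale.Agent.P011.D4Y

open Vale.Agent.P011.MPQ Vale.Agent.P011.D4 Vale.Agent.P011.D4.Oct Vale.Agent.P011.E6

open Vale.Agent.P011.D4X

variable {k L E : Type} [Field k] [Field L] [Field E]
  [Algebra k L] [Algebra k E] [Algebra L E]
  [IsScalarTower k L E] [NeZero (2 : k)] [NeZero (2 : E)] {ρ σ ι : E ≃ₐ[k] E} {α : E}
  {a b c : kˣ} {q : Lˣ} (H : HyI ρ σ ι α a b c q)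

include H

/-- `stab_N` for the standard involution, from `mix_mem`. -/
theorem stab0_NI_m
    (hmix : ∀ (x0 : Qt a b) (x : Qt (up L a) (q * up L b)) (s : kˣ), nrd x0 = s →
      nrd x = algebraMap k L (s : k) → ∀ g : OctL E a b c ≃ₗ[E] OctL E a b c,
      (∀ y : OctL E a b c, g y = (algebraMap k E (s : k))⁻¹ • zFI ρ α q x0 x (s ^ 2) y) →
        g ∈ RsI_m ρ σ ι α a b c q)
    {z : ATI ρ σ ι α a b c q} (hz0 : z ∈ stab0I ρ σ ι α a b c q) (hcl : kapI z ∈ SqL k L) :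
    IsNI_m ρ σ ι α a b c q z :=
  stab0_NI_of_m H (fun _ hz => cent H hz) (exists_zI H) hmix hz0 hcl

/-- `stab_N`, from `mix_mem` for the parameters `a, b', c'`. -/
theorem stab_NI_of_m {b' c' : kˣ} {j l : Oct a b c} (h : Trip a b' c' gi j l)
    (hmix : ∀ (x0 : Qt a b') (x : Qt (up L a) (q * up L b')) (s : kˣ), nrd x0 = s →
      nrd x = algebraMap k L (s : k) → ∀ g : OctL E a b' c' ≃ₗ[E] OctL E a b' c',
      (∀ y : OctL E a b' c', g y = (algebraMap k E (s : k))⁻¹ • zFI ρ α q x0 x (s ^ 2) y) →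
        g ∈ RsI_m ρ σ ι α a b' c' q)
    {z : ATI ρ σ ι α a b c q} (hz : z ∈ stabI ρ σ ι α q h) {κ : Lˣ} (hκ : IsKapI ρ z.1 κ)
    (hcl : κ ∈ SqL k L) : IsNI_m ρ σ ι α a b c q z := by
  obtain ⟨z', hz', rfl⟩ := exists_of_mem_stabI h hz
  refine cjAI_isNI_m h (stab0_NI_m (hyTripI H h) hmix hz' ?_)
  rw [← kapI_cjAI h, kapI_eq hκ]
  exact hcl

end Vale.Agent.P011.D4Y

end

section

open NumberField Topology

namespace Vale.Agent.P011.D4X.H370

open Vale.Agent.P011.MPQ Vale.Agent.P011.D4 Vale.Agent.P011.D4.Oct Vale.Agent.P011.D4.Em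

open Vale.Agent.P011.E6

open Vale.Agent.P011.D4.B.FI (fixI mem_fixI)

/-- The automorphisms of the octonion algebra over the ground field which fix `i` lie in the
residual. -/
theorem extE_mem_Rs_m {k L E : Type} [Field k] [NumberField k] [Field L] [Field E] [Algebra k L]
    [Algebra k E] [Algebra L E] [IsScalarTower k L E] [NeZero (2 : E)] {ρ σ : E ≃ₐ[k] E}
    {ρL : L ≃ₐ[k] L} {α : E} {a b c : kˣ} {q : Lˣ} (H : Hy ρ σ ρL α a b c q)
    {f : AutC a b c} (hf : f.1 gi = gi) : extE E f.1 ∈ Rs_m ρ σ α a b c q :=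
  H369.autI_mem_m H (extE_mem_GT hf) (H369.extE_ep (⟨f, mem_fixI.2 hf⟩ : fixI a b c))

end Vale.Agent.P011.D4X.H370

end

section

open NumberField Topology

namespace Vale.Agent.P011.D4Y.H370

open Vale.Agent.P011.MPQ Vale.Agent.P011.D4 Vale.Agent.P011.D4.Oct Vale.Agent.P011.D4.Em

open Vale.Agent.P011.D4.B.FI (fixI mem_fixI)

open Vale.Agent.P011.D4X

/-- The automorphisms of the octonion algebra over the ground field which fix `i` lie in the
residual. -/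
theorem extE_mem_RsI_m {k L E : Type} [Field k] [NumberField k] [Field L] [Field E] [Algebra k L]
    [Algebra k E] [Algebra L E] [IsScalarTower k L E] [NeZero (2 : E)] {ρ σ ι : E ≃ₐ[k] E}
    {α : E} {a b c : kˣ} {q : Lˣ} (H : HyI ρ σ ι α a b c q)
    {f : AutC a b c} (hf : f.1 gi = gi) : extE E f.1 ∈ RsI_m ρ σ ι α a b c q :=
  autI_mem_m H (extE_mem_GTI hf) (D4X.H369.extE_ep (⟨f, mem_fixI.2 hf⟩ : fixI a b c))

end Vale.Agent.P011.D4Y.H370

end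

section

open NumberField Topology

namespace Vale.Agent.P011.D4X

open Vale.Agent.P011.MPQ Vale.Agent.P011.D4 Vale.Agent.P011.D4.Oct Vale.Agent.P011.E6

section iso

variable {k L E E1 : Type} [Field k] [Field L] [Field E] [Field E1] [Algebra k L] [Algebra k E]
  [Algebra L E] [IsScalarTower k L E] [Algebra k E1] [Algebra L E1] [IsScalarTower k L E1]
  [NeZero (2 : E)] [NeZero (2 : E1)] {ρ σ : E ≃ₐ[k] E} {ρL : L ≃ₐ[k] L} {α : E}
  {a b c : kˣ} {q : Lˣ} {ρ1 σ1 : E1 ≃ₐ[k] E1} {α1 : E1} {a1 b1 c1 : kˣ} {q1 : Lˣ}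

section

variable {φ : AT ρ σ α a b c q ≃* AT ρ1 σ1 α1 a1 b1 c1 q1}
  (kp : ∀ (z : AT ρ σ α a b c q) (κ : Lˣ), IsKap ρ z.1 κ ↔ IsKap ρ1 (φ z).1 κ)

include kp

/-- The residuals correspond to each other. -/
theorem Part.Rs_iso_m {z : AT ρ1 σ1 α1 a1 b1 c1 q1} (hz : z.1 ∈ Rs_m ρ1 σ1 α1 a1 b1 c1 q1) :
    (φ.symm z).1 ∈ Rs_m ρ σ α a b c q := by
  obtain ⟨h1, h2⟩ := mem_Rs_m.1 hz
  exact mem_Rs_m.2 ⟨_, fres_map_m (Part.gtIso kp) h2⟩

end

/-- The elements of the central torus are central modulo `N`. -/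
theorem Part.comm_m {H : Hy ρ σ ρL α a b c q}
    (hN : ∀ {b' c' : kˣ} {j l : Oct a b c} (h : Trip a b' c' gi j l) {z : AT ρ σ α a b c q},
      z ∈ stab ρ σ α q h → kap z = 1 → IsN_m ρ σ α a b c q z) {z : AT ρ σ α a b c q}
    (hz : ∀ {b' c' : kˣ} {j l : Oct a b c} (h : Trip a b' c' gi j l), z ∈ stab ρ σ α q h) :
    stabs ρ σ α a b c q ≤ comGrp H.NA_m z := by
  rw [stabs, Subgroup.closure_le]
  rintro y ⟨b', c', j, l, h, hy⟩
  rw [SetLike.mem_coe, mem_comGrp]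
  refine hN h (Subgroup.mul_mem _ (Subgroup.mul_mem _ (Subgroup.mul_mem _ (hz h) hy)
    (Subgroup.inv_mem _ (hz h))) (Subgroup.inv_mem _ hy)) ?_
  rw [kap_mul, kap_mul, kap_mul, kap_inv, kap_inv, mul_comm (kap z) (kap y), mul_assoc (kap y),
    mul_inv_cancel, mul_one, mul_inv_cancel]

/-- The parts, from a change of the quadratic field. -/
theorem Part.of_iso_m (H1 : Hy ρ1 σ1 ρL α1 a1 b1 c1 q1)
    {φ : AT ρ σ α a b c q ≃* AT ρ1 σ1 α1 a1 b1 c1 q1}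
    (kp : ∀ (z : AT ρ σ α a b c q) (κ : Lˣ), IsKap ρ z.1 κ ↔ IsKap ρ1 (φ z).1 κ)
    (st0 : ∀ z : AT ρ σ α a b c q, z ∈ stab0 ρ σ α a b c q ↔ φ z ∈ stab0 ρ1 σ1 α1 a1 b1 c1 q1)
    (hN : ∀ {b' c' : kˣ} {j l : Oct a1 b1 c1} (h : Trip a1 b' c' gi j l)
      {z : AT ρ1 σ1 α1 a1 b1 c1 q1}, z ∈ stab ρ1 σ1 α1 q1 h → kap z = 1 →
      IsN_m ρ1 σ1 α1 a1 b1 c1 q1 z)
    {b' c' : kˣ} {j l : Oct a b c} (h : Trip a b' c' gi j l)
    {y : AT ρ1 σ1 α1 a1 b1 c1 q1} (hy : y ∈ stabs ρ1 σ1 α1 a1 b1 c1 q1) {b2 c2 : kˣ}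
    {j1 l1 : Oct a1 b1 c1} (h1 : Trip a1 b2 c2 gi j1 l1)
    (hback : ∀ z ∈ stab ρ1 σ1 α1 q1 h1, φ.symm (y⁻¹ * z * y) ∈ stab ρ σ α q h)
    {e : E1} (he : e ≠ 0) {κ : Lˣ} (hκ : algebraMap L E1 (κ : L) = e * σ1 e) :
    ∃ w w' : AT ρ σ α a b c q, w ∈ stab0 ρ σ α a b c q ∧ w' ∈ stab ρ σ α q h ∧
      IsKap ρ w.1 κ ∧ IsKap ρ w'.1 κ ∧ IsN_m ρ σ α a b c q (w * w'⁻¹) := by
  obtain ⟨z, κ', hz1, hz2, hz3⟩ := exists_tor H1 e he
  have e1 : κ' = κ := by
    apply Units.ext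
    apply (algebraMap L E1).injective
    rw [hz2, hκ]
  rw [e1] at hz1
  have hkz : kap z = κ := kap_eq hz1
  have hc := Part.comm_m (H := H1) hN hz3 (Subgroup.inv_mem _ hy)
  rw [mem_comGrp] at hc
  have hc2 : kap (z * y⁻¹ * z⁻¹ * y⁻¹⁻¹) = 1 := by
    rw [kap_mul, kap_mul, kap_mul, kap_inv y⁻¹, kap_inv, kap_inv, mul_comm (kap z),
      mul_assoc _ (kap z), mul_inv_cancel, mul_one, mul_inv_cancel]
  have hc3 : (z * y⁻¹ * z⁻¹ * y⁻¹⁻¹).1 ∈ Rs_m ρ1 σ1 α1 a1 b1 c1 q1 :=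
    mem_of_isN_m H1 _ (mem_GT_of_kap_one hc2) hc
  refine ⟨φ.symm z, φ.symm (y⁻¹ * z * y), ?_, hback z (hz3 h1), ?_, ?_, ?_⟩
  · rw [st0, MulEquiv.apply_symm_apply]
    exact Part.mem_stab0 trip_std (hz3 trip_std)
  · rw [kp, MulEquiv.apply_symm_apply]
    exact hz1
  · rw [kp, MulEquiv.apply_symm_apply]
    have e2 : kap (y⁻¹ * z * y) = κ := by
      rw [kap_mul, kap_mul, kap_inv, hkz, mul_comm, mul_inv_cancel_left]
    rw [← e2]
    exact isKap_kap _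
  · have e3 : φ.symm z * (φ.symm (y⁻¹ * z * y))⁻¹ = φ.symm (z * y⁻¹ * z⁻¹ * y⁻¹⁻¹) := by
      have e4 : z * (y⁻¹ * z * y)⁻¹ = z * y⁻¹ * z⁻¹ * y⁻¹⁻¹ := by group
      rw [← map_inv, ← map_mul, e4]
    rw [e3]
    exact ⟨1, _, Part.Rs_iso_m kp hc3, fun x => by rw [Units.val_one, map_one, one_smul]⟩

end iso

end Vale.Agent.P011.D4X

end

section

open NumberField Topology

namespace Vale.Agent.P011.D4X

open Vale.Agent.P011.MPQ Vale.Agent.P011.D4 Vale.Agent.P011.D4.Oct Vale.Agent.P011.E6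

section move

variable {k L E : Type} [Field k] [Field L] [Field E]
  [Algebra k L] [Algebra k E] [Algebra L E]
  [IsScalarTower k L E] [NeZero (2 : E)] {ρ σ : E ≃ₐ[k] E} {ρL : L ≃ₐ[k] L} {α : E}
  {a b c : kˣ} {q : Lˣ} (H : Hy ρ σ ρL α a b c q)

include H

/-- The parts are transported along an element of the residual. -/
theorem Part.move_m {b' c' b'' c'' : kˣ} {j l j'' l'' : Oct a b c} (h : Trip a b' c' gi j l)
    (h'' : Trip a b'' c'' gi j'' l'') {n : OctL E a b c ≃ₗ[E] OctL E a b c}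
    (hn : n ∈ Rs_m ρ σ α a b c q) (hc : n * tQ E h * n⁻¹ = tQ E h'') {κ : Lˣ}
    (hp : ∃ w w' : AT ρ σ α a b c q, w ∈ stab0 ρ σ α a b c q ∧ w' ∈ stab ρ σ α q h'' ∧
      IsKap ρ w.1 κ ∧ IsKap ρ w'.1 κ ∧ IsN_m ρ σ α a b c q (w * w'⁻¹)) :
    ∃ w w' : AT ρ σ α a b c q, w ∈ stab0 ρ σ α a b c q ∧ w' ∈ stab ρ σ α q h ∧
      IsKap ρ w.1 κ ∧ IsKap ρ w'.1 κ ∧ IsN_m ρ σ α a b c q (w * w'⁻¹) := by
  obtain ⟨w, w2, hw, hw2, hk, hk2, hN⟩ := hp
  obtain ⟨nA, rfl⟩ : ∃ nA : AT ρ σ α a b c q, nA.1 = n := ⟨⟨n, GT_le_AT (Rs_le_m hn)⟩, rfl⟩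
  have hnN : nA ∈ H.NA_m := ⟨1, nA.1, hn, fun x => by rw [Units.val_one, map_one, one_smul]⟩
  have hkn : kap nA = 1 := kap_of_GT (Rs_le_m hn)
  refine ⟨w, nA⁻¹ * w2 * nA, hw, ?_, hk, ?_, ?_⟩
  · change nA.1⁻¹ * w2.1 * nA.1 * tQ E h = tQ E h * (nA.1⁻¹ * w2.1 * nA.1)
    have h1 : w2.1 * tQ E h'' = tQ E h'' * w2.1 := hw2
    rw [← hc] at h1
    calc nA.1⁻¹ * w2.1 * nA.1 * tQ E h
        = nA.1⁻¹ * (w2.1 * (nA.1 * tQ E h * nA.1⁻¹)) * nA.1 := by group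
      _ = nA.1⁻¹ * (nA.1 * tQ E h * nA.1⁻¹ * w2.1) * nA.1 := by rw [h1]
      _ = tQ E h * (nA.1⁻¹ * w2.1 * nA.1) := by group
  · have e2 : kap (nA⁻¹ * w2 * nA) = κ := by
      rw [kap_mul, kap_mul, kap_inv, hkn, inv_one, one_mul, mul_one, kap_eq hk2]
    rw [← e2]
    exact isKap_kap _
  · have e3 : w * (nA⁻¹ * w2 * nA)⁻¹ = (w * w2⁻¹) * (w2 * nA⁻¹ * w2⁻¹) * nA := by group
    rw [e3]
    exact H.NA_m.mul_mem (H.NA_m.mul_mem hN
      ((Hy.NA_normal_m H).conj_mem _ (H.NA_m.inv_mem hnN) w2)) hnN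

end move

end Vale.Agent.P011.D4X

end

section

open NumberField Topology Filter

open scoped ComplexConjugate

namespace Vale.Agent.P011.D4X

open Vale.Agent.P011.MPQ Vale.Agent.P011.D4 Vale.Agent.P011.D4.Oct Vale.Agent.P011.E6

section core

variable {k L E E1 O : Type} [Field k] [Field L] [Field E] [Field E1] [Field O] [Algebra k L]
  [Algebra k E] [Algebra L E] [Algebra k E1] [Algebra L E1] [Algebra k O] [Algebra L O]
  [Algebra E O] [Algebra E1 O] [IsScalarTower k L E] [IsScalarTower k L E1]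
  [IsScalarTower k L O]
  [IsScalarTower k E O] [IsScalarTower k E1 O] [IsScalarTower L E O] [IsScalarTower L E1 O]
  [NeZero (2 : k)] [NeZero (2 : E)] [NeZero (2 : E1)]
  {a b c a1 b1 c1 : kˣ} {q : Lˣ}
  {ρ σ : E ≃ₐ[k] E} {ρL : L ≃ₐ[k] L} {α : E} {D : k} {w0 : Qt a b}
  {w : Qt (up L a) (q * up L b)} {ρ1 σ1 : E1 ≃ₐ[k] E1} {α1 : E1} {ρ' σ' τ' : O ≃ₐ[k] O}
  {q1 : Lˣ} {u : OctL O a1 b1 c1 ≃ₗ[O] OctL O a b c}
  {φ : AT ρ σ α a b c q ≃* AT ρ1 σ1 α1 a1 b1 c1 q1}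

/-- The parts, from one conjugation in the new model. -/
theorem Part.core1_m (X : KCX ρ σ ρL α D w0 w ρ1 σ1 α1 ρ' σ' τ' q1 u φ)
    (hN : ∀ {b' c' : kˣ} {j l : Oct a1 b1 c1} (h : Trip a1 b' c' gi j l)
      {z : AT ρ1 σ1 α1 a1 b1 c1 q1}, z ∈ stab ρ1 σ1 α1 q1 h → kap z = 1 →
      IsN_m ρ1 σ1 α1 a1 b1 c1 q1 z)
    {b' c' : kˣ} {j l : Oct a b c} (h : Trip a b' c' gi j l)
    {y' : AT ρ1 σ1 α1 a1 b1 c1 q1} (hy' : y' ∈ stabs ρ1 σ1 α1 a1 b1 c1 q1) {b2 c2 : kˣ}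
    {j1 l1 : Oct a1 b1 c1} {h1 : Trip a1 b2 c2 gi j1 l1}
    (hy1 : y' * φ (tAT ρ σ α q h) * y'⁻¹ = tAT ρ1 σ1 α1 q1 h1) {x y : L} (κ : Lˣ)
    (hκ : (κ : L) = x ^ 2 - algebraMap k L D * y ^ 2) :
    ∃ w w' : AT ρ σ α a b c q, w ∈ stab0 ρ σ α a b c q ∧ w' ∈ stab ρ σ α q h ∧
      IsKap ρ w.1 κ ∧ IsKap ρ w'.1 κ ∧ IsN_m ρ σ α a b c q (w * w'⁻¹) := by
  have he : (algebraMap L E1 x + algebraMap L E1 y * α1) *
      σ1 (algebraMap L E1 x + algebraMap L E1 y * α1) = algebraMap L E1 (κ : L) := by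
    rw [map_add, map_mul, X.H1.σL, X.H1.σL, X.H1.σα, hκ]
    simp only [map_sub, map_mul, map_pow]
    rw [← IsScalarTower.algebraMap_apply, ← X.T.α12]
    ring
  have he0 : algebraMap L E1 x + algebraMap L E1 y * α1 ≠ 0 := by
    intro h0
    rw [h0, zero_mul] at he
    exact κ.ne_zero ((map_eq_zero (algebraMap L E1)).1 he.symm)
  exact Part.of_iso_m X.H1 X.kp X.st0 hN h hy' h1 (fun z hz => z5_stab hy1 hz) he0 he.symm

end core

section triv

variable {k L E : Type} [Field k] [Field L] [Field E]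
  [Algebra k L] [Algebra k E] [Algebra L E]
  [IsScalarTower k L E] [NeZero (2 : E)] {ρ σ : E ≃ₐ[k] E} {ρL : L ≃ₐ[k] L} {α : E}
  {a b c : kˣ} {q : Lˣ} (H : Hy ρ σ ρL α a b c q)

include H

/-- The case `D ∈ a k²`. -/
theorem Part.triv_m {b' c' : kˣ} {j l : Oct a b c} (h : Trip a b' c' gi j l) {r : k} {x y : L}
    (κ : Lˣ) (hκ : (κ : L) = x ^ 2 - algebraMap k L (a * r ^ 2) * y ^ 2) :
    ∃ w w' : AT ρ σ α a b c q, w ∈ stab0 ρ σ α a b c q ∧ w' ∈ stab ρ σ α q h ∧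
      IsKap ρ w.1 κ ∧ IsKap ρ w'.1 κ ∧ IsN_m ρ σ α a b c q (w * w'⁻¹) := by
  obtain ⟨y2, hy2⟩ : ∃ y2 : L, (κ : L) = x ^ 2 - algebraMap k L a * y2 ^ 2 :=
    ⟨algebraMap k L r * y, by rw [hκ, map_mul, map_pow]; ring⟩
  have he : (algebraMap L E x + algebraMap L E y2 * α) *
      σ (algebraMap L E x + algebraMap L E y2 * α) = algebraMap L E (κ : L) := by
    rw [map_add, map_mul, H.σL, H.σL, H.σα, hy2]
    simp only [map_sub, map_mul, map_pow]
    rw [← IsScalarTower.algebraMap_apply, ← H.α2]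
    ring
  have he0 : algebraMap L E x + algebraMap L E y2 * α ≠ 0 := by
    intro h0
    rw [h0, zero_mul] at he
    exact κ.ne_zero ((map_eq_zero (algebraMap L E)).1 he.symm)
  obtain ⟨z, κ', hz1, hz2, hz3⟩ := exists_tor H _ he0
  have e1 : κ' = κ := by
    apply Units.ext
    apply (algebraMap L E).injective
    rw [hz2, he]
  rw [e1] at hz1
  refine ⟨z, z, Part.mem_stab0 trip_std (hz3 trip_std), hz3 h, hz1, hz1, ?_⟩
  rw [mul_inv_cancel]
  exact H.NA_m.one_mem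

variable [NumberField k] [NumberField L]

end triv

end Vale.Agent.P011.D4X

end

section

open NumberField Topology

namespace Vale.Agent.P011.D4Y

open Vale.Agent.P011.MPQ Vale.Agent.P011.D4 Vale.Agent.P011.D4.Oct Vale.Agent.P011.E6

open Vale.Agent.P011.D4X

section iso

variable {k L E E1 : Type} [Field k] [Field L] [Field E] [Field E1] [Algebra k L] [Algebra k E]
  [Algebra L E] [IsScalarTower k L E] [Algebra k E1] [Algebra L E1] [IsScalarTower k L E1]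
  [NeZero (2 : E)] [NeZero (2 : E1)] {ρ σ ι : E ≃ₐ[k] E} {α : E}
  {a b c : kˣ} {q : Lˣ} {ρ1 σ1 ι1 : E1 ≃ₐ[k] E1} {α1 : E1} {a1 b1 c1 : kˣ} {q1 : Lˣ}

section

variable {φ : ATI ρ σ ι α a b c q ≃* ATI ρ1 σ1 ι1 α1 a1 b1 c1 q1}
  (kp : ∀ (z : ATI ρ σ ι α a b c q) (κ : Lˣ), IsKapI ρ z.1 κ ↔ IsKapI ρ1 (φ z).1 κ)

include kp

/-- The residuals correspond to each other. -/
theorem Part.Rs_iso_m {z : ATI ρ1 σ1 ι1 α1 a1 b1 c1 q1} (hz : z.1 ∈ RsI_m ρ1 σ1 ι1 α1 a1 b1 c1 q1) :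
    (φ.symm z).1 ∈ RsI_m ρ σ ι α a b c q := by
  obtain ⟨h1, h2⟩ := mem_RsI_m.1 hz
  exact mem_RsI_m.2 ⟨_, fres_map_m (Part.gtIso kp) h2⟩

end

/-- The elements of the central torus are central modulo `N`. -/
theorem Part.comm_m {H : HyI ρ σ ι α a b c q}
    (hN : ∀ {b' c' : kˣ} {j l : Oct a b c} (h : Trip a b' c' gi j l) {z : ATI ρ σ ι α a b c q},
      z ∈ stabI ρ σ ι α q h → kapI z = 1 → IsNI_m ρ σ ι α a b c q z) {z : ATI ρ σ ι α a b c q}
    (hz : ∀ {b' c' : kˣ} {j l : Oct a b c} (h : Trip a b' c' gi j l), z ∈ stabI ρ σ ι α q h) :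
    stabsI ρ σ ι α a b c q ≤ comGrp H.NA_m z := by
  rw [stabsI, Subgroup.closure_le]
  rintro y ⟨b', c', j, l, h, hy⟩
  rw [SetLike.mem_coe, mem_comGrp]
  refine hN h (Subgroup.mul_mem _ (Subgroup.mul_mem _ (Subgroup.mul_mem _ (hz h) hy)
    (Subgroup.inv_mem _ (hz h))) (Subgroup.inv_mem _ hy)) ?_
  rw [kapI_mul, kapI_mul, kapI_mul, kapI_inv, kapI_inv, mul_comm (kapI z) (kapI y), mul_assoc (kapI y),
    mul_inv_cancel, mul_one, mul_inv_cancel]

/-- The parts, from a change of the quadratic field. -/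
theorem Part.of_iso_m (H1 : HyI ρ1 σ1 ι1 α1 a1 b1 c1 q1)
    {φ : ATI ρ σ ι α a b c q ≃* ATI ρ1 σ1 ι1 α1 a1 b1 c1 q1}
    (kp : ∀ (z : ATI ρ σ ι α a b c q) (κ : Lˣ), IsKapI ρ z.1 κ ↔ IsKapI ρ1 (φ z).1 κ)
    (st0 : ∀ z : ATI ρ σ ι α a b c q, z ∈ stab0I ρ σ ι α a b c q ↔ φ z ∈ stab0I ρ1 σ1 ι1 α1 a1 b1 c1 q1)
    (hN : ∀ {b' c' : kˣ} {j l : Oct a1 b1 c1} (h : Trip a1 b' c' gi j l)
      {z : ATI ρ1 σ1 ι1 α1 a1 b1 c1 q1}, z ∈ stabI ρ1 σ1 ι1 α1 q1 h → kapI z = 1 →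
      IsNI_m ρ1 σ1 ι1 α1 a1 b1 c1 q1 z)
    {b' c' : kˣ} {j l : Oct a b c} (h : Trip a b' c' gi j l)
    {y : ATI ρ1 σ1 ι1 α1 a1 b1 c1 q1} (hy : y ∈ stabsI ρ1 σ1 ι1 α1 a1 b1 c1 q1) {b2 c2 : kˣ}
    {j1 l1 : Oct a1 b1 c1} (h1 : Trip a1 b2 c2 gi j1 l1)
    (hback : ∀ z ∈ stabI ρ1 σ1 ι1 α1 q1 h1, φ.symm (y⁻¹ * z * y) ∈ stabI ρ σ ι α q h)
    {z : ATI ρ1 σ1 ι1 α1 a1 b1 c1 q1} {κ : Lˣ} (hz1 : IsKapI ρ1 z.1 κ)
    (hz3 : ∀ {b' c' : kˣ} {j l : Oct a1 b1 c1} (h : Trip a1 b' c' gi j l),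
      z ∈ stabI ρ1 σ1 ι1 α1 q1 h) :
    ∃ w w' : ATI ρ σ ι α a b c q, w ∈ stab0I ρ σ ι α a b c q ∧ w' ∈ stabI ρ σ ι α q h ∧
      IsKapI ρ w.1 κ ∧ IsKapI ρ w'.1 κ ∧ IsNI_m ρ σ ι α a b c q (w * w'⁻¹) := by
  have hkz : kapI z = κ := kapI_eq hz1
  have hc := Part.comm_m (H := H1) hN hz3 (Subgroup.inv_mem _ hy)
  rw [mem_comGrp] at hc
  have hc2 : kapI (z * y⁻¹ * z⁻¹ * y⁻¹⁻¹) = 1 := by
    rw [kapI_mul, kapI_mul, kapI_mul, kapI_inv y⁻¹, kapI_inv, kapI_inv, mul_comm (kapI z),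
      mul_assoc _ (kapI z), mul_inv_cancel, mul_one, mul_inv_cancel]
  have hc3 : (z * y⁻¹ * z⁻¹ * y⁻¹⁻¹).1 ∈ RsI_m ρ1 σ1 ι1 α1 a1 b1 c1 q1 :=
    mem_of_isNI_m H1 _ (mem_GTI_of_kapI_one hc2) hc
  refine ⟨φ.symm z, φ.symm (y⁻¹ * z * y), ?_, hback z (hz3 h1), ?_, ?_, ?_⟩
  · rw [st0, MulEquiv.apply_symm_apply]
    exact Part.mem_stab0 trip_std (hz3 trip_std)
  · rw [kp, MulEquiv.apply_symm_apply]
    exact hz1
  · rw [kp, MulEquiv.apply_symm_apply]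
    have e2 : kapI (y⁻¹ * z * y) = κ := by
      rw [kapI_mul, kapI_mul, kapI_inv, hkz, mul_comm, mul_inv_cancel_left]
    rw [← e2]
    exact isKapI_kapI _
  · have e3 : φ.symm z * (φ.symm (y⁻¹ * z * y))⁻¹ = φ.symm (z * y⁻¹ * z⁻¹ * y⁻¹⁻¹) := by
      have e4 : z * (y⁻¹ * z * y)⁻¹ = z * y⁻¹ * z⁻¹ * y⁻¹⁻¹ := by group
      rw [← map_inv, ← map_mul, e4]
    rw [e3]
    exact ⟨1, _, Part.Rs_iso_m kp hc3, fun x => by rw [Units.val_one, map_one, map_one, one_smul]⟩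

end iso

end Vale.Agent.P011.D4Y

end

section

open NumberField Topology Filter

open scoped ComplexConjugate

namespace Vale.Agent.P011.D4Y

open Vale.Agent.P011.MPQ Vale.Agent.P011.D4 Vale.Agent.P011.D4.Oct Vale.Agent.P011.E6

open Vale.Agent.P011.D4X

section move

variable {k L E : Type} [Field k] [Field L] [Field E]
  [Algebra k L] [Algebra k E] [Algebra L E]
  [IsScalarTower k L E] [NeZero (2 : E)] {ρ σ ι : E ≃ₐ[k] E} {α : E}
  {a b c : kˣ} {q : Lˣ} (H : HyI ρ σ ι α a b c q)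

include H

/-- The parts are transported along an element of the residual. -/
theorem Part.move_m {b' c' b'' c'' : kˣ} {j l j'' l'' : Oct a b c} (h : Trip a b' c' gi j l)
    (h'' : Trip a b'' c'' gi j'' l'') {n : OctL E a b c ≃ₗ[E] OctL E a b c}
    (hn : n ∈ RsI_m ρ σ ι α a b c q) (hc : n * tQ E h * n⁻¹ = tQ E h'') {κ : Lˣ}
    (hp : ∃ w w' : ATI ρ σ ι α a b c q, w ∈ stab0I ρ σ ι α a b c q ∧ w' ∈ stabI ρ σ ι α q h'' ∧
      IsKapI ρ w.1 κ ∧ IsKapI ρ w'.1 κ ∧ IsNI_m ρ σ ι α a b c q (w * w'⁻¹)) :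
    ∃ w w' : ATI ρ σ ι α a b c q, w ∈ stab0I ρ σ ι α a b c q ∧ w' ∈ stabI ρ σ ι α q h ∧
      IsKapI ρ w.1 κ ∧ IsKapI ρ w'.1 κ ∧ IsNI_m ρ σ ι α a b c q (w * w'⁻¹) := by
  obtain ⟨w, w2, hw, hw2, hk, hk2, hN⟩ := hp
  obtain ⟨nA, rfl⟩ : ∃ nA : ATI ρ σ ι α a b c q, nA.1 = n :=
    ⟨⟨n, GTI_le_ATI (RsI_le_m hn)⟩, rfl⟩
  have hnN : nA ∈ H.NA_m := ⟨1, nA.1, hn, fun x => by
    rw [Units.val_one, map_one, map_one, one_smul]⟩
  have hkn : kapI nA = 1 := kapI_of_GTI (RsI_le_m hn)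
  refine ⟨w, nA⁻¹ * w2 * nA, hw, ?_, hk, ?_, ?_⟩
  · change nA.1⁻¹ * w2.1 * nA.1 * tQ E h = tQ E h * (nA.1⁻¹ * w2.1 * nA.1)
    have h1 : w2.1 * tQ E h'' = tQ E h'' * w2.1 := hw2
    rw [← hc] at h1
    calc nA.1⁻¹ * w2.1 * nA.1 * tQ E h
        = nA.1⁻¹ * (w2.1 * (nA.1 * tQ E h * nA.1⁻¹)) * nA.1 := by group
      _ = nA.1⁻¹ * (nA.1 * tQ E h * nA.1⁻¹ * w2.1) * nA.1 := by rw [h1]
      _ = tQ E h * (nA.1⁻¹ * w2.1 * nA.1) := by group
  · have e2 : kapI (nA⁻¹ * w2 * nA) = κ := by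
      rw [kapI_mul, kapI_mul, kapI_inv, hkn, inv_one, one_mul, mul_one, kapI_eq hk2]
    rw [← e2]
    exact isKapI_kapI _
  · have e3 : w * (nA⁻¹ * w2 * nA)⁻¹ = (w * w2⁻¹) * (w2 * nA⁻¹ * w2⁻¹) * nA := by group
    rw [e3]
    exact H.NA_m.mul_mem (H.NA_m.mul_mem hN
      ((HyI.NA_normal_m H).conj_mem _ (H.NA_m.inv_mem hnN) w2)) hnN

end move

section core

variable {k L E E1 O : Type} [Field k] [NumberField k] [Field L] [NumberField L] [Field E]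
  [Field E1] [Field O] [Algebra k L]
  [Algebra k E] [Algebra L E] [Algebra k E1] [Algebra L E1] [Algebra k O] [Algebra L O]
  [Algebra E O] [Algebra E1 O] [IsScalarTower k L E] [IsScalarTower k L E1]
  [IsScalarTower k L O]
  [IsScalarTower k E O] [IsScalarTower k E1 O] [IsScalarTower L E O] [IsScalarTower L E1 O]
  [NeZero (2 : E)] [NeZero (2 : E1)]
  {a b c a1 b1 c1 : kˣ} {q : Lˣ}
  {ρ σ ι : E ≃ₐ[k] E} {α : E} {D : k} {w0 : Qt a b}
  {w : Qt (up L a) (q * up L b)} {ρ1 σ1 ι1 : E1 ≃ₐ[k] E1} {α1 : E1} {ρ' σ' τ' ι' : O ≃ₐ[k] O}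
  {q1 : Lˣ} {u : OctL O a1 b1 c1 ≃ₗ[O] OctL O a b c}
  {φ : ATI ρ σ ι α a b c q ≃* ATI ρ1 σ1 ι1 α1 a1 b1 c1 q1}

/-- The parts, from one conjugation in the new model. -/
theorem Part.core1_m (X : KCXI ρ σ ι α D w0 w ρ1 σ1 ι1 α1 ρ' σ' τ' ι' q1 u φ)
    (hN : ∀ {b' c' : kˣ} {j l : Oct a1 b1 c1} (h : Trip a1 b' c' gi j l)
      {z : ATI ρ1 σ1 ι1 α1 a1 b1 c1 q1}, z ∈ stabI ρ1 σ1 ι1 α1 q1 h → kapI z = 1 →
      IsNI_m ρ1 σ1 ι1 α1 a1 b1 c1 q1 z)
    {b' c' : kˣ} {j l : Oct a b c} (h : Trip a b' c' gi j l)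
    {y' : ATI ρ1 σ1 ι1 α1 a1 b1 c1 q1} (hy' : y' ∈ stabsI ρ1 σ1 ι1 α1 a1 b1 c1 q1) {b2 c2 : kˣ}
    {j1 l1 : Oct a1 b1 c1} {h1 : Trip a1 b2 c2 gi j1 l1}
    (hy1 : y' * φ (tATI ρ σ ι α q h) * y'⁻¹ = tATI ρ1 σ1 ι1 α1 q1 h1) {x y : L} (κ : Lˣ)
    (hκ : (κ : L) = x ^ 2 - algebraMap k L D * y ^ 2) :
    ∃ w w' : ATI ρ σ ι α a b c q, w ∈ stab0I ρ σ ι α a b c q ∧ w' ∈ stabI ρ σ ι α q h ∧
      IsKapI ρ w.1 κ ∧ IsKapI ρ w'.1 κ ∧ IsNI_m ρ σ ι α a b c q (w * w'⁻¹) := by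
  obtain ⟨e, he0, hι, he⟩ := Part.exists_norm X.H1 X.ha1 hκ
  obtain ⟨z, κ', hz1, hz2, hz3⟩ := exists_tor X.H1 e he0 hι
  have e1 : κ' = κ := by
    apply Units.ext
    apply (algebraMap L E1).injective
    rw [hz2, he]
  rw [e1] at hz1
  exact Part.of_iso_m X.H1 X.kp X.st0 hN h hy' h1 (fun z hz => z5I_stab hy1 hz) hz1 hz3

end core

end Vale.Agent.P011.D4Y

end

section

open NumberField Topology

namespace Vale.Agent.P011.D4Y

open Vale.Agent.P011.MPQ Vale.Agent.P011.D4 Vale.Agent.P011.D4.Oct Vale.Agent.P011.E6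

open Vale.Agent.P011.D4X Vale.Agent.P011.D4X.H691

section fin

variable {k L E : Type} [Field k] [NumberField k] [Field L] [NumberField L] [Field E]
  [Algebra k L] [Algebra k E] [Algebra L E]
  [IsScalarTower k L E] [NeZero (2 : E)] {ρ σ ι : E ≃ₐ[k] E} {α : E}
  {a b c : kˣ} {q : Lˣ}

variable (H : HyI ρ σ ι α a b c q)

include H

/-- The elements of class one of `stabsP`. -/
theorem mem_NA_of_stabsP_m
    (hle : ∀ {b' c' : kˣ} {j l : Oct a b c} (h : Trip a b' c' gi j l) {z : ATI ρ σ ι α a b c q},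
      z ∈ stabI ρ σ ι α q h → kapI z ∈ PosC k L a → z ∈ H.NA_m ⊔ stab0I ρ σ ι α a b c q)
    (hstabN : ∀ {z : ATI ρ σ ι α a b c q}, z ∈ stab0I ρ σ ι α a b c q → kapI z ∈ SqL k L →
      IsNI_m ρ σ ι α a b c q z)
    {z : ATI ρ σ ι α a b c q} (hz : z ∈ stabsPI (PosC k L a) ρ σ ι α a b c q)
    (hκ : kapI z ∈ SqL k L) : z ∈ H.NA_m := by
  have h1 : stabsPI (PosC k L a) ρ σ ι α a b c q ≤ H.NA_m ⊔ stab0I ρ σ ι α a b c q := by
    rw [stabsPI, Subgroup.closure_le]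
    rintro z ⟨hP, b', c', j, l, h, hz⟩
    exact hle h hz hP
  obtain ⟨n, hn1, s, hs, rfl⟩ := Subgroup.mem_sup_of_normal_left.1 (h1 hz)
  have hN : kapI n ∈ SqL k L := H.kap_mem_of_NA_m hn1
  rw [kapI_mul] at hκ
  have h2 : kapI s ∈ SqL k L := (Subgroup.mul_mem_cancel_left _ hN).1 hκ
  exact H.NA_m.mul_mem hn1 (hstabN hs h2)

/-- The elements of `GTI` which lie in `stabsP` lie in the residual. -/
theorem mem_RsI_of_stabsP_m
    (hle : ∀ {b' c' : kˣ} {j l : Oct a b c} (h : Trip a b' c' gi j l) {z : ATI ρ σ ι α a b c q},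
      z ∈ stabI ρ σ ι α q h → kapI z ∈ PosC k L a → z ∈ H.NA_m ⊔ stab0I ρ σ ι α a b c q)
    (hstabN : ∀ {z : ATI ρ σ ι α a b c q}, z ∈ stab0I ρ σ ι α a b c q → kapI z ∈ SqL k L →
      IsNI_m ρ σ ι α a b c q z)
    {g : OctL E a b c ≃ₗ[E] OctL E a b c} (hg : g ∈ GTI ρ σ ι α a b c q)
    (h : (⟨g, GTI_le_ATI hg⟩ : ATI ρ σ ι α a b c q) ∈ stabsPI (PosC k L a) ρ σ ι α a b c q) :
    g ∈ RsI_m ρ σ ι α a b c q := by
  refine mem_of_isNI_m H g hg (mem_NA_of_stabsP_m H hle hstabN h ?_)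
  rw [kapI_of_GTI hg]
  exact Subgroup.one_mem _

end fin

end Vale.Agent.P011.D4Y

end

section

open NumberField Topology Filter

namespace Vale.Agent.P011.D4Y

open Vale.Agent.P011.MPQ Vale.Agent.P011.D4 Vale.Agent.P011.D4.Oct Vale.Agent.P011.E6

open Vale.Agent.P011.D4X Vale.Agent.P011.D4X.H691

section fin

variable {k L E : Type} [Field k] [NumberField k] [Field L] [NumberField L] [Field E]
  [Algebra k L] [Algebra k E] [Algebra L E]
  [IsScalarTower k L E] [NeZero (2 : E)] {ρ σ ι : E ≃ₐ[k] E} {α : E}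
  {a b c : kˣ} {q : Lˣ} (H : HyI ρ σ ι α a b c q)

include H

/-- The elements close to one lie in the residual. -/
theorem open_of_m {S : Set (E →+* ℂ)} (hS : S.Finite) {v : OctL E a b c} (hv : Pt ρ v) {μ : E}
    (hvI : Im ι v = μ • v)
    (hgen : ∀ᶠ x in nh S v, Pt ρ x → (∃ μ : E, Im ι x = μ • x) → H659.PPI (PosC k L a) ρ σ ι α q x)
    (hgen2 : ∀ (z : ATI ρ σ ι α a b c q) (t : E), z.1 (ep α) = t • ep α → kapI z ∈ PosC k L a →
      z ∈ stabsPI (PosC k L a) ρ σ ι α a b c q)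
    (hle : ∀ {b' c' : kˣ} {j l : Oct a b c} (h : Trip a b' c' gi j l) {z : ATI ρ σ ι α a b c q},
      z ∈ stabI ρ σ ι α q h → kapI z ∈ PosC k L a → z ∈ H.NA_m ⊔ stab0I ρ σ ι α a b c q)
    (hstabN : ∀ {z : ATI ρ σ ι α a b c q}, z ∈ stab0I ρ σ ι α a b c q → kapI z ∈ SqL k L →
      IsNI_m ρ σ ι α a b c q z) :
    ∃ ε : ℝ, 0 < ε ∧ ∀ g : OctL E a b c ≃ₗ[E] OctL E a b c, g ∈ GTI ρ σ ι α a b c q →
      (∀ w ∈ S, ∀ x, on w (g x - x) ≤ ε * on w x) → g ∈ RsI_m ρ σ ι α a b c q := by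
  obtain ⟨ε, hε, h1⟩ := exists_eps_map hS hgen
  refine ⟨ε, hε, fun g hg hn => ?_⟩
  have h0 := h1 (fun x => x) (fun w hw x => by
    have h2 : on w (x - x) = 0 := by
      rw [sub_self]
      apply Finset.sum_eq_zero
      intro i _
      have : co8 (0 : OctL E a b c) i = 0 := by fin_cases i <;> rfl
      rw [this, map_zero, _root_.norm_zero]
    rw [h2]
    exact mul_nonneg hε.le (on_nonneg w x)) hv ⟨μ, hvI⟩
  have hκ : kapI (⟨g, GTI_le_ATI hg⟩ : ATI ρ σ ι α a b c q) ∈ PosC k L a := by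
    rw [kapI_of_GTI hg]
    exact Subgroup.one_mem _
  exact mem_RsI_of_stabsP_m H hle hstabN hg (mem_stabsP_of_PP hgen2 h0 hκ
    (h1 (fun x => g x) hn ⟨fun h => hv.1 (g.injective (h.trans (map_zero g).symm)), by
      rw [← hg.1, hv.2, map_zero]⟩ ⟨μ, by rw [← hg.2.2, hvI, map_smul]⟩))

end fin

end Vale.Agent.P011.D4Y

end
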