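import Vale.Agent.P011NM.D4a
import Vale.Agent.P011.D4W.H7.Mix
import Vale.Agent.P011.D4W.H7.Part
import Vale.Agent.P011.D4W.H7.F4
import Vale.Agent.P011.D4W.H7.LeDef
import Vale.Agent.P011.D4W.H7.Swap
import Vale.Agent.P011.D4W.H684.StepO
import Vale.Agent.P011.D4W.H684.Flip
import Vale.Agent.P011.D4W.H619.Step
import Vale.Agent.P011.D4W.H619.StepT
import Vale.Agent.P011NM.Base
import Vale.Agent.P011.D4W.H359.Short
import Vale.Agent.P011.D4W.H7.ShortAll
import Vale.Agent.P011.D4T.HDefs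
import Vale.Agent.P011NM.Defs
import Vale.Agent.P011.D4H.Defs
import Vale.Agent.P011.D4H.Br
import Vale.Agent.P011.D4H.YBr
import Vale.Agent.P011.D4H.YHy
import Vale.Agent.P011.D4Z.H553.Blk
import Vale.Agent.P011.D4X.H553.Mix
import Vale.Agent.P011.D4X.H691.StabN
import Vale.Agent.P011.D4Z.H370.Moves
import Vale.Agent.P011.D4Z.H319.Lim0H
import Vale.Agent.P011.D4Z.H408.Lim
import Vale.Agent.P011.D4Z.H408.LimX

/-! The version for arbitrary normal subgroups. -/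

set_option linter.unusedSectionVars false

section

open NumberField Topology

namespace Vale.Agent.P011.D4W.H7

open Vale.Agent.P011.Arith Vale.Agent.P011.MPQ Vale.Agent.P011.D4 Vale.Agent.P011.D4.Oct
  Vale.Agent.P011.E6 Vale.Agent.P011.D4X Vale.Agent.P011.D4Y

variable {k L E : Type} [Field k] [NumberField k] [Field L] [NumberField L] [Field E]
  [Algebra k L] [Algebra k E] [Algebra L E]
  [IsScalarTower k L E] [NeZero (2 : E)] {ρ σ ι : E ≃ₐ[k] E} {α : E}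
  {a b c : kˣ} {q : Lˣ} (H : HyI ρ σ ι α a b c q)

include H

/-- Products of long and short elements. -/
theorem exists_LS_m
    (hshort : ∀ (x : SL1 (up L a) (q * up L b)) (g : OctL E a b c ≃ₗ[E] OctL E a b c),
      (∀ y : OctL E a b c, g y = shortFun ρ (psiL α q ((x : (Qt (up L a) (q * up L b))ˣ) :
        Qt (up L a) (q * up L b))) y) → g ∈ RsI_m ρ σ ι α a b c q)
    {g0 : Qt a b} {g1 : Qt (up L a) (q * up L b)} (hg0 : nrd g0 = 1) (hg1 : nrd g1 = 1) :
    ∃ h ∈ RsI_m ρ σ ι α a b c q, ∀ y, h y = zFun ρ (psiL α q g1) (qup E g0) 1 y := by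
  obtain ⟨y0, hy0⟩ := exists_SL1 hg0
  obtain ⟨y1, hy1⟩ := exists_SL1 hg1
  obtain ⟨l, hl, hl'⟩ := exists_longI H y0
  obtain ⟨m, hm, hm'⟩ := exists_shortI H y1
  have hlR : l ∈ RsI_m ρ σ ι α a b c q := autI_mem_m H hl (by
    rw [hl']
    ext1
    · rfl
    · change _ * (0 : Qt (up E a) (up E b)) = 0
      rw [mul_zero])
  refine ⟨l * m, (RsI_m ρ σ ι α a b c q).mul_mem hlR (hshort y1 m hm'), fun y => ?_⟩
  rw [LinearEquiv.mul_apply, hl', hm', hy0, hy1]
  ext1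
  · rfl
  · change _ * (_ * _) = (1 : E) • (_ * _ * _)
    rw [one_smul, mul_assoc]

/-- The elements with `nrd x₀ = nrd x = s`, for good `s`. -/
theorem mix_good_m
    (hshort : ∀ (x : SL1 (up L a) (q * up L b)) (g : OctL E a b c ≃ₗ[E] OctL E a b c),
      (∀ y : OctL E a b c, g y = shortFun ρ (psiL α q ((x : (Qt (up L a) (q * up L b))ˣ) :
        Qt (up L a) (q * up L b))) y) → g ∈ RsI_m ρ σ ι α a b c q)
    {x0 : Qt a b} {x : Qt (up L a) (q * up L b)} {s : kˣ} (hsG : GoodS a q s) (h0 : nrd x0 = s)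
    (h1 : nrd x = algebraMap k L (s : k)) {g : OctL E a b c ≃ₗ[E] OctL E a b c}
    (hg : ∀ y : OctL E a b c, g y =
      (algebraMap k E (s : k))⁻¹ • zFI ρ α q x0 x (s ^ 2) y) : g ∈ RsI_m ρ σ ι α a b c q := by
  by_cases hs1 : s = 1
  · subst hs1
    rw [Units.val_one] at h0 h1
    rw [map_one] at h1
    obtain ⟨h, hh, hh'⟩ := exists_LS_m H hshort h0 h1
    have e1 : g = h := by
      apply LinearEquiv.ext
      intro y
      rw [hg, hh', Mix.zFI_eq x0 (s := 1) (by rw [h1, Units.val_one, map_one]), Units.val_one,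
        map_one, inv_one, one_smul]
    rw [e1]
    exact hh
  · obtain ⟨u, D, hD, hgood, hsign, hns⟩ := exists_goodu H hs1 (norm_pos H h0 h1) hsG
    obtain ⟨-, ⟨w, hw0, hw⟩, -, ⟨p, hp0, hp⟩, -⟩ := id hgood
    have hNw := nrd_half hw0 hw hD
    have hNp := nrd_half (u := algebraMap k L u) (s := algebraMap k L (s : k)) hp0 hp (by
      rw [hD, map_sub, map_mul, map_pow, map_ofNat])
    set x0' : Qt a b := (1 / 2 : k) • (u • 1 + w) with hx0'
    set x' : Qt (up L a) (q * up L b) := (1 / 2 : L) • (algebraMap k L u • 1 + p) with hx'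
    have hsk : (s : k) ≠ 0 := s.ne_zero
    have hsL : algebraMap k L (s : k) ≠ 0 := (map_ne_zero _).2 hsk
    have f0 : x0' * ((s : k)⁻¹ • (star x0' * x0)) = x0 := by
      rw [mul_smul_comm, ← mul_assoc, q_mul_star, hNw, smul_mul_assoc, one_mul, smul_smul,
        inv_mul_cancel₀ hsk, one_smul]
    have f1 : x' * ((algebraMap k L (s : k))⁻¹ • (star x' * x)) = x := by
      rw [mul_smul_comm, ← mul_assoc, q_mul_star, hNp, smul_mul_assoc, one_mul, smul_smul,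
        inv_mul_cancel₀ hsL, one_smul]
    have n0 : nrd ((s : k)⁻¹ • (star x0' * x0)) = 1 := by
      have := congrArg nrd f0
      rw [nrd_mul, hNw, h0] at this
      exact mul_left_cancel₀ hsk (by rw [this, mul_one])
    have n1 : nrd ((algebraMap k L (s : k))⁻¹ • (star x' * x)) = 1 := by
      have := congrArg nrd f1
      rw [nrd_mul, hNp, h1] at this
      exact mul_left_cancel₀ hsL (by rw [this, mul_one])
    obtain ⟨h, hh, hh'⟩ := exists_LS_m H hshort n0 n1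
    have key : ∀ y, g (h⁻¹ y) = (algebraMap k E (s : k))⁻¹ • zFI ρ α q x0' x' (s ^ 2) y := by
      intro y
      rw [hg, Mix.zFI_eq x0 h1, Mix.zFI_eq x0' hNp]
      congr 1
      have e1 : y = h (h⁻¹ y) := by
        rw [← LinearEquiv.mul_apply, mul_inv_cancel]; rfl
      conv_rhs => rw [e1, hh', zFun_mul, ← H.psiL_mul, ← qup_mul, f0, f1, one_mul]
    have h5 : g * h⁻¹ ∈ RsI_m ρ σ ι α a b c q :=
      H63.mid_mem_m H s u D w p hD hgood hns hw0 hw hp0 hp _ key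
    have e2 : g = g * h⁻¹ * h := by group
    rw [e2]
    exact (RsI_m ρ σ ι α a b c q).mul_mem h5 hh

/-- **The mixed elements**: the elements with `nrd x₀ = nrd x ∈ k*` (normalised by `κ = 1`), from
the short elements. -/
theorem mix_mem_of_m
    (hshort : ∀ (x : SL1 (up L a) (q * up L b)) (g : OctL E a b c ≃ₗ[E] OctL E a b c),
      (∀ y : OctL E a b c, g y = shortFun ρ (psiL α q ((x : (Qt (up L a) (q * up L b))ˣ) :
        Qt (up L a) (q * up L b))) y) → g ∈ RsI_m ρ σ ι α a b c q)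
    {x0 : Qt a b} {x : Qt (up L a) (q * up L b)} {s : kˣ} (h0 : nrd x0 = s)
    (h1 : nrd x = algebraMap k L (s : k)) {g : OctL E a b c ≃ₗ[E] OctL E a b c}
    (hg : ∀ y : OctL E a b c, g y =
      (algebraMap k E (s : k))⁻¹ • zFI ρ α q x0 x (s ^ 2) y) : g ∈ RsI_m ρ σ ι α a b c q := by
  obtain ⟨s1, s2, hs, hG1, hG2, hpos⟩ := exists_fac H.h3 a q s
  obtain ⟨y0, hy0⟩ := exists_nrd (a := a) (b := b) s1 fun φ _ _ => hpos φ
  obtain ⟨y1, hy1⟩ := exists_nrd (a := up L a) (b := q * up L b) (up L s1)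
    fun φ _ _ => hpos (φ.comp (algebraMap k L))
  have hy1' : nrd y1 = algebraMap k L (s1 : k) := hy1
  have hs1 : (s1 : k) ≠ 0 := s1.ne_zero
  have hs1L : algebraMap k L (s1 : k) ≠ 0 := (map_ne_zero _).2 hs1
  have hs1E : algebraMap k E (s1 : k) ≠ 0 := (map_ne_zero _).2 hs1
  obtain ⟨z0, hz0⟩ : ∃ z0 : Qt a b, z0 = (s1 : k)⁻¹ • (star y0 * x0) := ⟨_, rfl⟩
  obtain ⟨z1, hz1⟩ : ∃ z1 : Qt (up L a) (q * up L b), z1 =
    (algebraMap k L (s1 : k))⁻¹ • (star y1 * x) := ⟨_, rfl⟩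
  have f0 : y0 * z0 = x0 := by
    rw [hz0, mul_smul_comm, ← mul_assoc, q_mul_star, hy0, smul_mul_assoc, one_mul, smul_smul,
      inv_mul_cancel₀ hs1, one_smul]
  have f1 : y1 * z1 = x := by
    rw [hz1, mul_smul_comm, ← mul_assoc, q_mul_star, hy1', smul_mul_assoc, one_mul, smul_smul,
      inv_mul_cancel₀ hs1L, one_smul]
  have n0 : nrd z0 = s2 := by
    have h2 := congrArg nrd f0
    rw [nrd_mul, hy0, h0, hs, Units.val_mul] at h2
    exact mul_left_cancel₀ hs1 h2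
  have n1 : nrd z1 = algebraMap k L (s2 : k) := by
    have h2 := congrArg nrd f1
    rw [nrd_mul, hy1', h1, hs, Units.val_mul, map_mul] at h2
    exact mul_left_cancel₀ hs1L h2
  obtain ⟨g1, hg1⟩ := exists_mixI (c := c) H hy0 hy1'
  obtain ⟨g2, hg2⟩ := exists_mixI (c := c) H n0 n1
  have m1 := mix_good_m H hshort hG1 hy0 hy1' hg1
  have m2 := mix_good_m H hshort hG2 n0 n1 hg2
  have e : g = g1 * g2 := by
    apply LinearEquiv.ext
    intro y
    have h3 : algebraMap k E (s : k) = algebraMap k E (s1 : k) * algebraMap k E (s2 : k) := by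
      rw [hs, Units.val_mul, map_mul]
    rw [LinearEquiv.mul_apply, hg, hg1, hg2, Mix.zFI_eq x0 h1, Mix.zFI_eq y0 hy1',
      Mix.zFI_eq z0 n1, zFun_smul, zFun_mul, ← H.psiL_mul, ← qup_mul, f0, f1, one_mul, smul_smul,
      h3, mul_inv]
  rw [e]
  exact (RsI_m ρ σ ι α a b c q).mul_mem m1 m2

end Vale.Agent.P011.D4W.H7

end

section

open NumberField Topology Filter

namespace Vale.Agent.P011.D4W.H7

open Vale.Agent.P011.Arith Vale.Agent.P011.MPQ Vale.Agent.P011.D4 Vale.Agent.P011.D4.Oct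
  Vale.Agent.P011.E6 Vale.Agent.P011.D4X Vale.Agent.P011.D4X.H691 Vale.Agent.P011.D4Y

/-- The short elements lie in the residual, for all the models over `L / k`. -/
def ShortAll_m (k L : Type) [Field k] [NumberField k] [Field L] [NumberField L] [Algebra k L] :
    Prop :=
  ∀ (E : Type) [Field E] [Algebra k E] [Algebra L E] [IsScalarTower k L E] [NeZero (2 : E)]
    (ρ σ ι : E ≃ₐ[k] E) (α : E) (a b c : kˣ) (q : Lˣ), HyI ρ σ ι α a b c q →
    ∀ (x : SL1 (up L a) (q * up L b)) (g : OctL E a b c ≃ₗ[E] OctL E a b c),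
      (∀ y : OctL E a b c, g y = shortFun ρ (psiL α q ((x : (Qt (up L a) (q * up L b))ˣ) :
        Qt (up L a) (q * up L b))) y) → g ∈ RsI_m ρ σ ι α a b c q

variable {k L E : Type} [Field k] [NumberField k] [Field L] [NumberField L] [Field E]
  [Algebra k L] [Algebra k E] [Algebra L E]
  [IsScalarTower k L E] [NeZero (2 : E)] {ρ σ ι : E ≃ₐ[k] E} {α : E}
  {a b c : kˣ} {q : Lˣ}

/-- The elements of class one in a centraliser. -/
theorem stab_N_m (hS : ShortAll_m k L) (H : HyI ρ σ ι α a b c q) {b' c' : kˣ} {j l : Oct a b c}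
    (h : Trip a b' c' gi j l) {z : ATI ρ σ ι α a b c q} (hz : z ∈ stabI ρ σ ι α q h) {κ : Lˣ}
    (hκ : IsKapI ρ z.1 κ) (hcl : κ ∈ SqL k L) : IsNI_m ρ σ ι α a b c q z :=
  stab_NI_of_m H h (fun _ _ _ h0 h1 _ hg => mix_mem_of_m (hyTripI H h)
    (hS E ρ σ ι α a b' c' q (hyTripI H h)) h0 h1 hg) hz hκ hcl

/-- The elements of class one in the standard centraliser. -/
theorem stab0_N_m (hS : ShortAll_m k L) (H : HyI ρ σ ι α a b c q) {z : ATI ρ σ ι α a b c q}
    (hz : z ∈ stab0I ρ σ ι α a b c q) (hcl : kapI z ∈ SqL k L) : IsNI_m ρ σ ι α a b c q z := by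
  rw [← stabI_std (trip_std : Trip a b c (gi : Oct a b c) gj gl)] at hz
  exact stab_N_m hS H trip_std hz (isKapI_kapI z) hcl

/-- **The parts.** -/
theorem part_m (hS : ShortAll_m k L) (H : HyI ρ σ ι α a b c q)
    (hX : ∀ τ : k →+* ℝ, τ a < 0 → τ b < 0 ∧ τ c < 0)
    {b' c' : kˣ} {j l : Oct a b c} (h : Trip a b' c' gi j l) {D : k}
    (hD : GoodD a b q D) (hD' : GoodD a b' q D) (hns : ∀ e : E, e * e ≠ algebraMap k E D)
    {x y : L} (κ : Lˣ) (hκ : (κ : L) = x ^ 2 - algebraMap k L D * y ^ 2) :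
    ∃ w w' : ATI ρ σ ι α a b c q, w ∈ stab0I ρ σ ι α a b c q ∧ w' ∈ stabI ρ σ ι α q h ∧
      IsKapI ρ w.1 κ ∧ IsKapI ρ w'.1 κ ∧ IsNI_m ρ σ ι α a b c q (w * w'⁻¹) := by
  have := H.numberField
  obtain ⟨hD0, ⟨w0, hw0, hw0'⟩, hwq, ⟨w1, hw1, hw1'⟩, hsgn⟩ := hD
  obtain ⟨-, ⟨w2, hw2, hw2'⟩, -, -, -⟩ := hD'
  have hns' : ∀ r : k, D ≠ a * r ^ 2 := by
    rintro r rfl
    apply hns (α * algebraMap k E r)
    rw [map_mul, map_pow, ← H.α2]
    ring
  obtain ⟨E1, O, _, _, _, _, _, _, _, _, _, _, _, _, _, _, _, _, ρ1, σ1, ι1, α1, ρ', σ', τ', ι',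
    a1, b1, c1, q1, u, φ, X⟩ := exists_kcxI H hD0 hsgn hns hw0 hw0' hw1 hw1' hwq
  -- the singular elements near the standard one
  have h1 := Part.near X.H1
  have h2 : ∀ᶠ v in nh {W : E1 →+* ℂ | W.comp (algebraMap k E1) ∈ Part.Sk k a}
      (ep α1 * gl : OctL E1 a1 b1 c1), Pt ρ1 v → (∃ μ : E1, Im ι1 v = μ • v) →
      ∃ y ∈ stabsI ρ1 σ1 ι1 α1 a1 b1 c1 q1, ∃ t : E1, t ≠ 0 ∧
          y.1 (tri ρ1 v (Jm ρ1 σ1 α1 q1 v)) = t • ep α1 := by
    rw [oup_gl] at h1
    exact h1.filter_mono (D4X.Part.nh_mono (Part.Bd_sub X.H1 (by rw [X.ha1]; exact hsgn)) _)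
  have hne : (Part.S k a).Nonempty := by
    obtain ⟨τ, hτ, -⟩ := H.hcp
    exact ⟨τ, hτ⟩
  obtain ⟨ε, hε, h3⟩ := X.sing_nearI H hns hw0 hw0' (Part.Sk_finite a)
    (by
      obtain ⟨τ, hτ⟩ := hne
      exact ⟨_, τ, hτ, rfl⟩) h2
  -- the triple near the standard one
  obtain ⟨f, c'', l'', h'', w'', hf, hw, hww, hnear⟩ := D4X.H370.exists_trip_near H.hdiv
    (Part.S k a) (fun τ hτ => ⟨hτ, hX τ hτ⟩) hne h hw0 hw0' hns' hw2 hw2' hε
  obtain ⟨v, hv1, hv2, hv3, hvt⟩ := h3 h'' hw hww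
    (by
      rintro τ ⟨τ', hτ', rfl⟩
      rw [D4X.H370.on_ofReal]
      exact (hnear τ' hτ').1.le)
    (by
      rintro τ ⟨τ', hτ', rfl⟩
      rw [D4X.H370.on_ofReal]
      exact (hnear τ' hτ').2.le)
  obtain ⟨y', hy', t, ht, hyt⟩ := hv1 hv2 ⟨-1, by rw [neg_one_smul]; exact hv3⟩
  obtain ⟨b2, c2, j1, l1, h4, hy1⟩ := X.z5_yI h'' hvt ht hyt
  -- the parts
  exact Part.move_m H h h'' (D4Y.H370.extE_mem_RsI_m H hf) (D4X.H370.tQ_conj_mul hf h h'')
    (Part.core1_m X (fun h z hz hk => stab_N_m hS X.H1 h hz (κ := 1)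
        (by rw [← hk]; exact isKapI_kapI _) (Subgroup.one_mem _)) h'' hy' hy1 κ hκ)

/-- The centralisers are congruent to the centraliser of the standard involution, for the elements
whose multiplier has constant signs and is a norm at the primes of even local degree. -/
theorem stabV_le_of_m (H : HyI ρ σ ι α a b c q) {b' c' : kˣ} {j l : Oct a b c}
    (h : Trip a b' c' gi j l) {G : k → Prop}
    (hF4 : ∀ ν : Lˣ, (∀ w : L →+* ℝ, w (algebraMap k L a) < 0 → 0 < w (ν : L)) → ν ∈ NV k a q →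
      ∃ (D : Fin 3 → k) (x y : Fin 3 → L) (e : kˣ), (∀ i, G (D i)) ∧
        (ν : L) = algebraMap k L (e : k) * ∏ i, (x i ^ 2 - algebraMap k L (D i) * y i ^ 2))
    (hpart : ∀ {D : k}, G D → ∀ {x y : L} (κ : Lˣ),
      (κ : L) = x ^ 2 - algebraMap k L D * y ^ 2 →
      ∃ w w' : ATI ρ σ ι α a b c q, w ∈ stab0I ρ σ ι α a b c q ∧ w' ∈ stabI ρ σ ι α q h ∧
        IsKapI ρ w.1 κ ∧ IsKapI ρ w'.1 κ ∧ IsNI_m ρ σ ι α a b c q (w * w'⁻¹))
    (hstabN : ∀ {z : ATI ρ σ ι α a b c q}, z ∈ stabI ρ σ ι α q h → ∀ {κ : Lˣ}, IsKapI ρ z.1 κ →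
      κ ∈ SqL k L → IsNI_m ρ σ ι α a b c q z)
    {z : ATI ρ σ ι α a b c q} (hz : z ∈ stabI ρ σ ι α q h) (hP : kapI z ∈ PosC k L a)
    (hV : kapI z ∈ NV k a q) : z ∈ H.NA_m ⊔ stab0I ρ σ ι α a b c q := by
  obtain ⟨e0, he0⟩ := exists_e hP
  obtain ⟨D, x, y, e, hD, hp⟩ := hF4 (up L e0 * kapI z) (fun w hw => by
    rw [Units.val_mul, map_mul]
    exact he0 w hw) (Subgroup.mul_mem _ (up_mem_NV e0) hV)
  have hne : ∀ i, x i ^ 2 - algebraMap k L (D i) * y i ^ 2 ≠ 0 := by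
    intro i h0
    have h1 : ∏ i, (x i ^ 2 - algebraMap k L (D i) * y i ^ 2) = 0 :=
      Finset.prod_eq_zero (Finset.mem_univ i) h0
    rw [h1, mul_zero] at hp
    exact (up L e0 * kapI z).ne_zero hp
  choose w w' hw hw' hwk hwk' hww using fun i =>
    hpart (hD i) (x := x i) (y := y i) (Units.mk0 _ (hne i)) rfl
  -- the product of the parts
  have key : ∀ i, w' i ∈ H.NA_m ⊔ stab0I ρ σ ι α a b c q := by
    intro i
    have h1 : w i * (w' i)⁻¹ ∈ H.NA_m := hww i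
    have h2 : w' i = (w i * (w' i)⁻¹)⁻¹ * w i := by group
    rw [h2]
    exact Subgroup.mul_mem _ (Subgroup.mem_sup_left (H.NA_m.inv_mem h1))
      (Subgroup.mem_sup_right (hw i))
  let u : ATI ρ σ ι α a b c q := w' 0 * w' 1 * w' 2
  have hu : u ∈ stabI ρ σ ι α q h :=
    Subgroup.mul_mem _ (Subgroup.mul_mem _ (hw' 0) (hw' 1)) (hw' 2)
  have hu' : u ∈ H.NA_m ⊔ stab0I ρ σ ι α a b c q :=
    Subgroup.mul_mem _ (Subgroup.mul_mem _ (key 0) (key 1)) (key 2)
  have hku : kapI u = Units.mk0 _ (hne 0) * Units.mk0 _ (hne 1) * Units.mk0 _ (hne 2) := by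
    rw [kapI_mul, kapI_mul, kapI_eq (hwk' 0), kapI_eq (hwk' 1), kapI_eq (hwk' 2)]
  have hκ : up L e0 * kapI z = up L e * kapI u := by
    apply Units.ext
    rw [hp, hku, Fin.prod_univ_three]
    rfl
  have hcl : kapI (z * u⁻¹) ∈ SqL k L := by
    rw [kapI_mul, kapI_inv]
    have h1 : kapI z * (kapI u)⁻¹ = (up L e0)⁻¹ * up L e := by
      rw [eq_inv_mul_iff_mul_eq, ← mul_assoc, hκ, mul_inv_cancel_right]
    have h2 : ∀ t : kˣ, up L t ∈ SqL k L := fun t => by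
      rw [mem_SqL]
      exact ⟨t, 1, by rw [one_pow, mul_one]⟩
    rw [h1]
    exact Subgroup.mul_mem _ (Subgroup.inv_mem _ (h2 e0)) (h2 e)
  have hN : z * u⁻¹ ∈ H.NA_m :=
    hstabN (Subgroup.mul_mem _ hz (Subgroup.inv_mem _ hu)) (isKapI_kapI _) hcl
  have hzu : z = z * u⁻¹ * u := by group
  rw [hzu]
  exact Subgroup.mul_mem _ (Subgroup.mem_sup_left hN) hu'

/-- **The centralisers are congruent to the centraliser of the standard involution**, for the
elements whose multiplier has constant signs and is a norm at the primes of even local degree. -/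
theorem stabV_le_m (hS : ShortAll_m k L) (hF : F4All k L) (H : HyI ρ σ ι α a b c q)
    (hX : ∀ τ : k →+* ℝ, τ a < 0 → τ b < 0 ∧ τ c < 0) {b' c' : kˣ} {j l : Oct a b c}
    (h : Trip a b' c' gi j l) {z : ATI ρ σ ι α a b c q} (hz : z ∈ stabI ρ σ ι α q h)
    (hP : kapI z ∈ PosC k L a) (hV : kapI z ∈ NV k a q) :
    z ∈ H.NA_m ⊔ stab0I ρ σ ι α a b c q :=
  stabV_le_of_m H h (G := fun D => GoodD a b q D ∧ GoodD a b' q D ∧
      ∀ e : E, e * e ≠ algebraMap k E D)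
    (fun ν hν hν' => hF E ρ σ ι α a b c q H h ν hν hν')
    (fun hG _ _ κ hκ => part_m hS H hX h hG.1 hG.2.1 hG.2.2 κ hκ)
    (fun hz _ hκ hc => stab_N_m hS H h hz hκ hc) hz hP hV

/-- **Openness at the bad real places**, from the congruence of the centralisers. -/
theorem open_top_of_m (hS : ShortAll_m k L) (H : HyI ρ σ ι α a b c q)
    (hle : ∀ {b' c' : kˣ} {j l : Oct a b c} (h : Trip a b' c' gi j l) {z : ATI ρ σ ι α a b c q},
      z ∈ stabI ρ σ ι α q h → kapI z ∈ PosC k L a → z ∈ H.NA_m ⊔ stab0I ρ σ ι α a b c q) :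
    ∃ ε : ℝ, 0 < ε ∧ ∀ g : OctL E a b c ≃ₗ[E] OctL E a b c, g ∈ GTI ρ σ ι α a b c q →
      (∀ w ∈ Bd ρ σ q, ∀ x, on w (g x - x) ≤ ε * on w x) → g ∈ RsI_m ρ σ ι α a b c q := by
  have : NumberField E := H.numberField
  have : NeZero (2 : k) := ⟨two_ne_zero⟩
  have hv : Pt ρ (ep α * oup E (gl : Oct a b c) : OctL E a b c) := by
    rw [← D4X.H862.vl_eq]
    exact H408.pt_vlI H
  have hvI : Im ι (ep α * oup E (gl : Oct a b c) : OctL E a b c) =
      (-1 : E) • (ep α * oup E (gl : Oct a b c)) := by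
    rw [← D4X.H862.vl_eq, neg_one_smul]
    exact H408.Im_vl H.ια
  exact D4Y.open_of_m H (Set.toFinite _) hv hvI (D4Y.H691.near_gen H (D4Y.H691.pos_mem_PosC H))
    (fun z t h1 h2 => gen2PI H h1 h2) hle (fun hz hc => stab0_N_m hS H hz hc)

end Vale.Agent.P011.D4W.H7

end

section

open NumberField IsDedekindDomain Topology Filter

namespace Vale.Agent.P011.D4W.H7

open Vale.Agent.P011.Arith Vale.Agent.P011.D4 Vale.Agent.P011.D4.Oct Vale.Agent.P011.D4X
  Vale.Agent.P011.D4Y Vale.Agent.P011.MPQ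

/-- **The centralisers are congruent to the centraliser of the standard involution**, for the
elements whose multiplier has constant signs and is a norm at the primes of even local degree. -/
theorem stabV_le'_m {k L E : Type} [Field k] [NumberField k] [Field L] [NumberField L] [Field E]
    [Algebra k L] [Algebra k E] [Algebra L E]
    [IsScalarTower k L E] [NeZero (2 : E)] {ρ σ ι : E ≃ₐ[k] E} {α : E}
    {a b c : kˣ} {q : Lˣ} (hS : ShortAll_m k L) (H : HyI ρ σ ι α a b c q)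
    (hX : ∀ τ : k →+* ℝ, τ a < 0 → τ b < 0 ∧ τ c < 0) {b' c' : kˣ} {j l : Oct a b c}
    (h : Trip a b' c' gi j l) {z : ATI ρ σ ι α a b c q} (hz : z ∈ stabI ρ σ ι α q h)
    (hP : kapI z ∈ D4X.H691.PosC k L a) (hV : kapI z ∈ NV k a q) :
    z ∈ H.NA_m ⊔ stab0I ρ σ ι α a b c q :=
  stabV_le_m hS f4All H hX h hz hP hV

end Vale.Agent.P011.D4W.H7

end

section

open Module NumberField

namespace Vale.Agent.P011.D4W.H7

open Vale.Agent.P011.MPQ Vale.Agent.P011.D4 Vale.Agent.P011.D4.Oct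

/-- The centralisers are congruent to the centraliser of the standard involution, for the elements
whose multiplier has constant signs. -/
def LeAll_m (k L : Type) [Field k] [NumberField k] [Field L] [NumberField L] [Algebra k L] :
    Prop :=
  ∀ (E : Type) [Field E] [Algebra k E] [Algebra L E] [IsScalarTower k L E] [NeZero (2 : E)]
    (ρ σ ι : E ≃ₐ[k] E) (α : E) (a b c : kˣ) (q : Lˣ) (H : D4Y.HyI ρ σ ι α a b c q),
    (∀ τ : k →+* ℝ, τ a < 0 → τ b < 0 ∧ τ c < 0) →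
    ∀ {b' c' : kˣ} {j l : Oct a b c} (h : Trip a b' c' gi j l)
      {z : D4Y.ATI ρ σ ι α a b c q}, z ∈ D4Y.stabI ρ σ ι α q h →
      D4Y.kapI z ∈ D4X.H691.PosC k L a → z ∈ H.NA_m ⊔ D4Y.stab0I ρ σ ι α a b c q

end Vale.Agent.P011.D4W.H7

end

section

open Module NumberField

namespace Vale.Agent.P011.D4W.H7

open Vale.Agent.P011.Arith Vale.Agent.P011.MPQ Vale.Agent.P011.D4 Vale.Agent.P011.D4.Oct
  Vale.Agent.P011.D4.Em Vale.Agent.P011.E6 Vale.Agent.P011.D4X Vale.Agent.P011.D4X.H691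
  Vale.Agent.P011.D4Y

open Vale.Agent.P011.D4.B.FI (fixI mem_fixI)

section move

variable {k L E : Type} [Field k] [NumberField k] [Field L] [NumberField L] [Field E]
  [Algebra k L] [Algebra k E] [Algebra L E]
  [IsScalarTower k L E] [NeZero (2 : E)] {ρ σ ι : E ≃ₐ[k] E} {α : E}
  {a b c : kˣ} {q : Lˣ}

/-- The congruence is transported along an element of the residual. -/
theorem le_move_m (H : HyI ρ σ ι α a b c q) {b' c' b'' c'' : kˣ} {j l j'' l'' : Oct a b c}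
    (h : Trip a b' c' gi j l)
    (h'' : Trip a b'' c'' gi j'' l'') {n : OctL E a b c ≃ₗ[E] OctL E a b c}
    (hn : n ∈ RsI_m ρ σ ι α a b c q) (hc : n * tQ E h * n⁻¹ = tQ E h'')
    (hle : ∀ {z : ATI ρ σ ι α a b c q}, z ∈ stabI ρ σ ι α q h'' → kapI z ∈ PosC k L a →
      z ∈ H.NA_m ⊔ stab0I ρ σ ι α a b c q)
    {z : ATI ρ σ ι α a b c q} (hz : z ∈ stabI ρ σ ι α q h) (hP : kapI z ∈ PosC k L a) :
    z ∈ H.NA_m ⊔ stab0I ρ σ ι α a b c q := by
  obtain ⟨nA, rfl⟩ : ∃ nA : ATI ρ σ ι α a b c q, nA.1 = n :=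
    ⟨⟨n, GTI_le_ATI (RsI_le_m hn)⟩, rfl⟩
  have hnN : nA ∈ H.NA_m := ⟨1, nA.1, hn, fun x => by
    rw [Units.val_one, map_one, map_one, one_smul]⟩
  have hkn : kapI nA = 1 := kapI_of_GTI (RsI_le_m hn)
  have h1 : nA * z * nA⁻¹ ∈ H.NA_m ⊔ stab0I ρ σ ι α a b c q := by
    apply hle
    · change nA.1 * z.1 * nA.1⁻¹ * tQ E h'' = tQ E h'' * (nA.1 * z.1 * nA.1⁻¹)
      have h1 : z.1 * tQ E h = tQ E h * z.1 := hz
      rw [← hc]
      calc nA.1 * z.1 * nA.1⁻¹ * (nA.1 * tQ E h * nA.1⁻¹)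
          = nA.1 * (z.1 * tQ E h) * nA.1⁻¹ := by group
        _ = nA.1 * (tQ E h * z.1) * nA.1⁻¹ := by rw [h1]
        _ = nA.1 * tQ E h * nA.1⁻¹ * (nA.1 * z.1 * nA.1⁻¹) := by group
    · rw [kapI_mul, kapI_mul, kapI_inv, hkn, inv_one, one_mul, mul_one]
      exact hP
  have h2 : z = nA⁻¹ * (nA * z * nA⁻¹) * nA := by group
  rw [h2]
  exact Subgroup.mul_mem _ (Subgroup.mul_mem _ (Subgroup.mem_sup_left (H.NA_m.inv_mem hnN)) h1)
    (Subgroup.mem_sup_left hnN)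

/-- The congruence for the frame `(i, l, j)`. -/
def LeSwap_m (k L : Type) [Field k] [NumberField k] [Field L] [NumberField L] [Algebra k L] :
    Prop :=
  ∀ (E : Type) [Field E] [Algebra k E] [Algebra L E] [IsScalarTower k L E] [NeZero (2 : E)]
    (ρ σ ι : E ≃ₐ[k] E) (α : E) (a b c : kˣ) (q : Lˣ) (H : HyI ρ σ ι α a b c q),
    (∀ τ : k →+* ℝ, τ a < 0 → τ b < 0 ∧ τ c < 0) →
    ∀ {z : ATI ρ σ ι α a b c q},
      z ∈ stabI ρ σ ι α q (trip_swap : Trip a c b (gi : Oct a b c) gl gj) →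
      kapI z ∈ PosC k L a → z ∈ H.NA_m ⊔ stab0I ρ σ ι α a b c q

/-- **The reduction to the frame `(i, l, j)`.** -/
theorem le_of_swap_m (hsw : LeSwap_m k L) : LeAll_m k L := by
  intro E _ _ _ _ _ ρ σ ι α a b c q H hX b' c' j l h z hz hP
  have h2k : NeZero (2 : k) := ⟨two_ne_zero⟩
  have hneg : ∀ τ : k →+* ℝ, τ a < 0 → τ b' < 0 := fun τ hτ => by
    obtain ⟨h1, h2⟩ := hX τ hτ
    exact ((DefAt.of_neg (τ := τ) (a := a) (b := b) (c := c) hτ h1 h2).trip h).neg.2.1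
  obtain ⟨u, hu⟩ := exists_nrd (a := a) (b := b) (b' / c) (fun φ h1 _ => by
    rw [Units.val_div_eq_div_val, map_div₀]
    exact div_pos_of_neg_of_neg (hneg φ h1) (hX φ h1).2)
  have hb : (b' : k) = c * nrd u := by
    rw [hu, Units.val_div_eq_div_val]
    have := c.ne_zero
    field_simp
  have t1 : Trip a b' b (gi : Oct a b c) ⟨0, u⟩ gj := H24.trip_u hb
  have t2 : Trip a b b' (gi : Oct a b c) gj ⟨0, u⟩ := trip_ul hb
  -- the automorphism
  obtain ⟨n, hn, -⟩ := D4X.H369.exists_n H.hdiv h.sj t1.sj h.ij t1.ij (by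
    rw [B.norm_of_sq t1.sj t1.jj, B.norm_of_sq h.sj h.jj])
  have hf : n.1.1 gi = gi := mem_fixI.1 n.2
  have t1' : Trip a b' b (gi : Oct a b c) (n.1.1 j) gj := by rw [hn]; exact t1
  have hc := D4X.H370.tQ_conj_mul (E := E) hf h t1'
  have hc' : extE E n.1.1 * tQ E h * (extE E n.1.1)⁻¹ = tQ E t1 := by
    rw [hc]
    congr 1
  refine le_move_m H h t1 (D4Y.H370.extE_mem_RsI_m H hf) hc' ?_ hz hP
  -- the change of model
  intro z hz hP
  have H' : HyI ρ σ ι α a b b' q := hyTripI H t2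
  obtain ⟨z0, hz0, rfl⟩ := exists_of_mem_stabI t1 hz
  rw [cjAI_comp t2 (trip_swap : Trip a b' b (gi : Oct a b b') gl gj) t1
    (fun x => comp_swap hb x) z0]
  rw [kapI_cjAI] at hP
  have h1 := hsw E ρ σ ι α a b b' q H' (fun τ hτ => ⟨(hX τ hτ).1, hneg τ hτ⟩)
    (z := cjAI ρ σ ι α q (trip_swap : Trip a b' b (gi : Oct a b b') gl gj) z0)
    ((cjAI_mem_stabI _).2 hz0) (by rw [kapI_cjAI]; exact hP)
  have key : H'.NA_m ⊔ stab0I ρ σ ι α a b b' q ≤
      (H.NA_m ⊔ stab0I ρ σ ι α a b c q).comap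
        (cjAI ρ σ ι α q t2 : ATI ρ σ ι α a b b' q →* ATI ρ σ ι α a b c q) := by
    refine sup_le (fun y hy => ?_) (fun y hy => ?_)
    · exact Subgroup.mem_sup_left (cjAI_isNI_m t2 hy)
    · refine Subgroup.mem_sup_right ?_
      have h3 : cjAI ρ σ ι α q t2 y ∈ stabI ρ σ ι α q t2 := (cjAI_mem_stabI t2).2 hy
      have h4 : tQ E t2 = t0 E a b c := D4X.H369.tQ_t0 (two_ne_zero) (p := 1) (r := 0)
        (by rfl) (by norm_num) t2
      intro x
      have h5 : (cjAI ρ σ ι α q t2 y).1 * tQ E t2 = tQ E t2 * (cjAI ρ σ ι α q t2 y).1 := h3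
      rw [h4] at h5
      exact congrArg (fun f : OctL E a b c ≃ₗ[E] OctL E a b c => f x) h5
  exact key h1

end move

end Vale.Agent.P011.D4W.H7

end

section

open NumberField IsDedekindDomain Topology Filter

namespace Vale.Agent.P011.D4W

open Vale.Agent.P011.Arith Vale.Agent.P011.MPQ Vale.Agent.P011.D4 Vale.Agent.P011.D4.Oct
  Vale.Agent.P011.E6

open Vale.Agent.P011.D4X Vale.Agent.P011.D4X.H691 Vale.Agent.P011.D4Y Vale.Agent.P011.D4Y.H659

open Vale.Agent.P011.D4Y.H408 Vale.Agent.P011.D4X.H862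

section nrm

variable {k L E : Type} [Field k] [NumberField k] [Field L] [NumberField L] [Field E]
  [NumberField E] [Algebra k L] [Algebra k E] [Algebra L E] [IsScalarTower k L E]
  {ρ σ ι : E ≃ₐ[k] E} {α : E} {a b c : kˣ} {q : Lˣ} (H : HyI ρ σ ι α a b c q)

include H

variable [NeZero (2 : E)]

/-- The congruence of the centralisers, for the subgroup they generate. -/
theorem stabs_le_m
    (hle : ∀ {b' c' : kˣ} {j l : Oct a b c} (h : Trip a b' c' gi j l) {z : ATI ρ σ ι α a b c q},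
      z ∈ stabI ρ σ ι α q h → kapI z ∈ PosC k L a → kapI z ∈ NV k a q →
        z ∈ H.NA_m ⊔ stab0I ρ σ ι α a b c q) :
    stabsPI (P0 k a q) ρ σ ι α a b c q ≤ H.NA_m ⊔ stab0I ρ σ ι α a b c q := by
  rw [stabsPI, Subgroup.closure_le]
  rintro z ⟨hP, b', c', j, l, h, hz⟩
  exact hle h hz hP.1 hP.2

/-- **Step O.** The elements of the adjoint group which move the standard vector to a vector close
to its line lie in `NA ⊔ stab0I`, if their multiplier is positive and is a norm at the bad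
primes. -/
theorem mem_of_near_m
    (hle : ∀ {b' c' : kˣ} {j l : Oct a b c} (h : Trip a b' c' gi j l) {z : ATI ρ σ ι α a b c q},
      z ∈ stabI ρ σ ι α q h → kapI z ∈ PosC k L a → kapI z ∈ NV k a q →
        z ∈ H.NA_m ⊔ stab0I ρ σ ι α a b c q)
    {X : Type} {F : Filter X} {g : X → ATI ρ σ ι α a b c q} {t : X → E}
    (h : AO (SV E (VB k a q)) F (fun n => t n • (g n).1 (ep α * oup E (gl : Oct a b c)))
      (ep α * oup E (gl : Oct a b c))) :
    ∀ᶠ n in F, kapI (g n) ∈ P0 k a q → g n ∈ H.NA_m ⊔ stab0I ρ σ ι α a b c q := by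
  have hne : (ep α * oup E (gl : Oct a b c) : OctL E a b c) ≠ 0 := (pt_std H).1
  have h1 := (tendsto_na_of h).eventually (near_PPI (c := c) H)
  have h2 : ∀ᶠ n in F, t n ≠ 0 := by
    obtain ⟨p, hp⟩ := SV_nonempty (E := E) (VB k a q)
    have h3 := ((h.2.1 : AE _ F _ _).tendsto hp).eventually_ne ((p.ne_zero_iff).mpr (by
      rw [← D4X.H862.vl_eq]
      change ((1 : E) + 0) / 2 ≠ 0
      rw [add_zero]
      exact one_div_ne_zero (NeZero.ne 2)))
    filter_upwards [h3] with n hn h0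
    rw [h0, zero_smul] at hn
    exact hn (map_zero p)
  filter_upwards [h1, h2] with n g1 g2 hκ
  have h3 : Pt ρ (t n • (g n).1 (ep α * oup E (gl : Oct a b c))) :=
    (pt_ATI (g n) (pt_std H)).smul g2
  have h4 : invo ι (t n • (g n).1 (ep α * oup E (gl : Oct a b c))) =
      (-(ι (t n) / t n)) • (t n • (g n).1 (ep α * oup E (gl : Oct a b c))) := by
    have h5 : (g n).1 (invo ι (ep α * oup E (gl : Oct a b c))) =
      invo ι ((g n).1 (ep α * oup E (gl : Oct a b c))) := (g n).2.2.2 _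
    rw [invo_smul, ← h5, Im_std H, map_smul, smul_smul, smul_smul]
    congr 1
    field_simp
  exact stabs_le_m H hle (mem_stabs_of_PPI H hκ (PPI_of_smul g2 (g1 h3 ⟨_, h4⟩)))

end nrm

end Vale.Agent.P011.D4W

end

section

open NumberField IsDedekindDomain Topology Filter

namespace Vale.Agent.P011.D4W

open Vale.Agent.P011.Arith Vale.Agent.P011.MPQ Vale.Agent.P011.D4 Vale.Agent.P011.D4.Oct
  Vale.Agent.P011.E6

open Vale.Agent.P011.D4X Vale.Agent.P011.D4X.H691 Vale.Agent.P011.D4Y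

variable {k L E : Type} [Field k] [NumberField k] [Field L] [NumberField L] [Field E]
  [Algebra k L] [Algebra k E] [Algebra L E] [IsScalarTower k L E] [NeZero (2 : E)]
  {ρ σ ι : E ≃ₐ[k] E} {α : E} {a b c : kˣ} {q : Lˣ} (H : HyI ρ σ ι α a b c q)

include H

/-- The congruence of a centraliser, from elements which change the class at one bad prime. -/
theorem flip_end_m {b' c' : kˣ} {j l : Oct a b c} (h : Trip a b' c' gi j l)
    (hle : ∀ {z : ATI ρ σ ι α a b c q}, z ∈ stabI ρ σ ι α q h → kapI z ∈ PosC k L a →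
      kapI z ∈ NV k a q → z ∈ H.NA_m ⊔ stab0I ρ σ ι α a b c q)
    (hu : ∀ v0 ∈ VB k a q, ∃ u : ATI ρ σ ι α a b c q, u ∈ stabI ρ σ ι α q h ∧
      u ∈ H.NA_m ⊔ stab0I ρ σ ι α a b c q ∧ kapI u ∈ PosC k L a ∧
      ∀ v w, Bad a q v w → (kapI u ∈ NF (up L a) ⊔ LS (w.valuation L) ↔ v ≠ v0))
    {z : ATI ρ σ ι α a b c q} (hz : z ∈ stabI ρ σ ι α q h) (hP : kapI z ∈ PosC k L a) :
    z ∈ H.NA_m ⊔ stab0I ρ σ ι α a b c q := by
  classical
  have kapI_one : kapI (1 : ATI ρ σ ι α a b c q) = 1 := map_one (kapHomI ρ σ ι α a b c q)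
  have key : ∀ T : Finset (HeightOneSpectrum (𝓞 k)), (∀ v ∈ T, v ∈ VB k a q) →
      ∃ u : ATI ρ σ ι α a b c q, u ∈ stabI ρ σ ι α q h ∧
        u ∈ H.NA_m ⊔ stab0I ρ σ ι α a b c q ∧ kapI u ∈ PosC k L a ∧
        ∀ v w, Bad a q v w → (v ∈ T → kapI (z * u) ∈ NF (up L a) ⊔ LS (w.valuation L)) ∧
          (v ∉ T → kapI u ∈ NF (up L a) ⊔ LS (w.valuation L)) := by
    intro T
    induction T using Finset.induction_on with
    | empty =>
      intro _
      refine ⟨1, Subgroup.one_mem _, Subgroup.one_mem _, ?_, fun v w _ => ⟨fun h => ?_, fun _ => ?_⟩⟩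
      · rw [kapI_one]
        exact Subgroup.one_mem _
      · exact absurd h (Finset.notMem_empty v)
      · rw [kapI_one]
        exact Subgroup.one_mem _
    | insert v0 T hv0 ih =>
      intro hT
      obtain ⟨u, u1, u2, u3, u4⟩ := ih fun v hv => hT v (Finset.mem_insert_of_mem hv)
      obtain ⟨w0, hw0⟩ := hT v0 (Finset.mem_insert_self _ _)
      obtain ⟨y, y1, y2, y3, y4⟩ := hu v0 ⟨w0, hw0⟩
      by_cases hc : kapI (z * u) ∈ NF (up L a) ⊔ LS (w0.valuation L)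
      · refine ⟨u, u1, u2, u3, fun v w hb => ⟨fun hv => ?_, fun hv => ?_⟩⟩
        · rcases Finset.mem_insert.1 hv with rfl | hv
          · rw [H183.bad_unique H.h3 hb hw0]
            exact hc
          · exact (u4 v w hb).1 hv
        · exact (u4 v w hb).2 fun hv' => hv (Finset.mem_insert_of_mem hv')
      · refine ⟨u * y, Subgroup.mul_mem _ u1 y1, Subgroup.mul_mem _ u2 y2, ?_,
          fun v w hb => ⟨fun hv => ?_, fun hv => ?_⟩⟩
        · rw [kapI_mul]
          exact Subgroup.mul_mem _ u3 y3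
        · rw [← mul_assoc, kapI_mul]
          rcases Finset.mem_insert.1 hv with rfl | hv1
          · rw [H183.bad_unique H.h3 hb hw0]
            exact H183.mul_mem_of_not hc fun h' => (y4 v w0 hw0).1 h' rfl
          · refine Subgroup.mul_mem _ ((u4 v w hb).1 hv1) ((y4 v w hb).2 fun h' => hv0 ?_)
            rw [← h']
            exact hv1
        · rw [kapI_mul]
          refine Subgroup.mul_mem _ ((u4 v w hb).2 fun hv' => hv (Finset.mem_insert_of_mem hv'))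
            ((y4 v w hb).2 ?_)
          rintro rfl
          exact hv (Finset.mem_insert_self _ _)
  obtain ⟨u, u1, u2, u3, u4⟩ := key (VB_finite (k := k) a q).toFinset fun v hv => by
    simpa using hv
  have h1 : z * u ∈ H.NA_m ⊔ stab0I ρ σ ι α a b c q := by
    refine hle (Subgroup.mul_mem _ hz u1) ?_ fun v w hb => (u4 v w hb).1 ?_
    · rw [kapI_mul]
      exact Subgroup.mul_mem _ hP u3
    · simpa using ⟨w, hb⟩
  have h2 : z = z * u * u⁻¹ := by group
  rw [h2]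
  exact Subgroup.mul_mem _ h1 (Subgroup.inv_mem _ u2)

end Vale.Agent.P011.D4W

end

section

open NumberField IsDedekindDomain Topology Filter

namespace Vale.Agent.P011.D4W.H619

open Vale.Agent.P011.Arith Vale.Agent.P011.MPQ Vale.Agent.P011.D4 Vale.Agent.P011.D4.Oct
  Vale.Agent.P011.E6 Vale.Agent.P011.D4X Vale.Agent.P011.D4X.H691 Vale.Agent.P011.D4Y
  Vale.Agent.P011.D4W.H183

section step

variable {k L E : Type} [Field k] [NumberField k] [Field L] [NumberField L] [Field E]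
  [Algebra k L] [Algebra k E] [Algebra L E] [IsScalarTower k L E] [NeZero (2 : E)]
  {ρ σ ι : E ≃ₐ[k] E} {α : E} {a b c : kˣ} {q : Lˣ} (H : HyI ρ σ ι α a b c q)

include H

/-- **The elements which change the class at one bad prime.** -/
theorem exists_flip_m (h : Trip a c b (gi : Oct a b c) gl gj)
    (hle : ∀ {b' c' : kˣ} {j l : Oct a b c} (h : Trip a b' c' gi j l) {z : ATI ρ σ ι α a b c q},
      z ∈ stabI ρ σ ι α q h → kapI z ∈ PosC k L a → kapI z ∈ NV k a q →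
        z ∈ H.NA_m ⊔ stab0I ρ σ ι α a b c q) (v0 : HeightOneSpectrum (𝓞 k)) :
    ∃ u : ATI ρ σ ι α a b c q, u ∈ stabI ρ σ ι α q h ∧
      u ∈ H.NA_m ⊔ stab0I ρ σ ι α a b c q ∧ kapI u ∈ PosC k L a ∧
      ∀ v w, Bad a q v w → (kapI u ∈ NF (up L a) ⊔ LS (w.valuation L) ↔ v ≠ v0) := by
  classical
  have : NumberField E := H.numberField
  obtain ⟨e1, e2, h1, h2⟩ := exists_e12 H
  have hV : (VB k a q).Finite := VB_finite a q
  obtain ⟨x, y, s, w, hrel, hlim⟩ := exists_pars hV a b e1 e2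
    (fun p => if p = Sum.inl v0 then 0 else 1) (fun p => if p = Sum.inl v0 then 1 else 0)
    (fun p => if p = Sum.inl v0 then ((b : k) ^ 2)⁻¹ else 1)
    (fun p => if p = Sum.inl v0 then ⟨0, 0, 1, 0⟩ else 1) (by
      intro p _
      have hb := b.ne_zero
      by_cases hp : p = Sum.inl v0
      · simp only [if_pos hp, nrd, np]
        field_simp
        ring
      · simp only [if_neg hp, np]
        simp [nrd])
  obtain ⟨t, ht⟩ := exists_seqA (k := E) (TS_finite (ov_finite (E := E) hV))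
    (fun Q => if rsP k Q = Sum.inl v0 then
      ρ (algebraMap L E (q : L)) / (((up E b : Eˣ) : E) * ((up E c : Eˣ) : E)) else 1)
  -- the limit
  have hG : AO (SV E (VB k a q)) atTop (fun n => Gv (up E a) (up E b) (up E c) α
      (algebraMap L E (q : L)) (ρ (algebraMap L E (q : L))) (ρ (ρ (algebraMap L E (q : L))))
      (algebraMap k E (x n)) (algebraMap k E (y n)) (algebraMap k E (s n)) (t n) (qup E (w n)))
      (ep α * oup E (gl : Oct a b c)) := by
    have e0 : (ep α * oup E (gl : Oct a b c) : OctL E a b c) =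
        ⟨0, ⟨1 / 2, 1 / (2 * α), 0, 0⟩⟩ := by
      rw [oup_gl]
      exact ep_mul_gl α
    rw [e0]
    refine AO_glue fun Q hQ => ?_
    obtain ⟨l1, l2, l3, l4, l5, l6, l7⟩ := hlim _ (rsP_mem hQ)
    have l8 := ht Q hQ
    have l4' := AE_map l4
    have l5' := AE_map l5
    have l6' := AE_map l6
    have l7' := AE_map l7
    by_cases hp : rsP k Q = Sum.inl v0
    · simp only [if_pos hp] at l1 l2 l3 l4' l5' l6' l7' l8
      have l1' := AE_map l1
      have l2' := AE_map l2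
      have l3' := AE_map l3
      rw [map_zero] at l1'
      rw [map_one] at l2'
      rw [← Gv_flip (a := up E a) (b := up E b) (c := up E c) (NeZero.ne 2) H.α2 H.hq]
      refine AO_Gv α _ _ _ l1' l2' ?_ l8 ⟨?_, ?_, ?_, ?_⟩
      · have e1 : (((up E b : Eˣ) : E) ^ 2)⁻¹ = algebraMap k E ((b : k) ^ 2)⁻¹ := by
          rw [map_inv₀, map_pow]
          rfl
        rw [e1]
        exact l3'
      · rw [map_zero] at l4'
        exact l4'
      · rw [map_zero] at l5'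
        exact l5'
      · rw [map_one] at l6'
        exact l6'
      · rw [map_zero] at l7'
        exact l7'
    · simp only [if_neg hp] at l1 l2 l3 l4' l5' l6' l7' l8
      have l1' := AE_map l1
      have l2' := AE_map l2
      have l3' := AE_map l3
      rw [map_one] at l1'
      rw [map_zero] at l2'
      rw [map_one] at l3'
      rw [← Gv_one (a := up E a) (b := up E b) (c := up E c) (algebraMap L E (q : L))
        (ρ (algebraMap L E (q : L))) (ρ (ρ (algebraMap L E (q : L))))]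
      refine AO_Gv α _ _ _ l1' l2' l3' l8 ⟨?_, ?_, ?_, ?_⟩
      · rw [QuaternionAlgebra.re_one, map_one] at l4'
        exact l4'
      · rw [QuaternionAlgebra.imI_one, map_zero] at l5'
        exact l5'
      · rw [QuaternionAlgebra.imJ_one, map_zero] at l6'
        exact l6'
      · rw [QuaternionAlgebra.imK_one, map_zero] at l7'
        exact l7'
  -- the elements
  choose z1 m1 k1 g1 using fun n => exists_z1 (c := c) H h1 h2 (hrel n)
  have hz2 : ∀ n, ∃ z : ATI ρ σ ι α a b c q, np c e1 e2 (x n) (y n) ≠ 0 →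
      (∀ τ : k →+* ℝ, 0 < τ (np c e1 e2 (x n) (y n))) → z ∈ stabI ρ σ ι α q h ∧
      (∀ κ : Lˣ, nx c q (x n) (y n) * κ = 1 → kapI z = κ) ∧
      z.1 (ep α * oup E (gl : Oct a b c)) =
        V1 (up E a) (up E b) (up E c) α (algebraMap k E (x n)) (algebraMap k E (y n)) := by
    intro n
    by_cases hc : np c e1 e2 (x n) (y n) ≠ 0 ∧ ∀ τ : k →+* ℝ, 0 < τ (np c e1 e2 (x n) (y n))
    · obtain ⟨z, hz⟩ := exists_z2 H h h1 h2 hc.1 hc.2
      exact ⟨z, fun _ _ => hz⟩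
    · exact ⟨1, fun h3 h4 => absurd ⟨h3, h4⟩ hc⟩
  choose z2 hz2 using hz2
  -- the conditions
  have hinf : ∀ u : InfinitePlace k, AE {paAbv (Sum.inr u : PA k)} atTop x 1 ∧
      AE {paAbv (Sum.inr u : PA k)} atTop y 0 := by
    intro u
    obtain ⟨l1, l2, -⟩ := hlim (Sum.inr u) inr_mem_TS
    simp only [reduceCtorEq, if_false] at l1 l2
    exact ⟨l1, l2⟩
  have hnp : ∀ u : InfinitePlace k, AE {paAbv (Sum.inr u : PA k)} atTop
      (fun n => np c e1 e2 (x n) (y n)) 1 := by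
    intro u
    have h3 := AE_np c e1 e2 (hinf u).1 (hinf u).2
    have h4 : np c e1 e2 (1 : k) 0 = 1 := by simp [np]
    rwa [h4] at h3
  have a1 : ∀ᶠ n in atTop, np c e1 e2 (x n) (y n) ≠ 0 := by
    obtain ⟨u⟩ : Nonempty (InfinitePlace k) := inferInstance
    exact (hnp u).eventually_ne (Set.singleton_nonempty _) one_ne_zero
  have a2 : ∀ᶠ n in atTop, ∀ τ : k →+* ℝ, 0 < τ (np c e1 e2 (x n) (y n)) := by
    rw [eventually_all]
    exact fun τ => ev_pos τ (hnp _)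
  have a3 : ∀ b' : kˣ, ∀ᶠ n in atTop, ∀ φ : L →+* ℝ, 0 < φ (nx b' q (x n) (y n)) := by
    intro b'
    rw [eventually_all]
    intro φ
    refine ev_pos φ ?_
    have h3 := AE_nx (L := L)
      (Q := Sum.inr (InfinitePlace.mk (Complex.ofRealHom.comp φ))) b' q (hinf _).1 (hinf _).2
    rwa [nx_one] at h3
  have a4 : ∀ b' : kˣ, ∀ᶠ n in atTop, ∀ w' ∈ ov L (VB k a q), ∀ κ : Lˣ,
      (κ : L) = nx b' q (x n) (y n) → κ * (if rsP k (Sum.inl w' : PA L) = Sum.inl v0 then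
        q * up L (-b') else 1) ∈ LS (w'.valuation L) := by
    intro b'
    rw [eventually_all_finite (ov_finite hV)]
    intro w' hw'
    obtain ⟨l1, l2, -⟩ := hlim _ (rsP_mem (inl_mem_TS.2 hw'))
    by_cases hp : rsP k (Sum.inl w' : PA L) = Sum.inl v0
    · simp only [if_pos hp] at l1 l2 ⊢
      have h3 := AE_nx (L := L) b' q l1 l2
      rw [nx_flip] at h3
      exact ev_LS h3
    · simp only [if_neg hp] at l1 l2 ⊢
      have h3 := AE_nx (L := L) b' q l1 l2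
      rw [nx_one, ← Units.val_one] at h3
      exact ev_LS h3
  have a5 := mem_of_near_m H hle (g := fun n => z1 n * z2 n) (t := t)
    (AO_congr' hG (by
      filter_upwards [a1, a2] with n b1 b2
      obtain ⟨-, -, b3⟩ := hz2 n b1 b2
      change _ = t n • (z1 n).1 ((z2 n).1 _)
      rw [b3, g1]))
  obtain ⟨n, b1, b2, b3, b3', b4, b4', b5⟩ :=
    (a1.and (a2.and ((a3 b).and ((a3 c).and ((a4 b).and ((a4 c).and a5)))))).exists
  obtain ⟨m2, k2, -⟩ := hz2 n b1 b2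
  -- the multipliers
  have n1 : nx b q (x n) (y n) ≠ 0 := by
    intro h0
    have h3 := np_eq H h1 h2 b (x n) (y n)
    rw [h0, map_zero, zero_mul, zero_mul, map_eq_zero] at h3
    have h4 := hrel n
    rw [h3, zero_mul, mul_zero] at h4
    exact zero_ne_one h4
  have n2 : nx c q (x n) (y n) ≠ 0 := by
    intro h0
    have h3 := np_eq H h1 h2 c (x n) (y n)
    rw [h0, map_zero, zero_mul, zero_mul, map_eq_zero] at h3
    exact b1 h3
  obtain ⟨ν1, hν1⟩ : ∃ ν : Lˣ, (ν : L) = nx b q (x n) (y n) := ⟨Units.mk0 _ n1, rfl⟩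
  obtain ⟨ν2, hν2⟩ : ∃ ν : Lˣ, (ν : L) = nx c q (x n) (y n) := ⟨Units.mk0 _ n2, rfl⟩
  have hκ1 : kapI (z1 n) = ν1⁻¹ := kapI_eq (k1 n _ (by rw [← hν1, Units.mul_inv]))
  have hκ2 : kapI (z2 n) = ν2⁻¹ := k2 _ (by rw [← hν2, Units.mul_inv])
  have p1 : kapI (z1 n) ∈ PosC k L a := by
    rw [hκ1]
    exact Subgroup.inv_mem _ (pos_PosC fun φ _ => by rw [hν1]; exact b3 φ)
  have p2 : kapI (z2 n) ∈ PosC k L a := by
    rw [hκ2]
    exact Subgroup.inv_mem _ (pos_PosC fun φ _ => by rw [hν2]; exact b3' φ)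
  have hov : ∀ {v w}, Bad a q v w → w ∈ ov L (VB k a q) ∧
      rsP k (Sum.inl w : PA L) = Sum.inl v := fun {v w} hb =>
    ⟨⟨v, ⟨w, hb⟩, hb.1⟩, rsP_inl hb.1⟩
  have hinj : ∀ {v : HeightOneSpectrum (𝓞 k)}, (Sum.inl v : PA k) = Sum.inl v0 ↔ v = v0 :=
    Sum.inl_injective.eq_iff
  have c1 : ∀ v w, Bad a q v w → v = v0 → ν1 * (q * up L (-b)) ∈ LS (w.valuation L) ∧
      ν2 * (q * up L (-c)) ∈ LS (w.valuation L) := by
    intro v w' hb hv
    obtain ⟨o1, o2⟩ := hov hb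
    have h3 := b4 w' o1 ν1 hν1
    have h4 := b4' w' o1 ν2 hν2
    rw [o2, if_pos (hinj.2 hv)] at h3 h4
    exact ⟨h3, h4⟩
  have c2 : ∀ v w, Bad a q v w → v ≠ v0 → ν1 ∈ LS (w.valuation L) ∧
      ν2 ∈ LS (w.valuation L) := by
    intro v w' hb hv
    obtain ⟨o1, o2⟩ := hov hb
    have h3 := b4 w' o1 ν1 hν1
    have h4 := b4' w' o1 ν2 hν2
    rw [o2, if_neg fun h5 => hv (hinj.1 h5), mul_one] at h3 h4
    exact ⟨h3, h4⟩
  have hP0 : kapI (z1 n * z2 n) ∈ P0 k a q := by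
    refine ⟨?_, fun v w' hb => ?_⟩
    · rw [kapI_mul]
      exact Subgroup.mul_mem _ p1 p2
    · rw [kapI_mul, hκ1, hκ2, ← mul_inv]
      refine inv_mem ?_
      by_cases hv : v = v0
      · exact mem_flip2 hb (c1 v w' hb hv).1 (c1 v w' hb hv).2
      · exact Subgroup.mem_sup_right (mul_mem (c2 v w' hb hv).1 (c2 v w' hb hv).2)
  refine ⟨z2 n, m2, ?_, p2, fun v w' hb => ?_⟩
  · have h3 : z2 n = (z1 n)⁻¹ * (z1 n * z2 n) := by group
    rw [h3]
    exact Subgroup.mul_mem _ (Subgroup.inv_mem _ (Subgroup.mem_sup_right (m1 n))) (b5 hP0)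
  · rw [hκ2, Subgroup.inv_mem_iff]
    constructor
    · rintro h3 rfl
      exact not_mem_flip hb (c1 v w' hb rfl).2 h3
    · intro hv
      exact Subgroup.mem_sup_right (c2 v w' hb hv).2

/-- **The congruence of the centraliser of the frame `(i, l, j)`.** -/
theorem le_swap_m (h : Trip a c b (gi : Oct a b c) gl gj)
    (hle : ∀ {b' c' : kˣ} {j l : Oct a b c} (h : Trip a b' c' gi j l) {z : ATI ρ σ ι α a b c q},
      z ∈ stabI ρ σ ι α q h → kapI z ∈ PosC k L a → kapI z ∈ NV k a q →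
        z ∈ H.NA_m ⊔ stab0I ρ σ ι α a b c q)
    {z : ATI ρ σ ι α a b c q} (hz : z ∈ stabI ρ σ ι α q h) (hP : kapI z ∈ PosC k L a) :
    z ∈ H.NA_m ⊔ stab0I ρ σ ι α a b c q :=
  flip_end_m H h (fun h1 h2 h3 => hle h h1 h2 h3) (fun v0 _ => exists_flip_m H h hle v0) hz hP

end step

end Vale.Agent.P011.D4W.H619

end

section

open NumberField

namespace Vale.Agent.P011.D4W.H619

/-- **Step T.** -/
theorem leSwap_m {k L : Type} [Field k] [NumberField k] [Field L] [NumberField L] [Algebra k L]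
    (hS : H7.ShortAll_m k L) : H7.LeSwap_m k L := by
  intro E _ _ _ _ _ ρ σ ι α a b c q H hX z hz hP
  exact le_swap_m H H7.trip_swap (fun h _ h1 h2 h3 => H7.stabV_le'_m hS H hX h h1 h2 h3) hz hP

end Vale.Agent.P011.D4W.H619

end

section

open NumberField IsDedekindDomain

namespace Vale.Agent.P011.D4W.H359

open Vale.Agent.P011.Arith Vale.Agent.P011.MPQ Vale.Agent.P011.D4 Vale.Agent.P011.D4.Oct
  Vale.Agent.P011.E6 Vale.Agent.P011.D4X Vale.Agent.P011.D4Y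

section arith

variable {k L E : Type} [Field k] [NumberField k] [Field L] [NumberField L] [Field E]
  [Algebra k L] [Algebra k E] [Algebra L E] [IsScalarTower k L E] [NeZero (2 : E)]
  {ρ σ ι : E ≃ₐ[k] E} {α : E} {a b c : kˣ} {q : Lˣ}
  (H : HyI ρ σ ι α a b c q)

include H

/-- **The short subgroup** lies in the residual. -/
theorem short_mem_m {x : SL1 (up L a) (q * up L b)} {g : OctL E a b c ≃ₗ[E] OctL E a b c}
    (hg : ∀ y : OctL E a b c, g y = shortFun ρ (psiL α q ((x : (Qt (up L a) (q * up L b))ˣ) :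
      Qt (up L a) (q * up L b))) y) : g ∈ RsI_m ρ σ ι α a b c q := by
  classical
  choose S hS1 hS2 using exists_shortI (c := c) H
  have hmul : ∀ x y, S (x * y) = S x * S y := by
    intro x y
    apply LinearEquiv.ext
    intro z
    rw [LinearEquiv.mul_apply, hS2, hS2, hS2, ← Em.shortFun_mul, ← H.psiL_mul]
    rfl
  let s : SL1 (up L a) (q * up L b) →* GTI ρ σ ι α a b c q :=
    MonoidHom.mk' (fun x => ⟨S x, hS1 x⟩) fun x y => Subtype.ext (hmul x y)
  have hgS : g = S x := by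
    apply LinearEquiv.ext
    intro y
    rw [hg, hS2]
  rw [hgS, mem_RsI_m]
  refine ⟨hS1 x, ?_⟩
  rw [mem_fres_m]
  intro N hN
  suffices h : N.comap s = ⊤ by
    have : x ∈ N.comap s := by rw [h]; exact Subgroup.mem_top x
    exact this
  have hn := hN.2.1.comap s
  have hi := NM.short_I H hN s hS2
  refine top_of_pairs (k := k) (a := a)
    (R := {w | Ram (up L a) q w ∨ Ram (up L a) (q * up L b) w}) H.h3 H.aniso1
    (fun w hw => hw.elim ram_not_LS ram_not_LS) hn hi ?_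
  intro v D0 hD0 hD0R θ
  obtain ⟨D, hD1, hD2, hD3⟩ := H183.good_near H v D0 hD0 (fun w h1 h2 => hD0R w h2 h1) θ
  refine ⟨D, hD1, hD2.2.2.2.1, ?_⟩
  intro t r p p' hDt hp hpp hp' hpp' y hy
  obtain ⟨w0, hw0, hww0⟩ := hD2.2.1
  have n0 : nrd ((1 / 2 : k) • (t • (1 : Qt a b) + w0)) = (r : k) := by
    rw [nrd_half hw0 hww0, hDt]
    ring
  have n1 : nrd ((1 / 2 : L) • (algebraMap k L t • (1 : Qt (up L a) (q * up L b)) + p')) =
      algebraMap k L (r : k) := by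
    rw [nrd_half hp' hpp', hDt, map_sub, map_mul, map_pow, map_ofNat]
    ring
  obtain ⟨g2, hg2⟩ := exists_mid (c := c) H r _ _ n0 n1
  have h2 : g2 ∈ RsI_m ρ σ ι α a b c q :=
    D4Y.H63.mid_mem_m H r t D w0 p' hDt hD2 hD3 hw0 hww0 hp' hpp' g2 hg2
  have h1 : S y * g2 ∈ RsI_m ρ σ ι α a b c q := by
    refine D4Y.H63.mid_mem_m H r t D w0 p hDt hD2 hD3 hw0 hww0 hp hpp _ fun z => ?_
    rw [LinearEquiv.mul_apply, hg2, map_smul, hS2, ← zFI_mul H _ y.2, hy]
  have h3 := mul_mem h1 (inv_mem h2)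
  rw [mul_inv_cancel_right] at h3
  obtain ⟨h6, h7⟩ := mem_RsI_m.1 h3
  exact mem_fres_m.1 h7 _ hN

end arith

end Vale.Agent.P011.D4W.H359

end

section

open Module NumberField

namespace Vale.Agent.P011.D4W.H7

open Vale.Agent.P011.MPQ Vale.Agent.P011.D4

/-- The short elements. -/
theorem shortAll_m (k L : Type) [Field k] [NumberField k] [Field L] [NumberField L] [Algebra k L] :
    ShortAll_m k L :=
  fun _ _ _ _ _ _ _ _ _ _ _ _ _ _ H _ _ hg => H359.short_mem_m H hg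

end Vale.Agent.P011.D4W.H7

end

section

open Module

namespace Vale.Agent.P011.D4T

open Vale.Agent.P011.MPQ Vale.Agent.P011.D4

/-- The group `G` has no proper subgroup of finite index. -/
def NoIndex_m {V : Type} (G : Subgroup (Equiv.Perm V)) : Prop :=
  ∀ N : Subgroup G, NM.Big N → N = ⊤

variable {k E : Type} [Field k] [Field E] [Algebra k E]

end Vale.Agent.P011.D4T

end

section

open Module NumberField

namespace Vale.Agent.P011.D4H

open Vale.Agent.P011.MPQ Vale.Agent.P011.D4 Vale.Agent.P011.D4T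

open scoped ComplexConjugate

/-- Every subgroup of finite index of `G` contains the elements of `G` which are close to the
identity at the embeddings `w` with the property `S`. -/
def OpenAt_m {F : Type} [Field F] {a b c : Fˣ} (S : (F →+* ℂ) → Prop)
    (G : Subgroup (Equiv.Perm (Oct a b c))) : Prop :=
  ∀ N : Subgroup G, NM.Big N → ∃ ε : ℝ, 0 < ε ∧
    ∀ h : G, (∀ w, S w → ∀ x, onm w (h.1 x - x) ≤ ε * onm w x) → h ∈ N

variable {k E : Type} [Field k] [Field E] [Algebra k E]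

/-- If `S` is empty there is no proper subgroup of finite index. -/
theorem OpenAt_m.noIndex_m {F : Type} [Field F] {a b c : Fˣ} {S : (F →+* ℂ) → Prop}
    {G : Subgroup (Equiv.Perm (Oct a b c))} (h : OpenAt_m S G) (hS : ∀ w, ¬ S w) : NoIndex_m G := by
  intro N hN
  obtain ⟨ε, -, h1⟩ := h N hN
  rw [eq_top_iff]
  intro x _
  exact h1 x fun w hw => absurd hw (hS w)

end Vale.Agent.P011.D4H

end

section

open Module NumberField

namespace Vale.Agent.P011.D4H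

open Vale.Agent.P011.MPQ Vale.Agent.P011.D4 Vale.Agent.P011.D4.Oct Vale.Agent.P011.D4T

open scoped ComplexConjugate

section hom

variable {k L E : Type} [Field k] [Field L] [Field E] [Algebra k L] [Algebra k E] [Algebra L E]
  [IsScalarTower k L E] {ρ σ : E ≃ₐ[k] E} {α : E} {a b c : kˣ} {q : Lˣ}

/-- The statement for the permutations from the statement for the linear maps. -/
theorem openAt_tt_m {S : (E →+* ℂ) → Prop}
    (h : ∀ N : Subgroup (GT ρ σ α a b c q), NM.Big N → ∃ ε : ℝ, 0 < ε ∧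
      ∀ x : GT ρ σ α a b c q, (∀ w, S w → ∀ y, onm w (x.1 y - y) ≤ ε * onm w y) → x ∈ N) :
    OpenAt_m S (TT ρ σ α (algebraMap L E (q : L)) a b c) := by
  intro N hN
  obtain ⟨ε, h0, h1⟩ := h (N.comap (toTT (ρ := ρ) (σ := σ) (α := α) (a := a) (b := b) (c := c)
    (q := q))) (hN.comap_surj _ toTT_surjective)
  refine ⟨ε, h0, fun x hx => ?_⟩
  obtain ⟨y, rfl⟩ := toTT_surjective x
  exact h1 y hx

end hom

end Vale.Agent.P011.D4H

end

section

open Module NumberField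

namespace Vale.Agent.P011.D4H

open Vale.Agent.P011.MPQ Vale.Agent.P011.D4 Vale.Agent.P011.D4.Oct Vale.Agent.P011.D4T
  Vale.Agent.P011.D4I

section hom

variable {k L E : Type} [Field k] [Field L] [Field E] [Algebra k L] [Algebra k E] [Algebra L E]
  [IsScalarTower k L E] {ρ σ ι : E ≃ₐ[k] E} {α : E} {a b c : kˣ} {q : Lˣ}

/-- The statement for the permutations from the statement for the linear maps. -/
theorem openAt_ti_m {S : (E →+* ℂ) → Prop}
    (h : ∀ N : Subgroup (GTI ρ σ ι α a b c q), NM.Big N → ∃ ε : ℝ, 0 < ε ∧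
      ∀ x : GTI ρ σ ι α a b c q, (∀ w, S w → ∀ y, onm w (x.1 y - y) ≤ ε * onm w y) → x ∈ N) :
    OpenAt_m S (TI ρ σ ι α (algebraMap L E (q : L)) a b c) := by
  intro N hN
  obtain ⟨ε, h0, h1⟩ := h (N.comap (toTI (ρ := ρ) (σ := σ) (ι := ι) (α := α) (a := a) (b := b)
    (c := c) (q := q))) (hN.comap_surj _ toTI_surjective)
  refine ⟨ε, h0, fun x hx => ?_⟩
  obtain ⟨y, rfl⟩ := toTI_surjective x
  exact h1 y hx

end hom

end Vale.Agent.P011.D4H

end

section

open Module NumberField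

namespace Vale.Agent.P011.D4H

open Vale.Agent.P011.MPQ Vale.Agent.P011.D4 Vale.Agent.P011.D4.Oct Vale.Agent.P011.D4T

variable {k L E : Type} [Field k] [Field L] [Field E] [Algebra k L] [Algebra k E] [Algebra L E]
  [IsScalarTower k L E] {ρ σ ι : E ≃ₐ[k] E} {α : E} {a b c : kˣ} {q : Lˣ}

/-- The statement for the permutations from the statement for the linear maps. -/
theorem openAt_ty_m {S : (E →+* ℂ) → Prop}
    (h : ∀ N : Subgroup (D4Y.GTI ρ σ ι α a b c q), NM.Big N → ∃ ε : ℝ, 0 < ε ∧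
      ∀ x : D4Y.GTI ρ σ ι α a b c q,
        (∀ w, S w → ∀ y, onm w (x.1 y - y) ≤ ε * onm w y) → x ∈ N) :
    OpenAt_m S (D4I.TI ρ σ ι α (algebraMap L E (q : L)) a b c) :=
  openAt_ti_m h

/-- A subgroup of finite index contains the residual. -/
theorem mem_of_RsI_m {N : Subgroup (D4Y.GTI ρ σ ι α a b c q)} (hN : NM.Big N)
    {x : D4Y.GTI ρ σ ι α a b c q} (hx : x.1 ∈ D4Y.RsI_m ρ σ ι α a b c q) : x ∈ N := by
  obtain ⟨y, hy, hyx⟩ := hx
  have h2 : y = x := Subtype.ext hyx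
  rw [← h2]
  exact (iInf_le (fun N : {N : Subgroup (D4Y.GTI ρ σ ι α a b c q) // NM.Big N} => N.1)
    ⟨N, hN⟩) hy

/-- From the residual to the final statement. -/
theorem openAt_of_RsI_m {S : (E →+* ℂ) → Prop}
    (h : ∃ ε : ℝ, 0 < ε ∧ ∀ g ∈ D4Y.GTI ρ σ ι α a b c q,
      (∀ w, S w → ∀ y, D4X.on w (g y - y) ≤ ε * D4X.on w y) → g ∈ D4Y.RsI_m ρ σ ι α a b c q) :
    OpenAt_m S (D4I.TI ρ σ ι α (algebraMap L E (q : L)) a b c) := by
  obtain ⟨ε, h0, h1⟩ := h
  refine openAt_ty_m fun N hN => ⟨ε, h0, fun x hx => mem_of_RsI_m hN (h1 x.1 x.2 fun w hw y => ?_)⟩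
  rw [on_eq, on_eq]
  exact hx w hw y

end Vale.Agent.P011.D4H

end

section

set_option linter.unusedSimpArgs false

open Topology

namespace Vale.Agent.P011.D4Z

open Vale.Agent.P011.MPQ Vale.Agent.P011.D4 Vale.Agent.P011.D4.Oct Vale.Agent.P011.D4X

open Vale.Agent.P011.E6

open scoped ComplexConjugate

namespace H553

section final

variable {k L E : Type} [Field k] [Field L] [Field E] [Algebra k L] [Algebra k E] [Algebra L E]
  [IsScalarTower k L E] [NeZero (2 : E)] {ρ σ : E ≃ₐ[k] E} {ρL : L ≃ₐ[k] L} {α : E}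
  {a b c : kˣ} {q : Lˣ} (H : Hy ρ σ ρL α a b c q)

include H

/-- The block moves are products of two reflections (the limits are hypotheses). -/
theorem blk_mem_of_m [Algebra k ℂ] (W : E →ₐ[k] ℂ) (hW : (W : E →+* ℂ) ∈ Bd ρ σ q)
    (hzx : ∀ (W' W'' : E →ₐ[k] ℂ), (W' : E →+* ℂ) ∈ Bd ρ σ q → (W'' : E →+* ℂ) ∈ Bd ρ σ q →
      W' = cmp W ρ → W'' = cmp W' ρ → ∀ {b' c' : kˣ} {j l : Oct a b c}
      (h : Trip a b' c' gi j l) {X1 X2 X3 : Qt (up ℂ a) (up ℂ b')}, nrd X1 = 1 → nrd X2 = 1 →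
      nrd X3 = 1 → RQ a b' (W α) (W (algebraMap L E q)) X1 →
      RQ a b' (W α) (W' (algebraMap L E q)) X2 → RQ a b' (W α) (W'' (algebraMap L E q)) X3 →
      ∃ X ∈ cl (Bd ρ σ q) (Rs_m ρ σ α a b c q),
        (∀ y : OctL ℂ a b' c', act (X ⟨W, hW⟩) (tripO ℂ h y) =
          tripO ℂ h ⟨X1 * y.fst * star X3, y.snd * star X2⟩) ∧
        ∀ V : Bd ρ σ q, V.1.comp (algebraMap k E) ≠ algebraMap k ℂ → X V = 1)
    (hz0 : ∀ {b' c' : kˣ} {j l : Oct a b c} (h : Trip a b' c' gi j l)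
      {X0 : Qt (up ℂ a) (up ℂ b')}, nrd X0 = 1 → cjq X0 = X0 →
      ∃ X ∈ cl (Bd ρ σ q) (Rs_m ρ σ α a b c q),
        (∀ y : OctL ℂ a b' c', act (X ⟨W, hW⟩) (tripO ℂ h y) =
          tripO ℂ h ⟨y.fst, X0 * y.snd⟩) ∧
        ∀ V : Bd ρ σ q, V.1.comp (algebraMap k E) ≠ algebraMap k ℂ → X V = 1)
    (hq' : 0 < (W (ρ (algebraMap L E q))).re)
    {e e' : OctL ℂ a b c} (he : e ∈ VR W ρ α q) (he' : e' ∈ VR W ρ α q) (hB : Blk e e')
    (hN : Oct.norm e' = Oct.norm e) (h0 : Oct.norm e ≠ 0) :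
    ∃ X ∈ cl (Bd ρ σ q) (Rs_m ρ σ α a b c q),
      (∀ y : OctL ℂ a b c, act (X ⟨W, hW⟩) y = refl e' (refl e y)) ∧
      ∀ V : Bd ρ σ q, V.1.comp (algebraMap k E) ≠ algebraMap k ℂ → X V = 1 := by
  have hσ : ∀ x, W (σ x) = conj (W x) := hW.1
  have hk : ∀ t : k, conj (algebraMap k ℂ t) = algebraMap k ℂ t := fun t => by
    rw [← W.commutes, ← hσ, σ.commutes]
  have hal : W α * W α = ((up ℂ a : ℂˣ) : ℂ) := by
    rw [← map_mul, H.α2, W.commutes]
    rfl
  have hc : conj (W α) = -W α := by rw [← hσ, H.σα, map_neg]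
  have c0 : conj (W (algebraMap L E q)) = W (algebraMap L E q) := by rw [← hσ, H.σL]
  have c1 : conj (W (ρ (algebraMap L E q))) = W (ρ (algebraMap L E q)) := by
    rw [H.ρL', ← hσ, H.σL]
  have c2 : conj (W (ρ (ρ (algebraMap L E q)))) = W (ρ (ρ (algebraMap L E q))) := by
    rw [H.ρL', H.ρL', ← hσ, H.σL]
  have hr : W (algebraMap L E q) * W (ρ (algebraMap L E q)) *
      W (ρ (ρ (algebraMap L E q))) = 1 := by
    rw [H.ρL', H.ρL', ← map_mul, ← map_mul, ← map_mul, ← map_mul, H.hq, map_one, map_one]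
  have hs : ((Real.sqrt (W (algebraMap L E q * (algebraMap L E q *
      ρ (algebraMap L E q)))).re : ℝ) : ℂ) ^ 2 =
        W (algebraMap L E q) ^ 2 * W (ρ (algebraMap L E q)) := by
    have e0 : W (algebraMap L E q) = ((W (algebraMap L E q)).re : ℂ) :=
      (Complex.conj_eq_iff_re.1 c0).symm
    have e1 : W (ρ (algebraMap L E q)) = ((W (ρ (algebraMap L E q))).re : ℂ) :=
      (Complex.conj_eq_iff_re.1 c1).symm
    obtain ⟨x, hx⟩ : ∃ x, x = (W (algebraMap L E q)).re := ⟨_, rfl⟩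
    obtain ⟨y, hy⟩ : ∃ y, y = (W (ρ (algebraMap L E q))).re := ⟨_, rfl⟩
    rw [← hx] at e0
    rw [← hy] at e1 hq'
    rw [map_mul, map_mul, e0, e1, ← Complex.ofReal_mul, ← Complex.ofReal_mul, Complex.ofReal_re,
      ← Complex.ofReal_pow, Real.sq_sqrt (by nlinarith [mul_nonneg (sq_nonneg x) hq'.le])]
    push_cast
    ring
  have hP : Mv (a := a) (b := b) (c := c) (W α) (W (algebraMap L E q))
      (W (ρ (algebraMap L E q))) (W (ρ (ρ (algebraMap L E q))))
      (fun f => ∃ X ∈ cl (Bd ρ σ q) (Rs_m ρ σ α a b c q),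
        (∀ y : OctL ℂ a b c, act (X ⟨W, hW⟩) y = f y) ∧
        ∀ V : Bd ρ σ q, V.1.comp (algebraMap k E) ≠ algebraMap k ℂ → X V = 1) := by
    refine ⟨?_, ?_, ?_⟩
    · intro b' c' j l h X1 X2 X3 n1 n2 n3 q1 q2 q3 f hf
      obtain ⟨X, hX, hX1, hX4⟩ := hzx (cmp W ρ) (cmp (cmp W ρ) ρ) (Bd_rho H _ hW)
        (Bd_rho H _ (Bd_rho H _ hW)) rfl rfl h n1 n2 n3 q1 q2 q3
      refine ⟨X, hX, fun y => ?_, hX4⟩
      obtain ⟨y, rfl⟩ := (tripO ℂ h).surjective y
      rw [hX1, hf]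
    · intro b' c' j l h X0 n0 q0 f hf
      obtain ⟨X, hX, hX1, hX4⟩ := hz0 h n0 q0
      refine ⟨X, hX, fun y => ?_, hX4⟩
      obtain ⟨y, rfl⟩ := (tripO ℂ h).surjective y
      rw [hX1, hf]
    · rintro f g ⟨X, hX, hX1, hX2⟩ ⟨Y, hY, hY1, hY2⟩
      refine ⟨X * Y, mul_mem_cl hX hY, fun y => ?_, fun V hV => ?_⟩
      · rw [Pi.mul_apply, act_mul, hY1, hX1]
      · rw [Pi.mul_apply, hX2 V hV, hY2 V hV, mul_one]
  exact blk_core hk hal hc hr c0 c1 c2 hs hP he he' hB hN h0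

end final

end H553

end Vale.Agent.P011.D4Z

end

section

open NumberField

namespace Vale.Agent.P011.D4X

open Vale.Agent.P011.MPQ Vale.Agent.P011.D4 Vale.Agent.P011.D4.Oct Vale.Agent.P011.E6

variable {k L E : Type} [Field k] [NumberField k] [Field L] [NumberField L] [Field E]
  [Algebra k L] [Algebra k E] [Algebra L E] [IsScalarTower k L E] [NeZero (2 : E)]
  {ρ σ : E ≃ₐ[k] E} {ρL : L ≃ₐ[k] L} {α : E} {a b c : kˣ} {q : Lˣ}
  (H : Hy ρ σ ρL α a b c q)

include H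

/-- F1b': the tori of the other good types. -/
theorem torD_mem'_m {x : SL1 (up L a) (q * up L b)} {D : k} {w : Qt (up L a) (q * up L b)}
    (hD : GoodD a b q D) (hD1 : ¬ IsSquare D) (hD2 : ¬ IsSquare ((a : k) * D)) (hw0 : w.re = 0)
    (hw : w * w = algebraMap k L D • 1) {s t : L}
    (hx : ((x : (Qt (up L a) (q * up L b))ˣ) : Qt (up L a) (q * up L b)) = s • 1 + t • w)
    {g : OctL E a b c ≃ₗ[E] OctL E a b c}
    (hg : ∀ y : OctL E a b c, g y = shortFun ρ (psiL α q ((x : (Qt (up L a) (q * up L b))ˣ) :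
      Qt (up L a) (q * up L b))) y) : g ∈ Rs_m ρ σ α a b c q := by
  obtain ⟨v, hv0, hv⟩ := hD.2.1
  obtain ⟨E1, O, _, _, _, _, _, _, _, _, _, _, _, _, _, _, _, _, ρ1, σ1, α1, ρ', σ', τ', a1, b1,
    c1, q1, u, φ, X⟩ := exists_kcx H hD.1 hD.2.2.2.2 (Mx.not_sq H hD1 hD2) hv0 hv hw0 hw
  obtain ⟨g0, hg0, hg0'⟩ := exists_short H x
  have hgg : g = g0 := LinearEquiv.ext fun y => by rw [hg, hg0']
  rw [hgg]
  have hn : nrd ((x : (Qt (up L a) (q * up L b))ˣ) : Qt (up L a) (q * up L b)) = 1 := x.2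
  have hφ : ∀ z, kap (φ z) = kap z := fun z => kap_eq ((X.kp z _).1 (isKap_kap z))
  refine tran_Rs_m φ hφ (z := ⟨g0, GT_le_AT hg0⟩) ?_
  have hz : ∀ y, (⟨g0, GT_le_AT hg0⟩ : AT ρ σ α a b c q).1 y = algebraMap L E (1 : L) •
      zF ρ ρL α q ((1 : k) • 1 + (0 : k) • v) (s • 1 + t • w) 1 y := by
    intro y
    change g0 y = _
    rw [← hx, Mx.zF_short hn, hg0']
  have h1 := X.zf _ 1 s t 1 0 1 hz
  obtain ⟨x1, hx1⟩ : ∃ x1 : Qt (up L a1) (q1 * up L b1), x1 = s • 1 + t • ⟨0, 1, 0, 0⟩ :=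
    ⟨_, rfl⟩
  have hn1 : nrd x1 = 1 := by
    have e : algebraMap k L D = ((up L a1 : Lˣ) : L) := by
      rw [← X.ha1]
      rfl
    rw [hx1, KCx.nrd_i, ← hn, hx, KCx.nrd_tor hw0 hw, e]
  have e1 : x1 * star x1 = 1 := by rw [mul_star_self', hn1, one_smul]
  have e2 : star x1 * x1 = 1 := by rw [star_mul_self', hn1, one_smul]
  refine tor_mem_m X.H1 (x := ⟨⟨x1, star x1, e1, e2⟩, hn1⟩) ?_ ?_ fun y => ?_
  · change x1.imJ = 0
    rw [hx1]
    change s * 0 + t * 0 = 0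
    ring
  · change x1.imK = 0
    rw [hx1]
    change s * 0 + t * 0 = 0
    ring
  · change _ = shortFun ρ1 (psiL α1 q1 x1) y
    rw [h1, ← hx1, Mx.zF_short hn1]

/-- **F1c.** -/
theorem short_mem_m {x : SL1 (up L a) (q * up L b)} {g : OctL E a b c ≃ₗ[E] OctL E a b c}
    (hg : ∀ y : OctL E a b c, g y = shortFun ρ (psiL α q ((x : (Qt (up L a) (q * up L b))ˣ) :
      Qt (up L a) (q * up L b))) y) : g ∈ Rs_m ρ σ α a b c q :=
  short_mem_of_m H (exists_short H) (psiL_mul H)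
    (fun hD h1 h2 hw0 hw _ _ hx _ hg => torD_mem'_m H hD h1 h2 hw0 hw hx hg) hg

/-- The middle element. -/
theorem mid_mem_m (s : kˣ) (u : k) (D : kˣ) (w : Qt a b) (p : Qt (up L a) (q * up L b))
    (hDu : (D : k) = u ^ 2 - 4 * s) (hD : GoodD a b q (D : k))
    (hsg : ∀ τ : k →+* ℝ, τ D < 0 ↔ τ a < 0) (hD2 : ∀ r : k, (D : k) ≠ a * r ^ 2)
    (hD1 : ¬ IsSquare (D : k)) (hw0 : w.re = 0)
    (hw : w * w = (D : k) • 1) (hp0 : p.re = 0) (hp : p * p = algebraMap k L (D : k) • 1)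
    (g : OctL E a b c ≃ₗ[E] OctL E a b c) (hg : ∀ y, g y = (algebraMap k E (s : k))⁻¹ •
      zF ρ ρL α q ((1 / 2 : k) • (u • 1 + w)) ((1 / 2 : L) • (algebraMap k L u • 1 + p))
        (s ^ 2) y) : g ∈ Rs_m ρ σ α a b c q := by
  have hD2' : ¬ IsSquare ((a : k) * (D : k)) := by
    rintro ⟨r, hr⟩
    apply hD2 (r / a)
    have ha : (a : k) ≠ 0 := a.ne_zero
    field_simp
    linear_combination hr
  obtain ⟨E1, O, _, _, _, _, _, _, _, _, _, _, _, _, _, _, _, _, ρ1, σ1, α1, ρ', σ', τ', a1, b1,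
    c1, q1, u1, φ, X⟩ := exists_kcx H hD.1 hD.2.2.2.2 (Mx.not_sq H hD1 hD2') hw0 hw hp0 hp
  have hs0 : (s : k) ≠ 0 := s.ne_zero
  have hsL : algebraMap k L (s : k) ≠ 0 := (map_ne_zero _).2 hs0
  have hDL : algebraMap k L (D : k) = algebraMap k L u ^ 2 - 4 * algebraMap k L (s : k) := by
    rw [hDu, map_sub, map_pow, map_mul, map_ofNat]
  have n0 : nrd ((1 / 2 : k) • (u • 1 + w)) = (s : k) := nrd_half hw0 hw hDu
  have n1 : nrd ((1 / 2 : L) • (algebraMap k L u • 1 + p)) = algebraMap k L (s : k) :=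
    nrd_half hp0 hp hDL
  obtain ⟨z0, -, hz0κ, hz0⟩ := exists_z (c := c) H ((1 / 2 : k) • (u • 1 + w))
    ((1 / 2 : L) • (algebraMap k L u • 1 + p)) (s ^ 2) (by
      rw [n0, n1, ρL.commutes, ρL.commutes, Units.val_pow_eq_pow_val, map_pow, map_pow]
      ring)
  set l : Lˣ := up L s⁻¹ with hl
  have hlv : (l : L) = (algebraMap k L (s : k))⁻¹ := by
    change algebraMap k L ((s⁻¹ : kˣ) : k) = _
    rw [Units.val_inv_eq_inv_val, map_inv₀]
  have hlE : algebraMap L E (l : L) = (algebraMap k E (s : k))⁻¹ := by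
    rw [hlv, map_inv₀, ← IsScalarTower.algebraMap_apply]
  have hφ : ∀ z, kap (φ z) = kap z := fun z => kap_eq ((X.kp z _).1 (isKap_kap z))
  have hgz : g = (H.scal l * z0 : AT ρ σ α a b c q).1 := by
    apply LinearEquiv.ext
    intro y
    rw [hg]
    change _ = (H.scal l).1 (z0.1 y)
    rw [H.scal_apply, hz0, hlE]
  -- the multiplier
  have hk0 : kap z0 = (up L s)⁻¹ := by
    apply kap_eq
    apply hz0κ
    rw [n1, ρL.commutes]
    change algebraMap k L (s : k) * (((up L s)⁻¹ : Lˣ) : L) = 1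
    rw [Units.val_inv_eq_inv_val]
    exact mul_inv_cancel₀ hsL
  have hk1 : kap (H.scal l) = up L s := by
    have h1 := kap_scal H l
    rw [hlv, map_inv₀, map_inv₀, ρL.commutes, ρL.commutes] at h1
    apply Units.ext
    change (kap (H.scal l) : L) = algebraMap k L (s : k)
    field_simp at h1
    linear_combination -h1
  have hk : kap (H.scal l * z0 : AT ρ σ α a b c q) = 1 := by
    rw [kap_mul, hk0, hk1, mul_inv_cancel]
  rw [hgz]
  refine tran_Rs_m φ hφ ?_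
  -- the formula in the new model
  have hz : ∀ y, (H.scal l * z0 : AT ρ σ α a b c q).1 y = algebraMap L E (l : L) •
      zF ρ ρL α q ((1 / 2 * u : k) • 1 + (1 / 2 : k) • w)
        ((1 / 2 * algebraMap k L u : L) • 1 + (1 / 2 : L) • p) (s ^ 2) y := by
    intro y
    have e1 : (1 / 2 : k) • (u • 1 + w) = (1 / 2 * u : k) • 1 + (1 / 2 : k) • w := by
      rw [smul_add, smul_smul]
    have e2 : (1 / 2 : L) • (algebraMap k L u • 1 + p) =
        (1 / 2 * algebraMap k L u : L) • 1 + (1 / 2 : L) • p := by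
      rw [smul_add, smul_smul]
    rw [← e1, ← e2, ← hz0, ← H.scal_apply]
    rfl
  have h1 := X.zf _ _ _ _ _ _ _ hz
  refine H369.autI_mem_m X.H1 (mem_GT_of_kap_one (by rw [hφ, hk])) ?_
  rw [h1, KCx.zF_eq]
  -- the quaternion
  obtain ⟨Y, hY⟩ : ∃ Y : Qt (up E1 a1) (up E1 b1), Y = psiL α1 q1
    ((1 / 2 * algebraMap k L u : L) • 1 + (1 / 2 : L) • ⟨0, 1, 0, 0⟩) := ⟨_, rfl⟩
  rw [← hY]
  have hYn : nrd Y = algebraMap k E1 (s : k) := by
    have e : ((up L a1 : Lˣ) : L) = algebraMap k L (u ^ 2 - 4 * s) := by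
      rw [← hDu, ← X.ha1]
      rfl
    rw [hY, nrd_psiL X.H1, KCx.nrd_i, e, IsScalarTower.algebraMap_apply k L E1]
    congr 1
    rw [map_sub, map_pow, map_mul, map_ofNat]
    ring
  have hYe : Y = (1 / 2 * algebraMap k E1 u : E1) • 1 + (1 / 2 : E1) • ⟨0, 1, 0, 0⟩ := by
    rw [hY, KCx.psiL_add, KCx.psiL_smul, KCx.psiL_smul, KCx.psiL_one, KCx.psiL_i, map_mul,
      map_div₀, map_one, map_ofNat, ← IsScalarTower.algebraMap_apply]
  have hY1 : Y = ⟨1 / 2 * algebraMap k E1 u, 1 / 2, 0, 0⟩ := by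
    rw [hYe]
    apply QuaternionAlgebra.ext
    · change 1 / 2 * algebraMap k E1 u * 1 + 1 / 2 * 0 = 1 / 2 * algebraMap k E1 u
      ring
    · change 1 / 2 * algebraMap k E1 u * 0 + 1 / 2 * 1 = (1 / 2 : E1)
      ring
    · change 1 / 2 * algebraMap k E1 u * 0 + 1 / 2 * 0 = (0 : E1)
      ring
    · change 1 / 2 * algebraMap k E1 u * 0 + 1 / 2 * 0 = (0 : E1)
      ring
  have hYρ : qmap ρ1 Y = Y := by
    rw [hY1]
    apply QuaternionAlgebra.ext
    · change ρ1 (1 / 2 * algebraMap k E1 u) = 1 / 2 * algebraMap k E1 u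
      rw [map_mul, map_div₀, map_one, map_ofNat, ρ1.commutes]
    · change ρ1 (1 / 2) = 1 / 2
      rw [map_div₀, map_one, map_ofNat]
    · exact map_zero _
    · exact map_zero _
  have hcomm : Y * (⟨1 / 2, 1 / (2 * α1), 0, 0⟩ : Qt (up E1 a1) (up E1 b1)) =
      ⟨1 / 2, 1 / (2 * α1), 0, 0⟩ * Y := by
    rw [hY1]
    exact Mx.comm_diag _ _ _ _
  have hlE1 : algebraMap L E1 (l : L) * nrd Y = 1 := by
    rw [hYn, hlv, map_inv₀, ← IsScalarTower.algebraMap_apply]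
    exact inv_mul_cancel₀ ((map_ne_zero _).2 hs0)
  apply Oct.ext
  · rw [fst_smul, fst_zFun, hYρ, hYρ]
    change algebraMap L E1 (l : L) • (Y * ⟨1 / 2, 1 / (2 * α1), 0, 0⟩ * star Y) =
      ⟨1 / 2, 1 / (2 * α1), 0, 0⟩
    rw [hcomm, mul_assoc, mul_star_self', mul_smul_comm, mul_one, smul_smul, hlE1, one_smul]
  · rw [snd_smul, snd_zFun]
    change _ • (_ • (_ * (0 : Qt (up E1 a1) (up E1 b1)) * _)) = 0
    rw [mul_zero, zero_mul, smul_zero, smul_zero]

/-- **F1d**: the elements with `nrd x₀ = nrd x ∈ k*` (normalised by `κ = 1`). -/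
theorem mix_mem_m {x0 : Qt a b} {x : Qt (up L a) (q * up L b)} {s : kˣ} (h0 : nrd x0 = s)
    (h1 : nrd x = algebraMap k L (s : k)) {g : OctL E a b c ≃ₗ[E] OctL E a b c}
    (hg : ∀ y : OctL E a b c, g y =
      (algebraMap k E (s : k))⁻¹ • zF ρ ρL α q x0 x (s ^ 2) y) : g ∈ Rs_m ρ σ α a b c q :=
  mix_mem_of_m H (fun _ _ hg => short_mem_m H hg)
    (fun s u D w p hDu hD hsg hD2 hw0 hw hp0 hp g hg =>
      mid_mem_m H s u D w p hDu hD hsg hD2 (Mx.not_sq_good H hD) hw0 hw hp0 hp g hg) h0 h1 hg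

end Vale.Agent.P011.D4X

end

section

open NumberField Topology

namespace Vale.Agent.P011.D4X

open Vale.Agent.P011.MPQ Vale.Agent.P011.D4 Vale.Agent.P011.D4.Oct Vale.Agent.P011.E6

section std

variable {k L E : Type} [Field k] [NumberField k] [Field L] [NumberField L] [Field E]
  [Algebra k L] [Algebra k E] [Algebra L E]
  [IsScalarTower k L E] [NeZero (2 : E)] {ρ σ : E ≃ₐ[k] E} {ρL : L ≃ₐ[k] L} {α : E}
  {a b c : kˣ} {q : Lˣ} (H : Hy ρ σ ρL α a b c q)

include H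

theorem stab0_N_m {z : AT ρ σ α a b c q} (hz : z ∈ stab0 ρ σ α a b c q) (hcl : kap z ∈ SqL k L) :
    IsN_m ρ σ α a b c q z := by
  obtain ⟨x0, x, s, l, h1, h2⟩ := cent H hz
  obtain ⟨z1, -, hz1, hz2⟩ := exists_z H x0 x s h1
  have hν0 : nrd x ≠ 0 := by
    intro h0
    rw [h0, zero_mul, zero_mul, mul_zero] at h1
    exact pow_ne_zero 2 s.ne_zero ((map_eq_zero_iff _ (algebraMap k L).injective).1 h1.symm)
  have hν1 : ρL (nrd x) ≠ 0 := (map_ne_zero_iff ρL ρL.injective).2 hν0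
  have e1 : z = H.scal l * z1 := by
    apply Subtype.ext
    apply LinearEquiv.ext
    intro y
    rw [h2, ← hz2, ← H.scal_apply]
    rfl
  have e2 : kap z1 = (Units.mk0 (ρL (nrd x)) hν1)⁻¹ := by
    apply kap_eq
    apply hz1
    rw [Units.val_inv_eq_inv_val]
    exact mul_inv_cancel₀ hν1
  -- the class of the reduced norm
  have e3 : Units.mk0 (ρL (nrd x)) hν1 ∈ SqL k L := by
    rw [e1, kap_mul, e2] at hcl
    have h3 := (SqL k L).mul_mem ((SqL k L).inv_mem hcl) (scal_mem_SqL H l)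
    have e4 : (kap (H.scal l) * (Units.mk0 (ρL (nrd x)) hν1)⁻¹)⁻¹ * kap (H.scal l) =
        Units.mk0 (ρL (nrd x)) hν1 := by
      rw [mul_inv, inv_inv, mul_comm (kap (H.scal l))⁻¹, mul_assoc, inv_mul_cancel, mul_one]
    rwa [e4] at h3
  obtain ⟨t, m1, h3⟩ := mem_SqL.1 e3
  obtain ⟨m, hm⟩ : ∃ m : Lˣ, (m : L) = ρL (ρL (m1 : L)) := ⟨Units.mk0 (ρL (ρL (m1 : L)))
    ((map_ne_zero_iff ρL ρL.injective).2 ((map_ne_zero_iff ρL ρL.injective).2 m1.ne_zero)), rfl⟩
  have h4 : nrd x = algebraMap k L (t : k) * (m : L) ^ 2 := by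
    have h5 : ρL (nrd x) = algebraMap k L (t : k) * (m1 : L) ^ 2 := by
      have := congrArg (fun u : Lˣ => (u : L)) h3
      exact this
    have h6 := congrArg (fun u => ρL (ρL u)) h5
    change ρL (ρL (ρL (nrd x))) = _ at h6
    rw [H.ρL3] at h6
    rw [h6, hm]
    simp only [map_mul, map_pow, AlgEquiv.commutes]
  obtain ⟨n, hn⟩ := H.exists_norm m
  obtain ⟨x', hx'⟩ : ∃ x' : Qt (up L a) (q * up L b), x' = (m : L)⁻¹ • x := ⟨_, rfl⟩
  have hm0 : (m : L) ≠ 0 := m.ne_zero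
  have hxx : x = (m : L) • x' := by
    rw [hx', smul_smul, mul_inv_cancel₀ hm0, one_smul]
  have hnx' : nrd x' = algebraMap k L (t : k) := by
    rw [hx', nrd_smulQ, h4]
    field_simp
  obtain ⟨s', hs'⟩ : ∃ s' : kˣ, s = n * s' := ⟨n⁻¹ * s, by rw [mul_inv_cancel_left]⟩
  have hs : algebraMap k L (s : k) = m * ρL m * ρL (ρL m) * algebraMap k L (s' : k) := by
    rw [hs', Units.val_mul, map_mul, hn]
  -- the norm of the first component
  have hn0 : algebraMap k L (n : k) ≠ 0 :=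
    (map_ne_zero_iff _ (algebraMap k L).injective).2 n.ne_zero
  have h7 : nrd x0 * (t : k) ^ 3 = (s' : k) ^ 2 := by
    apply (algebraMap k L).injective
    have h8 : algebraMap k L (nrd x0) * (algebraMap k L (t : k) ^ 3 * algebraMap k L (n : k) ^ 2) =
        (algebraMap k L (n : k) * algebraMap k L (s' : k)) ^ 2 := by
      rw [← map_mul (algebraMap k L) (n : k) (s' : k), ← Units.val_mul, ← hs',
        ← map_pow (algebraMap k L) (s : k) 2, ← h1, h4]
      simp only [map_mul, map_pow, AlgEquiv.commutes]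
      rw [hn]
      ring
    rw [map_mul, map_pow, map_pow]
    have h9 : algebraMap k L (n : k) ^ 2 ≠ 0 := pow_ne_zero 2 hn0
    apply mul_right_cancel₀ h9
    linear_combination h8
  have ht0 : (t : k) ≠ 0 := t.ne_zero
  have hs0 : (s' : k) ≠ 0 := s'.ne_zero
  have h10 : nrd (((t : k) ^ 2 / (s' : k)) • x0) = (t : k) := by
    rw [nrd_smulQ]
    field_simp
    linear_combination h7
  -- the scalar and the element of `GT`
  obtain ⟨r, hr⟩ : ∃ r : Lˣ, (r : L) = l * (m * ρL (ρL m)) * algebraMap k L (t : k) :=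
    ⟨Units.mk0 _ (mul_ne_zero (mul_ne_zero l.ne_zero (mul_ne_zero hm0
      ((map_ne_zero_iff ρL ρL.injective).2 ((map_ne_zero_iff ρL ρL.injective).2 hm0))))
      ((map_ne_zero_iff _ (algebraMap k L).injective).2 ht0)), rfl⟩
  have hg : ∀ y, ((H.scal r)⁻¹ * z : AT ρ σ α a b c q).1 y = (algebraMap k E (t : k))⁻¹ •
      zF ρ ρL α q (((t : k) ^ 2 / (s' : k)) • x0) x' (t ^ 2) y := by
    intro y
    have h11 : z.1 y = algebraMap L E (r : L) • ((algebraMap k E (t : k))⁻¹ •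
        zF ρ ρL α q (((t : k) ^ 2 / (s' : k)) • x0) x' (t ^ 2) y) := by
      have hE : algebraMap k E (t : k) = algebraMap L E (algebraMap k L (t : k)) :=
        IsScalarTower.algebraMap_apply k L E _
      have hE0 : algebraMap L E (algebraMap k L (t : k)) ≠ 0 :=
        (map_ne_zero_iff _ (algebraMap L E).injective).2
          ((map_ne_zero_iff _ (algebraMap k L).injective).2 ht0)
      rw [h2, hxx, zF_scal H hnx' hs, smul_smul, smul_smul, hr, hE]
      congr 1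
      simp only [map_mul]
      field_simp
    apply (H.scal r).1.injective
    rw [H.scal_apply, H.scal_apply, ← h11, ← H.scal_apply]
    change (H.scal r * ((H.scal r)⁻¹ * z) : AT ρ σ α a b c q).1 y = z.1 y
    rw [mul_inv_cancel_left]
  refine ⟨r, _, mix_mem_m H (s := t) h10 hnx' hg, fun y => ?_⟩
  rw [← H.scal_apply]
  change z.1 y = (H.scal r * ((H.scal r)⁻¹ * z) : AT ρ σ α a b c q).1 y
  rw [mul_inv_cancel_left]

theorem stab_N_m {b' c' : kˣ} {j l : Oct a b c} (h : Trip a b' c' gi j l) {z : AT ρ σ α a b c q}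
    (hz : z ∈ stab ρ σ α q h) {κ : Lˣ} (hκ : IsKap ρ z.1 κ) (hcl : κ ∈ SqL k L) :
    IsN_m ρ σ α a b c q z := by
  obtain ⟨z', hz', rfl⟩ := H691.exists_of_mem_stab h hz
  refine H691.cjA_isN_m h (stab0_N_m (H691.hyTrip H h) hz' ?_)
  rw [← H691.kap_cjA h, kap_eq hκ]
  exact hcl

end std

end Vale.Agent.P011.D4X

end

section

open NumberField Topology

namespace Vale.Agent.P011.D4Z.H370

open Vale.Agent.P011.MPQ Vale.Agent.P011.D4 Vale.Agent.P011.D4.Oct Vale.Agent.P011.D4X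

open Vale.Agent.P011.E6

variable {k L E : Type} [Field k] [NumberField k] [Field L] [NumberField L] [Field E]
  [Algebra k L] [Algebra k E] [Algebra L E]
  [IsScalarTower k L E] [NeZero (2 : E)] {ρ σ : E ≃ₐ[k] E} {ρL : L ≃ₐ[k] L} {α : E}
  {a b c : kˣ} {q : Lˣ}

/-- **The elements `z(x₀, x; 1)`** of any triple lie in the residual. -/
theorem moves_mem_m (H : Hy ρ σ ρL α a b c q) {b' c' : kˣ} {j l : Oct a b c}
    (h : Trip a b' c' gi j l) {x0 : Qt a b'} {x : Qt (up L a) (q * up L b')}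
    (h0 : nrd x0 = 1) (h1 : nrd x = 1) :
    ∃ g ∈ Rs_m ρ σ α a b c q, ∀ y : OctL E a b' c', g (tripO E h y) =
      tripO E h ⟨psiL α q x * y.fst * star (qmap ρ (qmap ρ (psiL α q x))),
        qup E x0 * y.snd * star (qmap ρ (psiL α q x))⟩ := by
  have h2 : NeZero (2 : k) := ⟨two_ne_zero⟩
  obtain ⟨z, hz, hk, hzy⟩ := exists_z (H691.hyTrip H h) x0 x 1 (by
    rw [h0, h1]
    simp)
  have hk1 : kap z = 1 := kap_eq (hk 1 (by rw [h1]; simp))
  have hkap : kap (H691.cjA ρ σ α q h z) = 1 := by rw [H691.kap_cjA, hk1]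
  have hst : H691.cjA ρ σ α q h z ∈ stab ρ σ α q h := (H691.cjA_mem_stab h).2 hz
  have hN : IsN_m ρ σ α a b c q (H691.cjA ρ σ α q h z) := by
    refine stab_N_m H h hst (κ := 1) ?_ (Subgroup.one_mem _)
    rw [← hkap]
    exact isKap_kap _
  refine ⟨(H691.cjA ρ σ α q h z).1, mem_of_isN_m H _ (mem_GT_of_kap_one hkap) hN, fun y => ?_⟩
  have h3 : (H691.cjA ρ σ α q h z).1 (tripO E h y) = tripO E h (z.1 y) := by
    change cjE (tripO E h) z.1 (tripO E h y) = _
    exact cjE_apply _ _ _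
  rw [h3, hzy]
  congr 1
  simp only [zF, h1, map_one, mul_one, Units.val_one, div_one, one_smul]

/-- The short elements. -/
theorem move_x_m (H : Hy ρ σ ρL α a b c q) {b' c' : kˣ} {j l : Oct a b c}
    (h : Trip a b' c' gi j l) {x : Qt (up L a) (q * up L b')} (h1 : nrd x = 1) :
    ∃ g ∈ Rs_m ρ σ α a b c q, ∀ y : OctL E a b' c', g (tripO E h y) =
      tripO E h ⟨psiL α q x * y.fst * star (qmap ρ (qmap ρ (psiL α q x))),
        y.snd * star (qmap ρ (psiL α q x))⟩ := by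
  obtain ⟨g, hg, h2⟩ := moves_mem_m H h (x0 := 1) nrd_one h1
  refine ⟨g, hg, fun y => ?_⟩
  rw [h2, qup_one, one_mul]

/-- The long elements. -/
theorem move_0_m (H : Hy ρ σ ρL α a b c q) {b' c' : kˣ} {j l : Oct a b c}
    (h : Trip a b' c' gi j l) {x0 : Qt a b'} (h0 : nrd x0 = 1) :
    ∃ g ∈ Rs_m ρ σ α a b c q, ∀ y : OctL E a b' c', g (tripO E h y) =
      tripO E h ⟨y.fst, qup E x0 * y.snd⟩ := by
  obtain ⟨g, hg, h2⟩ := moves_mem_m H h (x := 1) h0 nrd_one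
  have e : (psiL α q (1 : Qt (up L a) (q * up L b')) : Qt (up E a) (up E b')) = 1 := by
    apply QuaternionAlgebra.ext <;> simp [psiL]
  refine ⟨g, hg, fun y => ?_⟩
  rw [h2, e, qmap_one, qmap_one, star_one, mul_one, one_mul, mul_one]

end Vale.Agent.P011.D4Z.H370

end

section

open Topology NumberField Filter

namespace Vale.Agent.P011.D4Z

open Vale.Agent.P011.MPQ Vale.Agent.P011.D4 Vale.Agent.P011.D4.Oct Vale.Agent.P011.D4X

open Vale.Agent.P011.E6

variable {k L E : Type} [Field k] [NumberField k] [Field L] [NumberField L] [Field E]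
  [Algebra k L] [Algebra k E] [Algebra L E]
  [IsScalarTower k L E] [NeZero (2 : E)] {ρ σ : E ≃ₐ[k] E} {ρL : L ≃ₐ[k] L} {α : E}
  {a b c : kˣ} {q : Lˣ} (H : Hy ρ σ ρL α a b c q)

include H

/-- T3b (x₀ part). -/
theorem zlim_0_m [Algebra k ℂ] (W : E →ₐ[k] ℂ) (hW : (W : E →+* ℂ) ∈ Bd ρ σ q)
    {b' c' : kˣ} {j l : Oct a b c} (h : Trip a b' c' gi j l) [NeZero (2 : ℂ)]
    {X0 : Qt (up ℂ a) (up ℂ b')} (n0 : nrd X0 = 1) (r0 : cjq X0 = X0) :
    ∃ X ∈ cl (Bd ρ σ q) (Rs_m ρ σ α a b c q),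
      (∀ y : OctL ℂ a b' c', act (X ⟨W, hW⟩) (tripO ℂ h y) = tripO ℂ h ⟨y.fst, X0 * y.snd⟩) ∧
      ∀ V : Bd ρ σ q, V.1.comp (algebraMap k E) ≠ algebraMap k ℂ → X V = 1 :=
  H319.zlim_0_of W hW h (fun _ h0 => H370.move_0_m H h h0) n0 r0

end Vale.Agent.P011.D4Z

end

section

open NumberField Topology Filter

namespace Vale.Agent.P011.D4Z.H408

open Vale.Agent.P011.MPQ Vale.Agent.P011.D4 Vale.Agent.P011.D4.Oct Vale.Agent.P011.D4X

open Vale.Agent.P011.E6 (tripO tripO_apply)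

open Vale.Agent.P011.D4X.H637 (qn)

open scoped ComplexConjugate

section main

variable {k L E : Type} [Field k] [NumberField k] [Field L] [NumberField L] [Field E]
  [NumberField E] [Algebra k L] [Algebra k E] [Algebra L E]
  [IsScalarTower k L E] [NeZero (2 : E)] {ρ σ : E ≃ₐ[k] E} {ρL : L ≃ₐ[k] L} {α : E}
  {a b c : kˣ} {q : Lˣ}

/-- **The limits of the moves**, from the membership. -/
theorem zlim_x_of_m (H : Hy ρ σ ρL α a b c q) [Algebra k ℂ] (W W' W'' : E →ₐ[k] ℂ)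
    (hW : (W : E →+* ℂ) ∈ Bd ρ σ q)
    (hW' : (W' : E →+* ℂ) ∈ Bd ρ σ q) (hW'' : (W'' : E →+* ℂ) ∈ Bd ρ σ q)
    (h' : W' = cmp W ρ) (h'' : W'' = cmp W' ρ)
    {b' c' : kˣ} {j l : Oct a b c} (h : Trip a b' c' gi j l) [NeZero (2 : ℂ)]
    (hmem : ∀ x : Qt (up L a) (q * up L b'), nrd x = 1 → ∃ z ∈ Rs_m ρ σ α a b c q,
      ∀ y : OctL E a b' c', z (tripO E h y) = tripO E h (zFun ρ (psiL α q x) 1 1 y))
    {X1 X2 X3 : Qt (up ℂ a) (up ℂ b')} (n1 : nrd X1 = 1) (n2 : nrd X2 = 1) (n3 : nrd X3 = 1)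
    (r1 : RQ a b' (W α) (W (algebraMap L E q)) X1)
    (r2 : RQ a b' (W α) (W' (algebraMap L E q)) X2)
    (r3 : RQ a b' (W α) (W'' (algebraMap L E q)) X3) :
    ∃ X ∈ cl (Bd ρ σ q) (Rs_m ρ σ α a b c q),
      (∀ y : OctL ℂ a b' c', act (X ⟨W, hW⟩) (tripO ℂ h y) =
        tripO ℂ h ⟨X1 * y.fst * star X3, y.snd * star X2⟩) ∧
      (∀ y : OctL ℂ a b' c', act (X ⟨W', hW'⟩) (tripO ℂ h y) =
        tripO ℂ h ⟨X2 * y.fst * star X1, y.snd * star X3⟩) ∧
      (∀ y : OctL ℂ a b' c', act (X ⟨W'', hW''⟩) (tripO ℂ h y) =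
        tripO ℂ h ⟨X3 * y.fst * star X2, y.snd * star X1⟩) ∧
      ∀ V : Bd ρ σ q, V.1.comp (algebraMap k E) ≠ algebraMap k ℂ → X V = 1 := by
  classical
  have ha0 : α ≠ 0 := by
    intro h0
    have h1 := H.α2
    rw [h0, zero_mul] at h1
    exact a.ne_zero ((map_eq_zero _).1 h1.symm)
  have hα0 : W α ≠ 0 := (map_ne_zero W).2 ha0
  have hα : conj (W α) = -W α := by
    have h1 := hW.1 α
    rw [H.σα] at h1
    change W (-α) = conj (W α) at h1
    rw [← h1, map_neg]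
  have h2 : W α * W α = algebraMap k ℂ a := by
    rw [← map_mul, H.α2]
    exact W.commutes _
  have hq0 : algebraMap L E (q : L) ≠ 0 := (map_ne_zero _).2 q.ne_zero
  have a' : W' α = W α := by
    rw [h']
    exact congrArg W H.ρα
  have a'' : W'' α = W α := by
    rw [h'']
    exact (congrArg W' H.ρα).trans a'
  obtain ⟨v1, rfl⟩ := exists_real hα hα0 ((map_ne_zero W).2 hq0) h2 r1
  obtain ⟨v2, rfl⟩ := exists_real hα hα0 ((map_ne_zero W').2 hq0) h2 r2
  obtain ⟨v3, rfl⟩ := exists_real hα hα0 ((map_ne_zero W'').2 hq0) h2 r3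
  have hre : ∀ V ∈ Bd ρ σ q, ∃ τ : L →+* ℝ, ∀ y, (τ y : ℂ) = V (algebraMap L E y) :=
    fun V hV => exists_rl (V := V.comp (algebraMap L E)) fun y => Bd_im hV (H.σL y)
  obtain ⟨w1, hw1⟩ := hre _ hW
  obtain ⟨w2, hw2⟩ := hre _ hW'
  obtain ⟨w3, hw3⟩ := hre _ hW''
  have s2 : ∀ y, w2 y = w1 (ρL y) := by
    intro y
    have h1 : ((w2 y : ℝ) : ℂ) = ((w1 (ρL y) : ℝ) : ℂ) := by
      rw [hw2, hw1, h', ← H.ρL']
      rfl
    exact_mod_cast h1
  have s3 : ∀ y, w3 y = w2 (ρL y) := by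
    intro y
    have h1 : ((w3 y : ℝ) : ℂ) = ((w2 (ρL y) : ℝ) : ℂ) := by
      rw [hw3, hw2, h'', ← H.ρL']
      rfl
    exact_mod_cast h1
  have ρL3 : ∀ y, ρL (ρL (ρL y)) = y := fun y => (algebraMap L E).injective (by
    rw [← H.ρL', ← H.ρL', ← H.ρL', H.ρ3])
  have inj : ∀ τ : L →+* ℝ, (∀ y, τ y = τ (ρL y)) → False := by
    intro τ h1
    apply H.ρ1
    ext y
    exact (τ.injective (h1 y)).symm
  have d12 : w1 ≠ w2 := fun h1 => inj w1 fun y => by rw [← s2, ← h1]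
  have d23 : w2 ≠ w3 := fun h1 => inj w2 fun y => by rw [← s3, ← h1]
  have d13 : w1 ≠ w3 := fun h1 => inj w1 fun y => by
    have h3 : w1 (ρL y) = w3 (ρL y) := by rw [← h1]
    rw [h3, s3, s2, ρL3]
  have c3 : cmp W'' ρ = W := by
    rw [h'', h']
    exact AlgHom.ext fun y => congrArg W (H.ρ3 y)
  set tgt : (L →+* ℝ) → Fin 4 → ℝ := fun τ => if τ = w1 then v1 else if τ = w2 then v2 else
    if τ = w3 then v3 else ![1, 0, 0, 0] with htgt
  have t1 : tgt w1 = v1 := if_pos rfl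
  have t2 : tgt w2 = v2 := by simp [htgt, d12.symm]
  have t3 : tgt w3 = v3 := by simp [htgt, d13.symm, d23.symm]
  have t0 : ∀ τ, τ ≠ w1 → τ ≠ w2 → τ ≠ w3 → tgt τ = ![1, 0, 0, 0] := by
    intro τ g1 g2 g3
    simp only [htgt]
    rw [if_neg g1, if_neg g2, if_neg g3]
  have n2' := n2
  have n3' := n3
  rw [← a'] at n2'
  rw [← a''] at n3'
  have hn : ∀ τ, tgt τ 0 ^ 2 - τ ((up L a : Lˣ) : L) * tgt τ 1 ^ 2 -
      τ ((q * up L b' : Lˣ) : L) * tgt τ 2 ^ 2 +
      τ ((up L a : Lˣ) : L) * τ ((q * up L b' : Lˣ) : L) * tgt τ 3 ^ 2 = 1 := by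
    intro τ
    by_cases g1 : τ = w1
    · rw [g1, t1]
      exact tgt_norm hw1 hα0 h2 n1
    by_cases g2 : τ = w2
    · rw [g2, t2]
      exact tgt_norm hw2 (by rw [a']; exact hα0) (by rw [a']; exact h2) n2'
    by_cases g3 : τ = w3
    · rw [g3, t3]
      exact tgt_norm hw3 (by rw [a'']; exact hα0) (by rw [a'']; exact h2) n3'
    rw [t0 τ g1 g2 g3]
    simp
  obtain ⟨x, hx, hx'⟩ := exists_seq (A := up L a) (B := q * up L b') tgt hn
  choose z hz hz' using fun n => hmem (x n) (hx n)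
  have lim1 := lim_mat (P0 := 1) h (V := W) hz' hx' TQ_evq_one hw1
    (fun y => by rw [← h']; exact hw2 y) (fun y => by rw [← h', ← h'']; exact hw3 y)
  have lim2 := lim_mat (P0 := 1) h (V := W') hz' hx' TQ_evq_one hw2
    (fun y => by rw [← h'']; exact hw3 y) (fun y => by rw [← h'', c3]; exact hw1 y)
  have lim3 := lim_mat (P0 := 1) h (V := W'') hz' hx' TQ_evq_one hw3
    (fun y => by rw [c3]; exact hw1 y) (fun y => by rw [c3, ← h']; exact hw2 y)
  rw [← h', ← h'', t1, t2, t3, a', a''] at lim1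
  rw [← h'', c3, t1, t2, t3, a', a''] at lim2
  rw [c3, ← h', t1, t2, t3, a', a''] at lim3
  have limV : ∀ V : Bd ρ σ q, ∃ M : Matrix (Fin 8) (Fin 8) ℂ,
      Tendsto (fun n => matW V.1 (z n)) atTop (𝓝 M) ∧
        (V.1.comp (algebraMap k E) ≠ algebraMap k ℂ → M = 1) := by
    rintro ⟨V, hV⟩
    by_cases g : V.comp (algebraMap k E) = algebraMap k ℂ
    · let U : E →ₐ[k] ℂ := { V with commutes' := fun t => RingHom.congr_fun g t }
      have b1 := Bd_rho H _ hV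
      have b2 := Bd_rho H _ b1
      obtain ⟨τ1, h1⟩ := hre _ hV
      obtain ⟨τ2, h2⟩ := hre _ b1
      obtain ⟨τ3, h3⟩ := hre _ b2
      exact ⟨_, lim_mat (P0 := 1) h (V := U) hz' hx' TQ_evq_one h1 h2 h3, fun g' => absurd g g'⟩
    · refine ⟨1, lim_off H h hV hz' hx' fun τ hτ => t0 τ ?_ ?_ ?_, fun _ => rfl⟩
      · rintro rfl
        apply g
        ext t
        change V (algebraMap k E t) = _
        rw [← hτ, hw1, ← IsScalarTower.algebraMap_apply k L E]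
        exact W.commutes t
      · rintro rfl
        apply g
        ext t
        change V (algebraMap k E t) = _
        rw [← hτ, hw2, ← IsScalarTower.algebraMap_apply k L E]
        exact W'.commutes t
      · rintro rfl
        apply g
        ext t
        change V (algebraMap k E t) = _
        rw [← hτ, hw3, ← IsScalarTower.algebraMap_apply k L E]
        exact W''.commutes t
  choose M hM hM' using limV
  refine ⟨M, ?_, fun y => ?_, fun y => ?_, fun y => ?_, hM'⟩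
  · refine mem_closure_of_tendsto (f := fun n => mat (Bd ρ σ q) (z n)) (b := atTop) ?_
      (Eventually.of_forall fun n => ⟨z n, hz n, rfl⟩)
    exact tendsto_pi_nhds.2 fun V => hM V
  · rw [tendsto_nhds_unique (hM ⟨W, hW⟩) lim1, act_mC, zC_apply, one_mul]
  · rw [tendsto_nhds_unique (hM ⟨W', hW'⟩) lim2, act_mC, zC_apply, one_mul]
  · rw [tendsto_nhds_unique (hM ⟨W'', hW''⟩) lim3, act_mC, zC_apply, one_mul]

end main

end Vale.Agent.P011.D4Z.H408

end

section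

open NumberField Topology

namespace Vale.Agent.P011.D4Z

open Vale.Agent.P011.MPQ Vale.Agent.P011.D4 Vale.Agent.P011.D4.Oct Vale.Agent.P011.D4X

open Vale.Agent.P011.E6

open scoped ComplexConjugate

variable {k L E : Type} [Field k] [NumberField k] [Field L] [NumberField L] [Field E]
  [NumberField E] [Algebra k L] [Algebra k E] [Algebra L E]
  [IsScalarTower k L E] [NeZero (2 : E)] {ρ σ : E ≃ₐ[k] E} {ρL : L ≃ₐ[k] L} {α : E}
  {a b c : kˣ} {q : Lˣ}

/-- **The limits of the short moves**: three quaternions of norm one in the real forms at `W`,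
`W ρ`, `W ρ²`, for any trip. -/
theorem zlim_x_m (H : Hy ρ σ ρL α a b c q) [Algebra k ℂ] (W W' W'' : E →ₐ[k] ℂ)
    (hW : (W : E →+* ℂ) ∈ Bd ρ σ q)
    (hW' : (W' : E →+* ℂ) ∈ Bd ρ σ q) (hW'' : (W'' : E →+* ℂ) ∈ Bd ρ σ q)
    (h' : W' = cmp W ρ) (h'' : W'' = cmp W' ρ)
    {b' c' : kˣ} {j l : Oct a b c} (h : Trip a b' c' gi j l) [NeZero (2 : ℂ)]
    {X1 X2 X3 : Qt (up ℂ a) (up ℂ b')} (n1 : nrd X1 = 1) (n2 : nrd X2 = 1) (n3 : nrd X3 = 1)
    (r1 : RQ a b' (W α) (W (algebraMap L E q)) X1)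
    (r2 : RQ a b' (W α) (W' (algebraMap L E q)) X2)
    (r3 : RQ a b' (W α) (W'' (algebraMap L E q)) X3) :
    ∃ X ∈ cl (Bd ρ σ q) (Rs_m ρ σ α a b c q),
      (∀ y : OctL ℂ a b' c', act (X ⟨W, hW⟩) (tripO ℂ h y) =
        tripO ℂ h ⟨X1 * y.fst * star X3, y.snd * star X2⟩) ∧
      (∀ y : OctL ℂ a b' c', act (X ⟨W', hW'⟩) (tripO ℂ h y) =
        tripO ℂ h ⟨X2 * y.fst * star X1, y.snd * star X3⟩) ∧
      (∀ y : OctL ℂ a b' c', act (X ⟨W'', hW''⟩) (tripO ℂ h y) =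
        tripO ℂ h ⟨X3 * y.fst * star X2, y.snd * star X1⟩) ∧
      ∀ V : Bd ρ σ q, V.1.comp (algebraMap k E) ≠ algebraMap k ℂ → X V = 1 :=
  H408.zlim_x_of_m H W W' W'' hW hW' hW'' h' h'' h (fun x hx => by
    obtain ⟨z, hz, hy⟩ := H370.move_x_m H h hx
    refine ⟨z, hz, fun y => ?_⟩
    rw [hy]
    unfold zFun
    rw [one_mul, one_smul]) n1 n2 n3 r1 r2 r3

end Vale.Agent.P011.D4Z

end
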