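import Vale.Agent.P011NM.D4b
import Vale.Agent.P011.D4X.H547.Part
import Vale.Agent.P011.D4X.H691.FinX
import Vale.Agent.P011.D4X.H691.OpenX
import Vale.Agent.P011.D4X.H691.TopOf
import Vale.Agent.P011.D4X.H691.TopP
import Vale.Agent.P011.D4X.H691.Top
import Vale.Agent.P011.D4Z.H493.Clg
import Vale.Agent.P011.D4Z.H342.OneD
import Vale.Agent.P011.D4Z.H714.OuterI
import Vale.Agent.P011.D4W.H7.Fin
import Vale.Agent.P011.D4W.H7.End
import Vale.Agent.P011.D4W.H7.Main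
import Vale.Agent.P011.D4W.Fin
import Vale.Agent.P011.D4Z.H493.TopOf
import Vale.Agent.P011.D4Z.H862.Top
import Vale.Agent.P011.D4H.Hy
import Vale.Agent.P011.D4H.Fin
import Vale.Agent.P011.D4H.ZFin
import Vale.Agent.P011.H900.SpecX
import Vale.Agent.P011NM.Defs
import Vale.Agent.P011.H900.Brg1
import Vale.Agent.P011.H984.Full.BrgD
import Vale.Agent.P011.H984.Full.BrgI
import Vale.Agent.P011.H984.Full.BrgDFin

/-! The version for arbitrary normal subgroups. -/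

set_option linter.unusedSectionVars false

section

open NumberField Topology Filter

namespace Vale.Agent.P011.D4X

open Vale.Agent.P011.MPQ Vale.Agent.P011.D4 Vale.Agent.P011.D4.Oct Vale.Agent.P011.E6

variable {k L E : Type} [Field k] [NumberField k] [Field L] [NumberField L] [Field E]
  [Algebra k L] [Algebra k E] [Algebra L E]
  [IsScalarTower k L E] [NeZero (2 : E)] {ρ σ : E ≃ₐ[k] E} {ρL : L ≃ₐ[k] L} {α : E}
  {a b c : kˣ} {q : Lˣ}

/-- **The parts.** -/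
theorem part_m (H : Hy ρ σ ρL α a b c q)
    (hX : ∀ w : L →+* ℝ, w (algebraMap k L a) < 0 →
      w (algebraMap k L b) < 0 ∧ w (algebraMap k L c) < 0)
    {b' c' : kˣ} {j l : Oct a b c} (h : Trip a b' c' gi j l) {D : k}
    (hD : GoodD a b q D) (hD' : GoodD a b' q D) {x y : L} (κ : Lˣ)
    (hκ : (κ : L) = x ^ 2 - algebraMap k L D * y ^ 2) :
    ∃ w w' : AT ρ σ α a b c q, w ∈ stab0 ρ σ α a b c q ∧ w' ∈ stab ρ σ α q h ∧
      IsKap ρ w.1 κ ∧ IsKap ρ w'.1 κ ∧ IsN_m ρ σ α a b c q (w * w'⁻¹) := by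
  by_cases hns : ∀ r : k, D ≠ a * r ^ 2
  swap
  · push Not at hns
    obtain ⟨r, rfl⟩ := hns
    exact Part.triv_m H h κ hκ
  have := KCx.numE H
  obtain ⟨hD0, ⟨w0, hw0, hw0'⟩, -, ⟨w1, hw1, hw1'⟩, hsgn⟩ := hD
  obtain ⟨-, ⟨w2, hw2, hw2'⟩, -, -, -⟩ := hD'
  have hns' := Part.nsq H hD0 hw0 hw0' hns
  obtain ⟨E1, O, _, _, _, _, _, _, _, _, _, _, _, _, _, _, _, _, ρ1, σ1, α1, ρ', σ', τ', a1, b1,
    c1, q1, u, φ, X⟩ := exists_kcx H hD0 hsgn hns' hw0 hw0' hw1 hw1'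
  -- the singular elements near the standard one
  have h1 := near_gen (P := ⊤) X.H1 (fun _ _ => Subgroup.mem_top _)
  have h2 : ∀ᶠ v in nh {W : E1 →+* ℂ | W.comp (algebraMap k E1) ∈ Part.Sk k L a}
      (ep α1 * gl : OctL E1 a1 b1 c1), Pt ρ1 v → PPP ⊤ ρ1 σ1 α1 q1 v := by
    rw [oup_gl] at h1
    exact h1.filter_mono (Part.nh_mono (Part.Bd_sub X.H1 (by rw [X.ha1]; exact hsgn)) _)
  have hne : (Part.S k L a).Nonempty := by
    obtain ⟨w, hw, -⟩ := H.hcp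
    exact ⟨w.comp (algebraMap k L), hw, w, rfl⟩
  obtain ⟨ε, hε, h3⟩ := X.sing_near H hns' hw0 hw0' (Part.Sk_finite a)
    (by
      obtain ⟨τ, hτ⟩ := hne
      exact ⟨_, τ, hτ, rfl⟩) h2
  -- the triple near the standard one
  obtain ⟨f, c'', l'', h'', w'', hf, hw, hww, hnear⟩ := H370.exists_trip_near H.hdiv
    (Part.S k L a)
    (fun τ hτ => by
      obtain ⟨hτ, w, rfl⟩ := hτ
      exact ⟨hτ, hX w hτ⟩) hne h hw0 hw0' hns hw2 hw2' hε
  obtain ⟨v, hv1, hv2, hvt⟩ := h3 h'' hw hww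
    (by
      rintro τ ⟨τ', hτ', rfl⟩
      rw [H370.on_ofReal]
      exact (hnear τ' hτ').1.le)
    (by
      rintro τ ⟨τ', hτ', rfl⟩
      rw [H370.on_ofReal]
      exact (hnear τ' hτ').2.le)
  obtain ⟨y', hy', t, ht, hyt⟩ := hv1 hv2
  obtain ⟨b2, c2, j1, l1, h4, hy1⟩ := X.z5_y h'' hvt ht hyt
  -- the parts
  exact Part.move_m H h h'' (H370.extE_mem_Rs_m H hf) (H370.tQ_conj_mul hf h h'')
    (Part.core1_m X (fun h z hz hk => stab_N_m X.H1 h hz (κ := 1)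
        (by rw [← hk]; exact isKap_kap _) (Subgroup.one_mem _)) h'' (stabsP_le hy') hy1 κ hκ)

end Vale.Agent.P011.D4X

end

section

open NumberField Topology

namespace Vale.Agent.P011.D4X

open Vale.Agent.P011.MPQ Vale.Agent.P011.D4 Vale.Agent.P011.D4.Oct Vale.Agent.P011.E6

open Vale.Agent.P011.D4X.H691

section fin

variable {k L E : Type} [Field k] [NumberField k] [Field L] [NumberField L] [Field E]
  [Algebra k L] [Algebra k E] [Algebra L E]
  [IsScalarTower k L E] [NeZero (2 : E)] {ρ σ : E ≃ₐ[k] E} {ρL : L ≃ₐ[k] L} {α : E}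
  {a b c : kˣ} {q : Lˣ}

variable (H : Hy ρ σ ρL α a b c q)

include H

/-- The centralisers are congruent to the centraliser of the standard involution, for the elements
whose multiplier has constant signs. -/
theorem stabP_le_of_m {b' c' : kˣ} {j l : Oct a b c} (h : Trip a b' c' gi j l)
    (hF4 : ∀ ν : Lˣ, (∀ w : L →+* ℝ, w (algebraMap k L a) < 0 → 0 < w (ν : L)) →
      ∃ (D : Fin 3 → k) (x y : Fin 3 → L) (e : kˣ),
        (∀ i, GoodD a b q (D i) ∧ GoodD a b' q (D i)) ∧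
        (ν : L) = algebraMap k L (e : k) * ∏ i, (x i ^ 2 - algebraMap k L (D i) * y i ^ 2))
    (hpart : ∀ {D : k}, GoodD a b q D → GoodD a b' q D → ∀ {x y : L} (κ : Lˣ),
      (κ : L) = x ^ 2 - algebraMap k L D * y ^ 2 →
      ∃ w w' : AT ρ σ α a b c q, w ∈ stab0 ρ σ α a b c q ∧ w' ∈ stab ρ σ α q h ∧
        IsKap ρ w.1 κ ∧ IsKap ρ w'.1 κ ∧ IsN_m ρ σ α a b c q (w * w'⁻¹))
    (hstabN : ∀ {z : AT ρ σ α a b c q}, z ∈ stab ρ σ α q h → ∀ {κ : Lˣ}, IsKap ρ z.1 κ →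
      κ ∈ SqL k L → IsN_m ρ σ α a b c q z)
    {z : AT ρ σ α a b c q} (hz : z ∈ stab ρ σ α q h) (hP : kap z ∈ PosC k L a) :
    z ∈ H.NA_m ⊔ stab0 ρ σ α a b c q := by
  obtain ⟨e0, he0⟩ := exists_e hP
  obtain ⟨D, x, y, e, hD, hp⟩ := hF4 (up L e0 * kap z) (fun w hw => by
    rw [Units.val_mul, map_mul]
    exact he0 w hw)
  have hne : ∀ i, x i ^ 2 - algebraMap k L (D i) * y i ^ 2 ≠ 0 := by
    intro i h0
    have h1 : ∏ i, (x i ^ 2 - algebraMap k L (D i) * y i ^ 2) = 0 :=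
      Finset.prod_eq_zero (Finset.mem_univ i) h0
    rw [h1, mul_zero] at hp
    exact (up L e0 * kap z).ne_zero hp
  choose w w' hw hw' hwk hwk' hww using fun i =>
    hpart (hD i).1 (hD i).2 (x := x i) (y := y i) (Units.mk0 _ (hne i)) rfl
  -- the product of the parts
  have key : ∀ i, w' i ∈ H.NA_m ⊔ stab0 ρ σ α a b c q := by
    intro i
    have h1 : w i * (w' i)⁻¹ ∈ H.NA_m := hww i
    have h2 : w' i = (w i * (w' i)⁻¹)⁻¹ * w i := by group
    rw [h2]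
    exact Subgroup.mul_mem _ (Subgroup.mem_sup_left (H.NA_m.inv_mem h1))
      (Subgroup.mem_sup_right (hw i))
  let u : AT ρ σ α a b c q := w' 0 * w' 1 * w' 2
  have hu : u ∈ stab ρ σ α q h := Subgroup.mul_mem _ (Subgroup.mul_mem _ (hw' 0) (hw' 1)) (hw' 2)
  have hu' : u ∈ H.NA_m ⊔ stab0 ρ σ α a b c q :=
    Subgroup.mul_mem _ (Subgroup.mul_mem _ (key 0) (key 1)) (key 2)
  have hku : kap u = Units.mk0 _ (hne 0) * Units.mk0 _ (hne 1) * Units.mk0 _ (hne 2) := by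
    rw [kap_mul, kap_mul, kap_eq (hwk' 0), kap_eq (hwk' 1), kap_eq (hwk' 2)]
  have hκ : up L e0 * kap z = up L e * kap u := by
    apply Units.ext
    rw [hp, hku, Fin.prod_univ_three]
    rfl
  have hcl : kap (z * u⁻¹) ∈ SqL k L := by
    rw [kap_mul, kap_inv]
    have h1 : kap z * (kap u)⁻¹ = (up L e0)⁻¹ * up L e := by
      rw [eq_inv_mul_iff_mul_eq, ← mul_assoc, hκ, mul_inv_cancel_right]
    have h2 : ∀ t : kˣ, up L t ∈ SqL k L := fun t => by
      rw [mem_SqL]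
      exact ⟨t, 1, by rw [one_pow, mul_one]⟩
    rw [h1]
    exact Subgroup.mul_mem _ (Subgroup.inv_mem _ (h2 e0)) (h2 e)
  have hN : z * u⁻¹ ∈ H.NA_m :=
    hstabN (Subgroup.mul_mem _ hz (Subgroup.inv_mem _ hu)) (isKap_kap _) hcl
  have hzu : z = z * u⁻¹ * u := by group
  rw [hzu]
  exact Subgroup.mul_mem _ (Subgroup.mem_sup_left hN) hu'

/-- The elements of class one of `stabsP`. -/
theorem mem_NA_of_stabsP_m
    (hle : ∀ {b' c' : kˣ} {j l : Oct a b c} (h : Trip a b' c' gi j l) {z : AT ρ σ α a b c q},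
      z ∈ stab ρ σ α q h → kap z ∈ PosC k L a → z ∈ H.NA_m ⊔ stab0 ρ σ α a b c q)
    (hstabN : ∀ {z : AT ρ σ α a b c q}, z ∈ stab0 ρ σ α a b c q → kap z ∈ SqL k L →
      IsN_m ρ σ α a b c q z)
    {z : AT ρ σ α a b c q} (hz : z ∈ stabsP (PosC k L a) ρ σ α a b c q) (hκ : kap z ∈ SqL k L) :
    z ∈ H.NA_m := by
  have h1 : stabsP (PosC k L a) ρ σ α a b c q ≤ H.NA_m ⊔ stab0 ρ σ α a b c q := by
    rw [stabsP, Subgroup.closure_le]
    rintro z ⟨hP, b', c', j, l, h, hz⟩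
    exact hle h hz hP
  have hn : H.NA_m.Normal := H.NA_normal_m
  obtain ⟨n, hn1, s, hs, rfl⟩ := Subgroup.mem_sup_of_normal_left.1 (h1 hz)
  have hN : kap n ∈ SqL k L := (clT_eq_one_iff (isKap_kap n)).1 (H.NA_le_ker_m hn1)
  rw [kap_mul] at hκ
  have h2 : kap s ∈ SqL k L := (Subgroup.mul_mem_cancel_left _ hN).1 hκ
  exact H.NA_m.mul_mem hn1 (hstabN hs h2)

/-- The elements of `GT` which lie in `stabsP` lie in the residual. -/
theorem mem_Rs_of_stabsP_m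
    (hle : ∀ {b' c' : kˣ} {j l : Oct a b c} (h : Trip a b' c' gi j l) {z : AT ρ σ α a b c q},
      z ∈ stab ρ σ α q h → kap z ∈ PosC k L a → z ∈ H.NA_m ⊔ stab0 ρ σ α a b c q)
    (hstabN : ∀ {z : AT ρ σ α a b c q}, z ∈ stab0 ρ σ α a b c q → kap z ∈ SqL k L →
      IsN_m ρ σ α a b c q z)
    {g : OctL E a b c ≃ₗ[E] OctL E a b c} (hg : g ∈ GT ρ σ α a b c q)
    (h : (⟨g, GT_le_AT hg⟩ : AT ρ σ α a b c q) ∈ stabsP (PosC k L a) ρ σ α a b c q) :
    g ∈ Rs_m ρ σ α a b c q := by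
  refine mem_of_isN_m H g hg (mem_NA_of_stabsP_m H hle hstabN h ?_)
  rw [kap_of_GT hg]
  exact Subgroup.one_mem _

end fin

end Vale.Agent.P011.D4X

end

section

open NumberField Topology Filter

namespace Vale.Agent.P011.D4X

open Vale.Agent.P011.MPQ Vale.Agent.P011.D4 Vale.Agent.P011.D4.Oct Vale.Agent.P011.E6

open Vale.Agent.P011.D4X Vale.Agent.P011.D4X.H691

section fin

variable {k L E : Type} [Field k] [NumberField k] [Field L] [NumberField L] [Field E]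
  [Algebra k L] [Algebra k E] [Algebra L E]
  [IsScalarTower k L E] [NeZero (2 : E)] {ρ σ : E ≃ₐ[k] E} {ρL : L ≃ₐ[k] L} {α : E}
  {a b c : kˣ} {q : Lˣ} (H : Hy ρ σ ρL α a b c q)

include H

/-- The elements close to one lie in the residual. -/
theorem open_of_m {S : Set (E →+* ℂ)} (hS : S.Finite) {v : OctL E a b c} (hv : Pt ρ v)
    (hgen : ∀ᶠ x in nh S v, Pt ρ x → PPP (PosC k L a) ρ σ α q x)
    (hgen2 : ∀ (z : AT ρ σ α a b c q) (t : E), z.1 (ep α) = t • ep α → kap z ∈ PosC k L a →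
      z ∈ stabsP (PosC k L a) ρ σ α a b c q)
    (hle : ∀ {b' c' : kˣ} {j l : Oct a b c} (h : Trip a b' c' gi j l) {z : AT ρ σ α a b c q},
      z ∈ stab ρ σ α q h → kap z ∈ PosC k L a → z ∈ H.NA_m ⊔ stab0 ρ σ α a b c q)
    (hstabN : ∀ {z : AT ρ σ α a b c q}, z ∈ stab0 ρ σ α a b c q → kap z ∈ SqL k L →
      IsN_m ρ σ α a b c q z) :
    ∃ ε : ℝ, 0 < ε ∧ ∀ g : OctL E a b c ≃ₗ[E] OctL E a b c, g ∈ GT ρ σ α a b c q →
      (∀ w ∈ S, ∀ x, on w (g x - x) ≤ ε * on w x) → g ∈ Rs_m ρ σ α a b c q := by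
  obtain ⟨ε, hε, h1⟩ := exists_eps_map hS hgen
  refine ⟨ε, hε, fun g hg hn => ?_⟩
  have h0 := h1 (fun x => x) (fun w hw x => by
    have h2 : on w (x - x) = 0 := by
      rw [sub_self]
      apply Finset.sum_eq_zero
      intro i _
      have : co8 (0 : OctL E a b c) i = 0 := by fin_cases i <;> rfl
      rw [this, map_zero, _root_.norm_zero]
    rw [h2]
    exact mul_nonneg hε.le (on_nonneg w x)) hv
  have hκ : kap (⟨g, GT_le_AT hg⟩ : AT ρ σ α a b c q) ∈ PosC k L a := by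
    rw [kap_of_GT hg]
    exact Subgroup.one_mem _
  exact mem_Rs_of_stabsP_m H hle hstabN hg (mem_stabsP_of_PP hgen2 h0 hκ
    (h1 (fun x => g x) hn ⟨fun h => hv.1 (g.injective (h.trans (map_zero g).symm)), by
      rw [← hg.1, hv.2, map_zero]⟩))

end fin

end Vale.Agent.P011.D4X

end

section

open NumberField Topology Filter

namespace Vale.Agent.P011.D4X

open Vale.Agent.P011.MPQ Vale.Agent.P011.D4 Vale.Agent.P011.D4.Oct Vale.Agent.P011.E6

open Vale.Agent.P011.D4X.H691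

section fin

variable {k L E : Type} [Field k] [NumberField k] [Field L] [NumberField L] [Field E]
  [Algebra k L] [Algebra k E] [Algebra L E]
  [IsScalarTower k L E] [NeZero (2 : E)] {ρ σ : E ≃ₐ[k] E} {ρL : L ≃ₐ[k] L} {α : E}
  {a b c : kˣ} {q : Lˣ} (H : Hy ρ σ ρL α a b c q)

include H

/-- The centralisers are congruent to the centraliser of the standard involution, for the elements
whose multiplier has constant signs. -/
theorem stabP_le_m {b' c' : kˣ} {j l : Oct a b c} (h : Trip a b' c' gi j l)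
    (hpart : ∀ {D : k}, GoodD a b q D → GoodD a b' q D → ∀ {x y : L} (κ : Lˣ),
      (κ : L) = x ^ 2 - algebraMap k L D * y ^ 2 →
      ∃ w w' : AT ρ σ α a b c q, w ∈ stab0 ρ σ α a b c q ∧ w' ∈ stab ρ σ α q h ∧
        IsKap ρ w.1 κ ∧ IsKap ρ w'.1 κ ∧ IsN_m ρ σ α a b c q (w * w'⁻¹))
    {z : AT ρ σ α a b c q} (hz : z ∈ stab ρ σ α q h) (hP : kap z ∈ PosC k L a) :
    z ∈ H.NA_m ⊔ stab0 ρ σ α a b c q := by
  refine stabP_le_of_m H h (fun ν hν => ?_) hpart (fun hz _ hκ hc => stab_N_m H h hz hκ hc) hz hP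
  obtain ⟨D, x, y, e, h1, -, h2⟩ := F4s (b' := b') (q := q) H.h3 H.ρ1
    (aniso_of_trip H.hdiv trip_std).1 ν hν
  exact ⟨D, x, y, e, h1, h2⟩

/-- **Openness at the bad places**, from the generation near one and `part`. -/
theorem open_top_of_m {S : Set (E →+* ℂ)} (hS : S.Finite) {v : OctL E a b c} (hv : Pt ρ v)
    (hgen : ∀ᶠ x in nh S v, Pt ρ x → PPP (PosC k L a) ρ σ α q x)
    (hgen2 : ∀ (z : AT ρ σ α a b c q) (t : E), z.1 (ep α) = t • ep α → kap z ∈ PosC k L a →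
      z ∈ stabsP (PosC k L a) ρ σ α a b c q)
    (hpart : ∀ {b' c' : kˣ} {j l : Oct a b c} (h : Trip a b' c' gi j l) {D : k},
      GoodD a b q D → GoodD a b' q D → ∀ {x y : L} (κ : Lˣ),
      (κ : L) = x ^ 2 - algebraMap k L D * y ^ 2 →
      ∃ w w' : AT ρ σ α a b c q, w ∈ stab0 ρ σ α a b c q ∧ w' ∈ stab ρ σ α q h ∧
        IsKap ρ w.1 κ ∧ IsKap ρ w'.1 κ ∧ IsN_m ρ σ α a b c q (w * w'⁻¹)) :
    ∃ ε : ℝ, 0 < ε ∧ ∀ g : OctL E a b c ≃ₗ[E] OctL E a b c, g ∈ GT ρ σ α a b c q →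
      (∀ w ∈ S, ∀ x, on w (g x - x) ≤ ε * on w x) → g ∈ Rs_m ρ σ α a b c q := by
  refine open_of_m H hS hv hgen hgen2 (fun h _ hz hP => stabP_le_m H h (hpart h) hz hP) ?_
  intro z hz hc
  rw [← stab_std (trip_std : Trip a b c (gi : Oct a b c) gj gl)] at hz
  exact stab_N_m H trip_std hz (isKap_kap z) hc

end fin

end Vale.Agent.P011.D4X

end

section

open NumberField Topology Filter

namespace Vale.Agent.P011.D4X

open Vale.Agent.P011.MPQ Vale.Agent.P011.D4 Vale.Agent.P011.D4.Oct Vale.Agent.P011.E6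

open Vale.Agent.P011.D4X.H691

section fin

variable {k L E : Type} [Field k] [NumberField k] [Field L] [NumberField L] [Field E]
  [Algebra k L] [Algebra k E] [Algebra L E]
  [IsScalarTower k L E] [NeZero (2 : E)] {ρ σ : E ≃ₐ[k] E} {ρL : L ≃ₐ[k] L} {α : E}
  {a b c : kˣ} {q : Lˣ} (H : Hy ρ σ ρL α a b c q)

include H

/-- **Openness at the bad places**, from `part`. -/
theorem open_top_of_part_m
    (hpart : ∀ {b' c' : kˣ} {j l : Oct a b c} (h : Trip a b' c' gi j l) {D : k},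
      GoodD a b q D → GoodD a b' q D → ∀ {x y : L} (κ : Lˣ),
      (κ : L) = x ^ 2 - algebraMap k L D * y ^ 2 →
      ∃ w w' : AT ρ σ α a b c q, w ∈ stab0 ρ σ α a b c q ∧ w' ∈ stab ρ σ α q h ∧
        IsKap ρ w.1 κ ∧ IsKap ρ w'.1 κ ∧ IsN_m ρ σ α a b c q (w * w'⁻¹)) :
    ∃ ε : ℝ, 0 < ε ∧ ∀ g : OctL E a b c ≃ₗ[E] OctL E a b c, g ∈ GT ρ σ α a b c q →
      (∀ w ∈ Bd ρ σ q, ∀ x, on w (g x - x) ≤ ε * on w x) → g ∈ Rs_m ρ σ α a b c q := by
  have hv : Pt ρ (ep α * oup E (gl : Oct a b c) : OctL E a b c) := by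
    rw [← H862.vl_eq]
    exact H862.pt_vl H
  exact open_top_of_m H (Bd_finite H) hv (near_gen H H691.pos_mem_PosC)
    (fun z t h1 h2 => gen2P H h1 h2) hpart

end fin

end Vale.Agent.P011.D4X

end

section

open NumberField Topology Filter

namespace Vale.Agent.P011.D4X

open Vale.Agent.P011.MPQ Vale.Agent.P011.D4 Vale.Agent.P011.D4.Oct Vale.Agent.P011.E6

section fin

variable {k L E : Type} [Field k] [NumberField k] [Field L] [NumberField L] [Field E]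
  [Algebra k L] [Algebra k E] [Algebra L E]
  [IsScalarTower k L E] [NeZero (2 : E)] {ρ σ : E ≃ₐ[k] E} {ρL : L ≃ₐ[k] L} {α : E}
  {a b c : kˣ} {q : Lˣ} (H : Hy ρ σ ρL α a b c q)

include H

/-- **D4X.** The elements of `GT` close to one at the real places where the group is isotropic lie
in every subgroup of finite index. -/
theorem open_top_m (hX : ∀ w : L →+* ℝ, w (algebraMap k L a) < 0 →
      w (algebraMap k L b) < 0 ∧ w (algebraMap k L c) < 0) :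
    ∃ ε : ℝ, 0 < ε ∧ ∀ g : OctL E a b c ≃ₗ[E] OctL E a b c, g ∈ GT ρ σ α a b c q →
      (∀ w ∈ Bd ρ σ q, ∀ x, on w (g x - x) ≤ ε * on w x) → g ∈ Rs_m ρ σ α a b c q :=
  open_top_of_part_m H (fun h _ hD hD' _ _ κ hκ => part_m H hX h hD hD' κ hκ)

end fin

end Vale.Agent.P011.D4X

end

section

open Filter Topology NumberField

namespace Vale.Agent.P011.D4Z

open Vale.Agent.P011.MPQ Vale.Agent.P011.D4 Vale.Agent.P011.D4.Oct Vale.Agent.P011.D4X

open Vale.Agent.P011.E6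

open scoped ComplexConjugate

section spec

variable {k L E : Type} [Field k] [NumberField k] [Field L] [NumberField L] [Field E]
  [NumberField E] [Algebra k L] [Algebra k E] [Algebra L E]
  [IsScalarTower k L E] [NeZero (2 : E)] {ρ σ : E ≃ₐ[k] E} {ρL : L ≃ₐ[k] L} {α : E}
  {a b c : kˣ} {q : Lˣ} (H : Hy ρ σ ρL α a b c q)

include H

/-- T2: isometry. -/
theorem clg_bil_m [Algebra k ℂ] (W : E →ₐ[k] ℂ) (hW : (W : E →+* ℂ) ∈ Bd ρ σ q)
    {g : OctL E a b c ≃ₗ[E] OctL E a b c} (hg : g ∈ GT ρ σ α a b c q)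
    {Y : Bd ρ σ q → Matrix (Fin 8) (Fin 8) ℂ}
    (hY : Y ∈ clg (Bd ρ σ q) (Rs_m ρ σ α a b c q) g) (x y : OctL ℂ a b c) :
    bil (act (Y ⟨W, hW⟩) x) (act (Y ⟨W, hW⟩) y) = bil x y :=
  clg_bil_of hW (fun _ hz => GT_bil H ((GT ρ σ α a b c q).mul_mem (Rs_le_m hz) hg)) hY x y

omit H

/-- T2: `J`. -/
theorem clg_J_m [Algebra k ℂ] (W : E →ₐ[k] ℂ) (hW : (W : E →+* ℂ) ∈ Bd ρ σ q)
    {g : OctL E a b c ≃ₗ[E] OctL E a b c} (hg : g ∈ GT ρ σ α a b c q)
    {Y : Bd ρ σ q → Matrix (Fin 8) (Fin 8) ℂ}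
    (hY : Y ∈ clg (Bd ρ σ q) (Rs_m ρ σ α a b c q) g) (x : OctL ℂ a b c) :
    act (Y ⟨W, hW⟩) (JW W ρ α q x) = JW W ρ α q (act (Y ⟨W, hW⟩) x) :=
  clg_J_of hW hW.1 (fun _ hz => ((GT ρ σ α a b c q).mul_mem (Rs_le_m hz) hg).2) hY x

/-- T2: triality. -/
theorem clg_tri_m [Algebra k ℂ] (W W' W'' : E →ₐ[k] ℂ) (hW : (W : E →+* ℂ) ∈ Bd ρ σ q)
    (hW' : (W' : E →+* ℂ) ∈ Bd ρ σ q) (hW'' : (W'' : E →+* ℂ) ∈ Bd ρ σ q)
    (h' : W' = cmp W ρ) (h'' : W'' = cmp W' ρ)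
    {g : OctL E a b c ≃ₗ[E] OctL E a b c} (hg : g ∈ GT ρ σ α a b c q)
    {Y : Bd ρ σ q → Matrix (Fin 8) (Fin 8) ℂ}
    (hY : Y ∈ clg (Bd ρ σ q) (Rs_m ρ σ α a b c q) g) (x y : OctL ℂ a b c) :
    act (Y ⟨W, hW⟩) (star x * star y) =
      star (act (Y ⟨W', hW'⟩) x) * star (act (Y ⟨W'', hW''⟩) y) :=
  clg_tri_of hW hW' hW'' h' h''
    (fun _ hz => ((GT ρ σ α a b c q).mul_mem (Rs_le_m hz) hg).1) hY x y

include H

/-- T2: the end. -/
theorem mem_of_one_m (hX : ∀ w : L →+* ℝ, w (algebraMap k L a) < 0 →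
      w (algebraMap k L b) < 0 ∧ w (algebraMap k L c) < 0)
    {g : OctL E a b c ≃ₗ[E] OctL E a b c} (hg : g ∈ GT ρ σ α a b c q)
    (h1 : (1 : Bd ρ σ q → Matrix (Fin 8) (Fin 8) ℂ) ∈
      clg (Bd ρ σ q) (Rs_m ρ σ α a b c q) g) : g ∈ Rs_m ρ σ α a b c q :=
  mem_of_one_of (Bd_finite H) Rs_le_m (open_top_m H hX) hg h1

end spec

end Vale.Agent.P011.D4Z

end

section

open Topology NumberField

namespace Vale.Agent.P011.D4Z.H342

open Vale.Agent.P011.MPQ Vale.Agent.P011.D4 Vale.Agent.P011.D4.Oct Vale.Agent.P011.D4X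

open Vale.Agent.P011.D4Z Vale.Agent.P011.E6

open scoped ComplexConjugate

section

variable {k L E : Type} [Field k] [NumberField k] [Field L] [NumberField L] [Field E]
  [NumberField E] [Algebra k L] [Algebra k E] [Algebra L E]
  [IsScalarTower k L E] [NeZero (2 : E)] {ρ σ : E ≃ₐ[k] E} {ρL : L ≃ₐ[k] L} {α : E}
  {a b c : kˣ} {q : Lˣ} (H : Hy ρ σ ρL α a b c q)

include H

/-- The sign move. -/
theorem sign_move_m [Algebra k ℂ] (W : E →ₐ[k] ℂ) (hW : (W : E →+* ℂ) ∈ Bd ρ σ q)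
    (hW' : (cmp W ρ : E →+* ℂ) ∈ Bd ρ σ q) (hW'' : (cmp (cmp W ρ) ρ : E →+* ℂ) ∈ Bd ρ σ q) :
    ∃ X ∈ cl (Bd ρ σ q) (Rs_m ρ σ α a b c q), X ⟨W, hW⟩ = 1 ∧ X ⟨cmp W ρ, hW'⟩ = -1 ∧
      X ⟨cmp (cmp W ρ) ρ, hW''⟩ = -1 ∧
      ∀ V : Bd ρ σ q, V.1.comp (algebraMap k E) ≠ algebraMap k ℂ → X V = 1 := by
  have h2 : NeZero (2 : ℂ) := ⟨two_ne_zero⟩
  obtain ⟨X, hX, x1, x2, x3, x4⟩ := zlim_x_m H W (cmp W ρ) (cmp (cmp W ρ) ρ) hW hW' hW'' rfl rfl
    (trip_std : Trip a b c (gi : Oct a b c) gj gl) (X1 := -1) (X2 := 1) (X3 := -1) nrd_neg_one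
    nrd_one' nrd_neg_one (RQ_neg_one _ _) (RQ_one _ _) (RQ_neg_one _ _)
  refine ⟨X, hX, ?_, ?_, ?_, x4⟩
  · refine act_inj (a := up ℂ a) (b := up ℂ b) (c := up ℂ c) fun x => ?_
    have h3 := x1 x
    rw [tripO_std, tripO_std] at h3
    rw [h3, act_one]
    apply Oct.ext
    · simp
    · simp
  · refine act_inj (a := up ℂ a) (b := up ℂ b) (c := up ℂ c) fun x => ?_
    have h3 := x2 x
    rw [tripO_std, tripO_std] at h3
    rw [h3, act_neg_one]
    apply Oct.ext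
    · simp
    · simp
  · refine act_inj (a := up ℂ a) (b := up ℂ b) (c := up ℂ c) fun x => ?_
    have h3 := x3 x
    rw [tripO_std, tripO_std] at h3
    rw [h3, act_neg_one]
    apply Oct.ext
    · simp
    · simp

/-- **The statement at one place**, from the end for a product of two reflections. -/
theorem one_place_end_m (hX : ∀ w : L →+* ℝ, w (algebraMap k L a) < 0 →
      w (algebraMap k L b) < 0 ∧ w (algebraMap k L c) < 0) [Algebra k ℂ]
    (W : E →ₐ[k] ℂ) (hW : (W : E →+* ℂ) ∈ Bd ρ σ q)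
    (hW' : (cmp W ρ : E →+* ℂ) ∈ Bd ρ σ q) (hW'' : (cmp (cmp W ρ) ρ : E →+* ℂ) ∈ Bd ρ σ q)
    (h0 : (W (algebraMap L E q)).re < 0) (h1 : 0 < (W (ρ (algebraMap L E q))).re)
    (hend : ∀ X Y Z : OctL ℂ a b c → OctL ℂ a b c,
      (∀ x y, X (star x * star y) = star (Y x) * star (Z y)) →
      (∀ x y, bil (Y x) (Y y) = bil x y) →
      (∀ x, Y (JW (cmp W ρ) ρ α q x) = JW (cmp W ρ) ρ α q (Y x)) →
      ∀ {u v : OctL ℂ a b c}, u ∈ VR W ρ α q → v ∈ VR W ρ α q → Oct.norm u = 1 →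
      Oct.norm v = -1 → (∀ x, X x = D4Z.refl u (D4Z.refl v x)) → False)
    {g : OctL E a b c ≃ₗ[E] OctL E a b c} (hg : g ∈ GT ρ σ α a b c q)
    {Y : Bd ρ σ q → Matrix (Fin 8) (Fin 8) ℂ}
    (hY : Y ∈ clg (Bd ρ σ q) (Rs_m ρ σ α a b c q) g) :
    ∃ Y' ∈ clg (Bd ρ σ q) (Rs_m ρ σ α a b c q) g, Y' ⟨W, hW⟩ = 1 ∧ Y' ⟨cmp W ρ, hW'⟩ = 1 ∧
      Y' ⟨cmp (cmp W ρ) ρ, hW''⟩ = 1 ∧
      ∀ V : Bd ρ σ q, V.1.comp (algebraMap k E) ≠ algebraMap k ℂ → Y' V = Y V := by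
  have h2 : NeZero (2 : ℂ) := ⟨two_ne_zero⟩
  refine one_place_of (α := α) (ρ := ρ) (q := q) W (cmp W ρ) (cmp (cmp W ρ) ρ) hW hW' hW''
    (fun Y hY => clg_bil_m H W hW hg hY) (fun Y hY => clg_bil_m H (cmp W ρ) hW' hg hY)
    (fun Y hY => clg_bil_m H (cmp (cmp W ρ) ρ) hW'' hg hY) (fun Y hY => clg_J_m W hW hg hY)
    (fun Y hY => clg_tri_m W (cmp W ρ) (cmp (cmp W ρ) ρ) hW hW' hW'' rfl rfl hg hY)
    (fun X hX Y hY => mul_mem_clg hX hY)
    (fun e e' he he' hB hN hn => H553.blk_mem_of_m H W hW ?_ ?_ h1 he he' hB hN hn)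
    (exists_basis H W hW h0 h1 hX) (sign_move_m H W hW hW' hW'')
    (fun Y hY u v hu hv nu nv _ hr => ?_) hY
  · intro W' W'' hW' hW'' h' h'' b' c' j l h X1 X2 X3 n1 n2 n3 r1 r2 r3
    obtain ⟨X, hX, x1, -, -, x4⟩ := zlim_x_m H W W' W'' hW hW' hW'' h' h'' h n1 n2 n3 r1 r2 r3
    exact ⟨X, hX, x1, x4⟩
  · intro b' c' j l h X0 n0 r0
    exact zlim_0_m H W hW h n0 r0
  · exact hend (fun x => act (Y ⟨W, hW⟩) x) (fun x => act (Y ⟨cmp W ρ, hW'⟩) x)
      (fun x => act (Y ⟨cmp (cmp W ρ) ρ, hW''⟩) x)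
      (fun x y => clg_tri_m W (cmp W ρ) (cmp (cmp W ρ) ρ) hW hW' hW'' rfl rfl hg hY x y)
      (fun x y => clg_bil_m H (cmp W ρ) hW' hg hY x y)
      (fun x => clg_J_m (cmp W ρ) hW' hg hY x) hu hv nu nv hr

end

end Vale.Agent.P011.D4Z.H342

end

section

open Topology NumberField

namespace Vale.Agent.P011.D4Z.H714

open Vale.Agent.P011.MPQ Vale.Agent.P011.D4 Vale.Agent.P011.D4.Oct Vale.Agent.P011.D4X

open Vale.Agent.P011.D4Y

open scoped ComplexConjugate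

section spec

variable {k L E : Type} [Field k] [NumberField k] [Field L] [NumberField L] [Field E]
  [Algebra k L] [Algebra k E] [Algebra L E]
  [IsScalarTower k L E] [NeZero (2 : E)] {ρ σ ι : E ≃ₐ[k] E} {α : E}
  {a b c : kˣ} {q : Lˣ}

variable (H : HyI ρ σ ι α a b c q)

include H

theorem clg_bilI_m [Algebra k ℂ] (W : E →ₐ[k] ℂ) (hW : (W : E →+* ℂ) ∈ Bd ρ σ q)
    {g : OctL E a b c ≃ₗ[E] OctL E a b c} (hg : g ∈ GTI ρ σ ι α a b c q)
    {Y : Bd ρ σ q → Matrix (Fin 8) (Fin 8) ℂ}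
    (hY : Y ∈ clg (Bd ρ σ q) (RsI_m ρ σ ι α a b c q) g) (x y : OctL ℂ a b c) :
    bil (act (Y ⟨W, hW⟩) x) (act (Y ⟨W, hW⟩) y) = bil x y :=
  clg_bil_of hW (fun _ hz => GTI_bil H ((GTI ρ σ ι α a b c q).mul_mem (RsI_le_m hz) hg)) hY x y

omit H

theorem clg_JI_m [Algebra k ℂ] (W : E →ₐ[k] ℂ) (hW : (W : E →+* ℂ) ∈ Bd ρ σ q)
    {g : OctL E a b c ≃ₗ[E] OctL E a b c} (hg : g ∈ GTI ρ σ ι α a b c q)
    {Y : Bd ρ σ q → Matrix (Fin 8) (Fin 8) ℂ}
    (hY : Y ∈ clg (Bd ρ σ q) (RsI_m ρ σ ι α a b c q) g) (x : OctL ℂ a b c) :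
    act (Y ⟨W, hW⟩) (JW W ρ α q x) = JW W ρ α q (act (Y ⟨W, hW⟩) x) :=
  clg_J_of hW hW.1 (fun _ hz => ((GTI ρ σ ι α a b c q).mul_mem (RsI_le_m hz) hg).2.1) hY x

theorem clg_triI_m [Algebra k ℂ] (W W' W'' : E →ₐ[k] ℂ) (hW : (W : E →+* ℂ) ∈ Bd ρ σ q)
    (hW' : (W' : E →+* ℂ) ∈ Bd ρ σ q) (hW'' : (W'' : E →+* ℂ) ∈ Bd ρ σ q)
    (h' : W' = cmp W ρ) (h'' : W'' = cmp W' ρ)
    {g : OctL E a b c ≃ₗ[E] OctL E a b c} (hg : g ∈ GTI ρ σ ι α a b c q)
    {Y : Bd ρ σ q → Matrix (Fin 8) (Fin 8) ℂ}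
    (hY : Y ∈ clg (Bd ρ σ q) (RsI_m ρ σ ι α a b c q) g) (x y : OctL ℂ a b c) :
    act (Y ⟨W, hW⟩) (star x * star y) =
      star (act (Y ⟨W', hW'⟩) x) * star (act (Y ⟨W'', hW''⟩) y) :=
  clg_tri_of hW hW' hW'' h' h''
    (fun _ hz => ((GTI ρ σ ι α a b c q).mul_mem (RsI_le_m hz) hg).1) hY x y

include H

end spec

end Vale.Agent.P011.D4Z.H714

end

section

open Module NumberField Topology Filter

namespace Vale.Agent.P011.D4W.H7

open Vale.Agent.P011.Arith Vale.Agent.P011.MPQ Vale.Agent.P011.D4 Vale.Agent.P011.D4.Oct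
  Vale.Agent.P011.E6 Vale.Agent.P011.D4X Vale.Agent.P011.D4Y Vale.Agent.P011.D4Z

open scoped ComplexConjugate

section moves

variable {k L E : Type} [Field k] [NumberField k] [Field L] [NumberField L] [Field E]
  [Algebra k L] [Algebra k E] [Algebra L E]
  [IsScalarTower k L E] [NeZero (2 : E)] {ρ σ ι : E ≃ₐ[k] E} {α : E}
  {a b c : kˣ} {q : Lˣ}

/-- **The elements `z(x₀, x; 1)`** of any triple lie in the residual. -/
theorem moves_memI_m (hS : ShortAll_m k L) (H : HyI ρ σ ι α a b c q) {b' c' : kˣ} {j l : Oct a b c}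
    (h : Trip a b' c' gi j l) {x0 : Qt a b'} {x : Qt (up L a) (q * up L b')}
    (h0 : nrd x0 = 1) (h1 : nrd x = 1) :
    ∃ g ∈ RsI_m ρ σ ι α a b c q, ∀ y : OctL E a b' c', g (tripO E h y) =
      tripO E h ⟨psiL α q x * y.fst * star (qmap ρ (qmap ρ (psiL α q x))),
        qup E x0 * y.snd * star (qmap ρ (psiL α q x))⟩ := by
  have h2 : NeZero (2 : k) := ⟨two_ne_zero⟩
  obtain ⟨z, hz, hk, hzy⟩ := D4Y.exists_z (c := c') (hyTripI H h) x0 x 1 (by
    rw [h0, h1]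
    simp)
  have hk1 : kapI z = 1 := kapI_eq (hk 1 (by rw [h1]; simp))
  have hkap : kapI (cjAI ρ σ ι α q h z) = 1 := by rw [kapI_cjAI, hk1]
  have hst : cjAI ρ σ ι α q h z ∈ stabI ρ σ ι α q h := (cjAI_mem_stabI h).2 hz
  have hN : IsNI_m ρ σ ι α a b c q (cjAI ρ σ ι α q h z) := by
    refine stab_N_m hS H h hst (κ := 1) ?_ (Subgroup.one_mem _)
    rw [← hkap]
    exact isKapI_kapI _
  refine ⟨(cjAI ρ σ ι α q h z).1, mem_of_isNI_m H _ (mem_GTI_of_kapI_one hkap) hN, fun y => ?_⟩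
  have h3 : (cjAI ρ σ ι α q h z).1 (tripO E h y) = tripO E h (z.1 y) := by
    change cjE (tripO E h) z.1 (tripO E h y) = _
    exact cjE_apply _ _ _
  rw [h3, hzy]
  congr 1
  simp only [zFI, h1, map_one, mul_one, Units.val_one, div_one, one_smul]

/-- The short elements. -/
theorem move_xI_m (hS : ShortAll_m k L) (H : HyI ρ σ ι α a b c q) {b' c' : kˣ} {j l : Oct a b c}
    (h : Trip a b' c' gi j l) {x : Qt (up L a) (q * up L b')} (h1 : nrd x = 1) :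
    ∃ g ∈ RsI_m ρ σ ι α a b c q, ∀ y : OctL E a b' c', g (tripO E h y) =
      tripO E h ⟨psiL α q x * y.fst * star (qmap ρ (qmap ρ (psiL α q x))),
        y.snd * star (qmap ρ (psiL α q x))⟩ := by
  obtain ⟨g, hg, h2⟩ := moves_memI_m hS H h (x0 := 1) nrd_one h1
  refine ⟨g, hg, fun y => ?_⟩
  rw [h2, qup_one, one_mul]

/-- The long elements. -/
theorem move_0I_m (hS : ShortAll_m k L) (H : HyI ρ σ ι α a b c q) {b' c' : kˣ} {j l : Oct a b c}
    (h : Trip a b' c' gi j l) {x0 : Qt a b'} (h0 : nrd x0 = 1) :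
    ∃ g ∈ RsI_m ρ σ ι α a b c q, ∀ y : OctL E a b' c', g (tripO E h y) =
      tripO E h ⟨y.fst, qup E x0 * y.snd⟩ := by
  obtain ⟨g, hg, h2⟩ := moves_memI_m hS H h (x := 1) h0 nrd_one
  have e : (psiL α q (1 : Qt (up L a) (q * up L b')) : Qt (up E a) (up E b')) = 1 := by
    apply QuaternionAlgebra.ext <;> simp [psiL]
  refine ⟨g, hg, fun y => ?_⟩
  rw [h2, e, qmap_one, qmap_one, star_one, mul_one, one_mul, mul_one]

end moves

section lim

variable {k L E : Type} [Field k] [NumberField k] [Field L] [NumberField L] [Field E]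
  [NumberField E] [Algebra k L] [Algebra k E] [Algebra L E]
  [IsScalarTower k L E] [NeZero (2 : E)] {ρ σ ι : E ≃ₐ[k] E} {α : E}
  {a b c : kˣ} {q : Lˣ}

/-- **The limits of the short moves**: three quaternions of norm one in the real forms at `W`,
`W ρ`, `W ρ²`, for any trip. -/
theorem zlim_xI_m (hS : ShortAll_m k L) (H : HyI ρ σ ι α a b c q) [Algebra k ℂ]
    (W W' W'' : E →ₐ[k] ℂ) (hW : (W : E →+* ℂ) ∈ Bd ρ σ q)
    (hW' : (W' : E →+* ℂ) ∈ Bd ρ σ q) (hW'' : (W'' : E →+* ℂ) ∈ Bd ρ σ q)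
    (h' : W' = cmp W ρ) (h'' : W'' = cmp W' ρ)
    {b' c' : kˣ} {j l : Oct a b c} (h : Trip a b' c' gi j l) [NeZero (2 : ℂ)]
    {X1 X2 X3 : Qt (up ℂ a) (up ℂ b')} (n1 : nrd X1 = 1) (n2 : nrd X2 = 1) (n3 : nrd X3 = 1)
    (r1 : RQ a b' (W α) (W (algebraMap L E q)) X1)
    (r2 : RQ a b' (W α) (W' (algebraMap L E q)) X2)
    (r3 : RQ a b' (W α) (W'' (algebraMap L E q)) X3) :
    ∃ X ∈ cl (Bd ρ σ q) (RsI_m ρ σ ι α a b c q),
      (∀ y : OctL ℂ a b' c', act (X ⟨W, hW⟩) (tripO ℂ h y) =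
        tripO ℂ h ⟨X1 * y.fst * star X3, y.snd * star X2⟩) ∧
      (∀ y : OctL ℂ a b' c', act (X ⟨W', hW'⟩) (tripO ℂ h y) =
        tripO ℂ h ⟨X2 * y.fst * star X1, y.snd * star X3⟩) ∧
      (∀ y : OctL ℂ a b' c', act (X ⟨W'', hW''⟩) (tripO ℂ h y) =
        tripO ℂ h ⟨X3 * y.fst * star X2, y.snd * star X1⟩) ∧
      ∀ V : Bd ρ σ q, V.1.comp (algebraMap k E) ≠ algebraMap k ℂ → X V = 1 :=
  D4Z.H408.zlim_xI_of H W W' W'' hW hW' hW'' h' h'' h (fun _ hx => move_xI_m hS H h hx)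
    n1 n2 n3 r1 r2 r3

omit [NumberField E] in
/-- The limits of the long moves. -/
theorem zlim_0I_m (hS : ShortAll_m k L) (H : HyI ρ σ ι α a b c q) [Algebra k ℂ] (W : E →ₐ[k] ℂ)
    (hW : (W : E →+* ℂ) ∈ Bd ρ σ q)
    {b' c' : kˣ} {j l : Oct a b c} (h : Trip a b' c' gi j l) [NeZero (2 : ℂ)]
    {X0 : Qt (up ℂ a) (up ℂ b')} (n0 : nrd X0 = 1) (r0 : D4Z.cjq X0 = X0) :
    ∃ X ∈ cl (Bd ρ σ q) (RsI_m ρ σ ι α a b c q),
      (∀ y : OctL ℂ a b' c', act (X ⟨W, hW⟩) (tripO ℂ h y) = tripO ℂ h ⟨y.fst, X0 * y.snd⟩) ∧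
      ∀ V : Bd ρ σ q, V.1.comp (algebraMap k E) ≠ algebraMap k ℂ → X V = 1 :=
  D4Z.H319.zlim_0_of W hW h (fun _ h0 => move_0I_m hS H h h0) n0 r0

variable (H : HyI ρ σ ι α a b c q)

include H

theorem mem_of_oneI_m
    (hop : ∃ ε : ℝ, 0 < ε ∧ ∀ g : OctL E a b c ≃ₗ[E] OctL E a b c, g ∈ GTI ρ σ ι α a b c q →
      (∀ w ∈ Bd ρ σ q, ∀ x, on w (g x - x) ≤ ε * on w x) → g ∈ RsI_m ρ σ ι α a b c q)
    {g : OctL E a b c ≃ₗ[E] OctL E a b c} (hg : g ∈ GTI ρ σ ι α a b c q)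
    (h1 : (1 : Bd ρ σ q → Matrix (Fin 8) (Fin 8) ℂ) ∈
      D4Z.clg (Bd ρ σ q) (RsI_m ρ σ ι α a b c q) g) : g ∈ RsI_m ρ σ ι α a b c q :=
  D4Z.mem_of_one_of (BdI_finite H) (fun _ h => RsI_le_m h) hop hg h1

/-- The density argument. -/
theorem gt_topI_of_m
    (hop : ∃ ε : ℝ, 0 < ε ∧ ∀ g : OctL E a b c ≃ₗ[E] OctL E a b c, g ∈ GTI ρ σ ι α a b c q →
      (∀ w ∈ Bd ρ σ q, ∀ x, on w (g x - x) ≤ ε * on w x) → g ∈ RsI_m ρ σ ι α a b c q)
    (hone : ∀ g ∈ GTI ρ σ ι α a b c q, ∀ (_ : Algebra k ℂ) (W : E →ₐ[k] ℂ)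
      (hW : (W : E →+* ℂ) ∈ Bd ρ σ q) (hW' : (cmp W ρ : E →+* ℂ) ∈ Bd ρ σ q)
      (hW'' : (cmp (cmp W ρ) ρ : E →+* ℂ) ∈ Bd ρ σ q),
      (W (algebraMap L E q)).re < 0 → 0 < (W (ρ (algebraMap L E q))).re →
      ∀ Y ∈ D4Z.clg (Bd ρ σ q) (RsI_m ρ σ ι α a b c q) g,
        ∃ Y' ∈ D4Z.clg (Bd ρ σ q) (RsI_m ρ σ ι α a b c q) g, Y' ⟨W, hW⟩ = 1 ∧
          Y' ⟨cmp W ρ, hW'⟩ = 1 ∧ Y' ⟨cmp (cmp W ρ) ρ, hW''⟩ = 1 ∧
          ∀ V : Bd ρ σ q, V.1.comp (algebraMap k E) ≠ algebraMap k ℂ → Y' V = Y V) :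
    GTI ρ σ ι α a b c q ≤ RsI_m ρ σ ι α a b c q := fun g hg =>
  mem_of_oneI_m H hop hg (D4Z.H68.outerI H (fun _ hz => (RsI_le_m hz).2.2) hg.2.2 (hone g hg)
    D4Z.self_mem_clg)

/-- **The moves fill up**: `GTI ≤ RsI`. -/
theorem gt_topI_m (hX : ∀ τ : k →+* ℝ, τ a < 0 → τ b < 0 ∧ τ c < 0) (hS : ShortAll_m k L)
    (hop : ∃ ε : ℝ, 0 < ε ∧ ∀ g : OctL E a b c ≃ₗ[E] OctL E a b c, g ∈ GTI ρ σ ι α a b c q →
      (∀ w ∈ Bd ρ σ q, ∀ x, on w (g x - x) ≤ ε * on w x) → g ∈ RsI_m ρ σ ι α a b c q) :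
    GTI ρ σ ι α a b c q ≤ RsI_m ρ σ ι α a b c q := by
  refine gt_topI_of_m H hop ?_
  intro g hg _ W hW hW' hW'' h0 h1 Y hY
  exact D4Z.H342.one_placeI_of H hX W hW hW' hW'' h0 h1
    (fun U hU Y hY x y => D4Z.H714.clg_bilI_m H U hU hg hY x y)
    (fun U hU Y hY x => D4Z.H714.clg_JI_m U hU hg hY x)
    (fun Y hY x y => D4Z.H714.clg_triI_m W _ _ hW hW' hW'' rfl rfl hg hY x y)
    (fun W' W'' hW' hW'' h' h'' _ _ _ _ h _ _ _ n1 n2 n3 r1 r2 r3 =>
      zlim_xI_m hS H W W' W'' hW hW' hW'' h' h'' h n1 n2 n3 r1 r2 r3)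
    (fun h _ n0 r0 => zlim_0I_m hS H W hW h n0 r0)
    (fun X Y Z ht hN hJ _ _ hu hv hu1 hv1 hX =>
      D4Z.H63.end_reflI H W _ _ hW.1 rfl rfl ht hN hJ hu hv hu1 hv1 hX)
    hY

end lim

end Vale.Agent.P011.D4W.H7

end

section

open Module NumberField

namespace Vale.Agent.P011.D4W.H7

open Vale.Agent.P011.MPQ Vale.Agent.P011.D4 Vale.Agent.P011.D4.Oct Vale.Agent.P011.D4H
  Vale.Agent.P011.D4T

/-- **Trialitarian groups of noncyclic cubic extensions with nontrivial Tits class** have no proper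
subgroup of finite index, from the short elements and the congruence of the centralisers. -/
theorem ti_noIndex_m {k L E : Type} [Field k] [NumberField k] [Field L] [NumberField L] [Field E]
    [Algebra k L] [Algebra k E] [Algebra L E] [IsScalarTower k L E] (hS : ShortAll_m k L)
    (hT : LeAll_m k L) {ρ σ ι : E ≃ₐ[k] E} {α : E}
    {a b c : kˣ} {q : Lˣ} (H : IsDataIR ρ σ ι α a b c q) :
    NoIndex_m (D4I.TI ρ σ ι α (algebraMap L E (q : L)) a b c) := by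
  have hc : CharZero E := charZero_of_injective_algebraMap (algebraMap k E).injective
  have h2 : NeZero (2 : E) := ⟨two_ne_zero⟩
  have hfin := H.finite
  have hE : NumberField E := NumberField.of_module_finite L E
  exact (openAt_of_RsI_m (S := fun _ => False)
    ⟨1, one_pos, fun g hg _ => gt_topI_m H.hyY H.hdef hS
      (open_top_of_m hS H.hyY fun h _ hz hp => hT E ρ σ ι α a b c q H.hyY H.hdef h hz hp)
      hg⟩).noIndex_m fun _ h => h

end Vale.Agent.P011.D4W.H7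

end

section

open Module NumberField

namespace Vale.Agent.P011.D4W.H7

open Vale.Agent.P011.MPQ Vale.Agent.P011.D4 Vale.Agent.P011.D4T Vale.Agent.P011.D4I
  Vale.Agent.P011.D4H

/-- The trialitarian groups of noncyclic cubic extensions have no proper subgroup of finite
index, from the congruence of the centralisers for the frame `(i, l, j)`. -/
theorem ti_noIndex_of_swap_m {k L E : Type} [Field k] [NumberField k] [Field L] [NumberField L]
    [Field E] [Algebra k L] [Algebra k E] [Algebra L E] [IsScalarTower k L E] (hsw : LeSwap_m k L)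
    {ρ σ ι : E ≃ₐ[k] E} {α : E} {a b c : kˣ} {q : Lˣ} (H : IsDataIR ρ σ ι α a b c q) :
    NoIndex_m (TI ρ σ ι α (algebraMap L E (q : L)) a b c) :=
  ti_noIndex_m (shortAll_m k L) (le_of_swap_m hsw) H

end Vale.Agent.P011.D4W.H7

end

section

open Module NumberField

namespace Vale.Agent.P011.D4W

open Vale.Agent.P011.MPQ Vale.Agent.P011.D4 Vale.Agent.P011.D4T Vale.Agent.P011.D4I
  Vale.Agent.P011.D4H

/-- **The trialitarian groups of noncyclic cubic extensions** have no proper subgroup of finite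
index. -/
theorem ti_noIndex_m {k L E : Type} [Field k] [NumberField k] [Field L] [NumberField L] [Field E]
    [Algebra k L] [Algebra k E] [Algebra L E] [IsScalarTower k L E] {ρ σ ι : E ≃ₐ[k] E} {α : E}
    {a b c : kˣ} {q : Lˣ} (H : IsDataIR ρ σ ι α a b c q) :
    NoIndex_m (TI ρ σ ι α (algebraMap L E (q : L)) a b c) :=
  H7.ti_noIndex_of_swap_m (H619.leSwap_m (H7.shortAll_m k L)) H

end Vale.Agent.P011.D4W

end

section

open Topology NumberField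

namespace Vale.Agent.P011.D4Z.H493

open Vale.Agent.P011.MPQ Vale.Agent.P011.D4 Vale.Agent.P011.D4.Oct Vale.Agent.P011.D4X

open Vale.Agent.P011.E6

open scoped ComplexConjugate

variable {k L E : Type} [Field k] [NumberField k] [Field L] [NumberField L] [Field E]
  [NumberField E] [Algebra k L] [Algebra k E] [Algebra L E]
  [IsScalarTower k L E] [NeZero (2 : E)] {ρ σ : E ≃ₐ[k] E} {ρL : L ≃ₐ[k] L} {α : E}
  {a b c : kˣ} {q : Lˣ} (H : Hy ρ σ ρL α a b c q)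

include H

theorem gt_top_of_m (hX : ∀ w : L →+* ℝ, w (algebraMap k L a) < 0 →
      w (algebraMap k L b) < 0 ∧ w (algebraMap k L c) < 0)
    (hone : ∀ g ∈ GT ρ σ α a b c q, ∀ (_ : Algebra k ℂ) (W : E →ₐ[k] ℂ)
      (hW : (W : E →+* ℂ) ∈ Bd ρ σ q) (hW' : (cmp W ρ : E →+* ℂ) ∈ Bd ρ σ q)
      (hW'' : (cmp (cmp W ρ) ρ : E →+* ℂ) ∈ Bd ρ σ q),
      (W (algebraMap L E q)).re < 0 → 0 < (W (ρ (algebraMap L E q))).re →
      ∀ Y ∈ clg (Bd ρ σ q) (Rs_m ρ σ α a b c q) g,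
        ∃ Y' ∈ clg (Bd ρ σ q) (Rs_m ρ σ α a b c q) g, Y' ⟨W, hW⟩ = 1 ∧ Y' ⟨cmp W ρ, hW'⟩ = 1 ∧
          Y' ⟨cmp (cmp W ρ) ρ, hW''⟩ = 1 ∧
          ∀ V : Bd ρ σ q, V.1.comp (algebraMap k E) ≠ algebraMap k ℂ → Y' V = Y V) :
    GT ρ σ α a b c q ≤ Rs_m ρ σ α a b c q := fun g hg =>
  mem_of_one_m H hX hg (H862.outer H (hone g hg) self_mem_clg)

end Vale.Agent.P011.D4Z.H493

end

section

open Topology NumberField

namespace Vale.Agent.P011.D4Z

open Vale.Agent.P011.MPQ Vale.Agent.P011.D4 Vale.Agent.P011.D4.Oct Vale.Agent.P011.D4X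

open Vale.Agent.P011.E6

open scoped ComplexConjugate

variable {k L E : Type} [Field k] [NumberField k] [Field L] [NumberField L] [Field E]
  [NumberField E] [Algebra k L] [Algebra k E] [Algebra L E]
  [IsScalarTower k L E] [NeZero (2 : E)] {ρ σ : E ≃ₐ[k] E} {ρL : L ≃ₐ[k] L} {α : E}
  {a b c : kˣ} {q : Lˣ}

/-- **The group `GT` is its own residual.** -/
theorem gt_top_m (H : Hy ρ σ ρL α a b c q)
    (hX : ∀ w : L →+* ℝ, w (algebraMap k L a) < 0 →
      w (algebraMap k L b) < 0 ∧ w (algebraMap k L c) < 0) :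
    GT ρ σ α a b c q ≤ Rs_m ρ σ α a b c q :=
  H493.gt_top_of_m H hX fun _ hg _ W hW hW' hW'' h0 h1 _ hY =>
    H342.one_place_end_m H hX W hW hW' hW'' h0 h1
      (fun _ _ _ t n j _ _ hu hv nu nv r => H63.end_refl H W _ _ hW.1 rfl rfl t n j hu hv nu nv r)
      hg hY

end Vale.Agent.P011.D4Z

end

section

open Module NumberField

namespace Vale.Agent.P011.D4H

open Vale.Agent.P011.MPQ Vale.Agent.P011.D4 Vale.Agent.P011.D4.Oct Vale.Agent.P011.D4T

section hom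

variable {k L E : Type} [Field k] [Field L] [Field E] [Algebra k L] [Algebra k E] [Algebra L E]
  [IsScalarTower k L E] {ρ σ : E ≃ₐ[k] E} {α : E} {a b c : kˣ} {q : Lˣ}

/-- The statement for the permutations from the statement for the linear maps. -/
theorem openAt_tx_m {S : (E →+* ℂ) → Prop}
    (h : ∀ N : Subgroup (D4X.GT ρ σ α a b c q), NM.Big N → ∃ ε : ℝ, 0 < ε ∧
      ∀ x : D4X.GT ρ σ α a b c q,
        (∀ w, S w → ∀ y, onm w (x.1 y - y) ≤ ε * onm w y) → x ∈ N) :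
    OpenAt_m S (TT ρ σ α (algebraMap L E (q : L)) a b c) :=
  openAt_tt_m h

end hom

variable {k E : Type} [Field k] [NumberField k] [Field E] [Algebra k E] {ρ σ : E ≃ₐ[k] E}
  {α q : E} {a b c : kˣ}

end Vale.Agent.P011.D4H

end

section

open Module NumberField

namespace Vale.Agent.P011.D4H

open Vale.Agent.P011.MPQ Vale.Agent.P011.D4 Vale.Agent.P011.D4.Oct Vale.Agent.P011.D4T

open scoped ComplexConjugate

section res

variable {k L E : Type} [Field k] [Field L] [Field E] [Algebra k L] [Algebra k E] [Algebra L E]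
  [IsScalarTower k L E] {ρ σ : E ≃ₐ[k] E} {α : E} {a b c : kˣ} {q : Lˣ}

/-- A subgroup of finite index contains the residual. -/
theorem mem_of_Rs_m {N : Subgroup (D4X.GT ρ σ α a b c q)} (hN : NM.Big N)
    {x : D4X.GT ρ σ α a b c q} (hx : x.1 ∈ D4X.Rs_m ρ σ α a b c q) : x ∈ N := by
  obtain ⟨y, hy, hyx⟩ := hx
  have h2 : y = x := Subtype.ext hyx
  rw [← h2]
  exact (iInf_le (fun N : {N : Subgroup (D4X.GT ρ σ α a b c q) // NM.Big N} => N.1)
    ⟨N, hN⟩) hy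

/-- From the residual to the final statement. -/
theorem openAt_of_Rs_m {S : (E →+* ℂ) → Prop}
    (h : ∃ ε : ℝ, 0 < ε ∧ ∀ g ∈ D4X.GT ρ σ α a b c q,
      (∀ w, S w → ∀ y, D4X.on w (g y - y) ≤ ε * D4X.on w y) → g ∈ D4X.Rs_m ρ σ α a b c q) :
    OpenAt_m S (TT ρ σ α (algebraMap L E (q : L)) a b c) := by
  obtain ⟨ε, h0, h1⟩ := h
  refine openAt_tx_m fun N hN => ⟨ε, h0, fun x hx => mem_of_Rs_m hN (h1 x.1 x.2 fun w hw y => ?_)⟩
  rw [on_eq, on_eq]
  exact hx w hw y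

end res

end Vale.Agent.P011.D4H

end

section

open Module NumberField

namespace Vale.Agent.P011.D4H

open Vale.Agent.P011.MPQ Vale.Agent.P011.D4 Vale.Agent.P011.D4.Oct Vale.Agent.P011.D4T

/-- **Trialitarian groups of cyclic cubic extensions with nontrivial Tits class** have no proper
subgroup of finite index, without a condition on the signs of `q`. -/
theorem tt_noIndex_m {k E : Type} [Field k] [NumberField k] [Field E] [Algebra k E]
    {ρ σ : E ≃ₐ[k] E} {α q : E} {a b c : kˣ} (H : IsDataR ρ σ α q a b c) :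
    NoIndex_m (TT ρ σ α q a b c) := by
  have hfin := H.finite
  have hE : NumberField E := NumberField.of_module_finite k E
  have hL : NumberField (LL σ) := NumberField.of_module_finite k (LL σ)
  have h2 : NeZero (2 : E) := ⟨two_ne_zero⟩
  exact (openAt_of_Rs_m (L := LL σ) (q := H.qL) (S := fun _ => False)
    ⟨1, one_pos, fun g hg _ => D4Z.gt_top_m H.hyX H.defL hg⟩).noIndex_m fun _ h => h

end Vale.Agent.P011.D4H

end

section

namespace Vale.Agent.P011.H900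

variable {F : Type} [Field F] {a b : F}

/-- The group of the bijections with the property `P` has no proper big subgroup. -/
def NoIndex_m {V : Type} (P : (V → V) → Prop) : Prop :=
  ∀ N : Subgroup (grp P), NM.Big N → N = ⊤

end Vale.Agent.P011.H900

end

section

open Module

namespace Vale.Agent.P011.H900

open Vale.Agent.P011.MPQ Vale.Agent.P011.D4

section transport

theorem noIndex_of_m {V W : Type} (e : V ≃ W) (G : Subgroup (Equiv.Perm W)) (P : (V → V) → Prop)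
    (h : ∀ g : Equiv.Perm V, P g ↔ e.permCongr g ∈ G)
    (hG : ∀ N : Subgroup G, NM.Big N → N = ⊤) : NoIndex_m P := by
  intro N hN
  have h1 := hG _ (hN.comap (gEquiv e G P h).symm)
  rw [eq_top_iff]
  intro x _
  have h2 : gEquiv e G P h x ∈ N.comap ((gEquiv e G P h).symm : G →* grp P) := by
    rw [h1]
    trivial
  simpa using h2

end transport

end Vale.Agent.P011.H900

end

section

open Module IntermediateField

namespace Vale.Agent.P011.H984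

open Vale.Agent.P011.MPQ Vale.Agent.P011.D4 Vale.Agent.P011.D4T Vale.Agent.P011.D4I
  Vale.Agent.P011.D4H Vale.Agent.P011.H900

/-- Cyclic cubic extensions, in the old letters. -/
def OldT_m : Prop :=
  ∀ {k E : Type} [Field k] [NumberField k] [Field E] [Algebra k E] (ρ σ : E ≃ₐ[k] E) (α q : E)
    (a b c : kˣ), IsDataR ρ σ α q a b c → D4T.NoIndex_m (TT ρ σ α q a b c)

/-- Noncyclic cubic extensions, in the old letters. -/
def OldI_m : Prop :=
  ∀ {k L E : Type} [Field k] [NumberField k] [Field L] [NumberField L] [Field E] [Algebra k L]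
    [Algebra k E] [Algebra L E] [IsScalarTower k L E] (ρ σ ι : E ≃ₐ[k] E) (α : E)
    (a b c : kˣ) (q : Lˣ), IsDataIR ρ σ ι α a b c q →
    D4T.NoIndex_m (TI ρ σ ι α (algebraMap L E (q : L)) a b c)

section

variable {F : Type} [Field F] [NumberField F]

/-- **Cyclic cubic extensions.** -/
theorem d3_of_m (H : OldT_m) {r s : F → F} {a b c d q : F} (hD : Dat [r, s] r s a b c d q) :
    H900.NoIndex_m fun f : Oc a b → Oc a b => Tri c r f ∧ Twi c r s d q f := by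
  obtain ⟨hr, hs, hc, hd, hda, hrd, hsd, hsq, hnq, hdef, w0, hw0, hwa, hwq⟩ := hD
  have hA : IsA r := hr.isA three_ne_zero
  have hB : IsA s := hs.isA two_ne_zero
  obtain ⟨k, _, _, _, hfin, hgal, hfix, haut, hcl⟩ := exists_base [r, s] (by simpa using ⟨hA, hB⟩)
  obtain ⟨ha0, hb0, hc0⟩ := hd.ne (by simpa using ⟨hA, hB⟩)
  have hr' := hd.1 r (by simp)
  have hs' := hd.1 s (by simp)
  obtain ⟨a, rfl⟩ := unit_of hfix (by simpa using ⟨hr'.1, hs'.1⟩) ha0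
  obtain ⟨b, rfl⟩ := unit_of hfix (by simpa using ⟨hr'.2.1, hs'.2.1⟩) hb0
  obtain ⟨c, rfl⟩ := unit_of hfix (by simpa using ⟨hr'.2.2, hs'.2.2⟩) hc0
  obtain ⟨ρ, rfl⟩ := haut r (by simp)
  obtain ⟨σ, rfl⟩ := haut s (by simp)
  have h6 : finrank k F = 6 := rank6 hcl hr.exists_ne hr.three hs.exists_ne hs.two hc
  have hRl : ∀ {w : F →+* ℂ} {τ : k →+* ℝ}, (∀ y, w (algebraMap k F y) = τ y) →
      Rl [⇑ρ, ⇑σ] w := by
    intro w τ h x hx
    obtain ⟨y, rfl⟩ := hfix x hx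
    rw [h, Complex.ofReal_im]
  have hk : ∀ (w : F →+* ℂ), Rl [⇑ρ, ⇑σ] w → ∀ y : k, (w (algebraMap k F y)).im = 0 := by
    intro w hw y
    exact hw _ (by simp)
  have hre : ∀ {w : F →+* ℂ} {τ : k →+* ℝ}, (∀ y, w (algebraMap k F y) = τ y) → ∀ u : kˣ,
      (w ((up F u : Fˣ) : F)).re = τ u := by
    intro w τ h u
    have h1 : w ((up F u : Fˣ) : F) = τ u := h u
    rw [h1, Complex.ofReal_re]
  obtain ⟨τ, hτ⟩ := exists_tau (hk w0 hw0)
  -- the embeddings over `τ`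
  have hq : ∀ w : F →+* ℂ, (∀ t, w (algebraMap k F t) = τ t) → 0 < (w q).re := by
    intro w hw
    obtain ⟨g, hg⟩ := exists_gal (k := k) (w := w) (w0 := w0) fun y => by rw [hw, hτ]
    obtain ⟨i, hi⟩ := act2 hcl hr.three hc g
    rw [hg, hi q hsq]
    apply hwq
    -- the conjugate embedding
    obtain ⟨g', hg'⟩ := exists_gal (k := k) (w := (starRingEnd ℂ).comp w0) (w0 := w0)
      fun y => by rw [RingHom.comp_apply, hτ, Complex.conj_ofReal]
    obtain ⟨j, hj⟩ := act2 hcl hr.three hc g'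
    have hit : ∀ (i : ℕ) (x : F), σ x = x → σ (ρ^[i] x) = ρ^[i] x := by
      intro i
      induction i with
      | zero => exact fun x hx => hx
      | succ i ih =>
        intro x hx
        rw [Function.iterate_succ_apply', ← hc, ih x hx]
    have h3 : (ρ : F → F)^[3] = id := funext hr.three
    obtain ⟨x, hx⟩ : ∃ x, x = ρ^[i] q := ⟨_, rfl⟩
    have hσx : σ x = x := by rw [hx]; exact hit i q hsq
    rw [← hx]
    have h1 : g' (g' x) = x := by
      apply w0.injective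
      rw [← hg', RingHom.comp_apply, ← hg', RingHom.comp_apply, Complex.conj_conj]
    have h2 : ρ^[j] (ρ^[j] x) = x := by
      rw [hj x hσx, hj _ (hit j x hσx)] at h1
      exact h1
    have h4 : ρ^[j] x = x := by
      have h5 : ρ^[j] (ρ^[j] (ρ^[j] x)) = x := by
        rw [← Function.iterate_add_apply, ← Function.iterate_add_apply,
          show j + j + j = 3 * j by ring, Function.iterate_mul, h3, Function.iterate_id]
        rfl
      rwa [h2] at h5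
    have h5 : (starRingEnd ℂ) (w0 x) = w0 x := by
      have h6 := hg' x
      rwa [hj x hσx, h4] at h6
    exact Complex.conj_eq_iff_im.mp h5
  have hdat : IsDataR ρ σ d q a b c :=
    { deg := h6
      ρ1 := hr.exists_ne
      ρ3 := hr.three
      σ2 := hs.two
      comm := fun x => (hc x).symm
      α2 := hda
      ρα := hrd
      σα := hsd
      σq := hsq
      nq := hnq
      div := div_of haut hd
      hdef := by
        intro τ' hτ'
        obtain ⟨w, hw⟩ := exists_ext (F := F) τ'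
        have h1 := hdef w (hRl hw) (by rwa [hre hw])
        rwa [hre hw, hre hw] at h1
      cpt := ⟨τ, by rwa [← hre hτ], hq⟩ }
  exact noIndex_of_m (oL a b c) (TT ρ σ d q a b c) _ (tt_iff ρ σ d q) (H ρ σ d q a b c hdat)

end

end Vale.Agent.P011.H984

end

section

open Module IntermediateField

namespace Vale.Agent.P011.H984

open Vale.Agent.P011.MPQ Vale.Agent.P011.D4 Vale.Agent.P011.D4T Vale.Agent.P011.D4I
  Vale.Agent.P011.D4H Vale.Agent.P011.H900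

section

variable {F : Type} [Field F] [NumberField F]

/-- **Noncyclic cubic extensions.** -/
theorem d4_of_m (H : OldI_m) {r s i : F → F} {a b c d q : F} (hD : Dat [r, s, i] r s a b c d q)
    (hi : Aut 2 i) (hsi : ∀ x, s (i x) = i (s x)) (hri : ∀ x, r (i (r x)) = i x) (hid : i d = d)
    (hiq : r (i q) = q) : H900.NoIndex_m fun f : Oc a b → Oc a b =>
      Tri c r f ∧ Twi c r s d q f ∧ Swp i f := by
  obtain ⟨hr, hs, hc, hd, hda, hrd, hsd, hsq, hnq, hdef, w0, hw0, hwa, hwq⟩ := hD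
  have hA : IsA r := hr.isA three_ne_zero
  have hB : IsA s := hs.isA two_ne_zero
  have hC : IsA i := hi.isA two_ne_zero
  obtain ⟨k, _, _, _, hfin, hgal, hfix, haut, hcl⟩ :=
    exists_base [r, s, i] (by simpa using ⟨hA, hB, hC⟩)
  obtain ⟨ha0, hb0, hc0⟩ := hd.ne (by simpa using ⟨hA, hB, hC⟩)
  have hr' := hd.1 r (by simp)
  have hs' := hd.1 s (by simp)
  have hi' := hd.1 i (by simp)
  obtain ⟨a, rfl⟩ := unit_of hfix (by simpa using ⟨hr'.1, hs'.1, hi'.1⟩) ha0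
  obtain ⟨b, rfl⟩ := unit_of hfix (by simpa using ⟨hr'.2.1, hs'.2.1, hi'.2.1⟩) hb0
  obtain ⟨c, rfl⟩ := unit_of hfix (by simpa using ⟨hr'.2.2, hs'.2.2, hi'.2.2⟩) hc0
  obtain ⟨ρ, rfl⟩ := haut r (by simp)
  obtain ⟨σ, rfl⟩ := haut s (by simp)
  obtain ⟨ι, rfl⟩ := haut i (by simp)
  have hir : ∀ x, ι (ρ x) = ρ (ρ (ι x)) := fun x => by rw [← hri x, hr.three]
  have hd0 : d ≠ 0 := by
    rintro rfl
    apply ha0
    rw [← hda, zero_pow two_ne_zero]
  have hsd' : σ d ≠ d := by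
    rw [hsd]
    intro h
    exact hd0 (neg_eq_self.mp h)
  obtain ⟨L, hL3, hL4, hL⟩ := exists_L hcl hr.exists_ne hr.three hs.two hi.two hc hsi hir hrd hid
    hsd'
  have hRl : ∀ {w : F →+* ℂ} {τ : k →+* ℝ}, (∀ y, w (algebraMap k F y) = τ y) →
      Rl [⇑ρ, ⇑σ, ⇑ι] w := by
    intro w τ h x hx
    obtain ⟨y, rfl⟩ := hfix x hx
    rw [h, Complex.ofReal_im]
  have hk : ∀ (w : F →+* ℂ), Rl [⇑ρ, ⇑σ, ⇑ι] w → ∀ y : k, (w (algebraMap k F y)).im = 0 := by
    intro w hw y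
    exact hw _ (by simp)
  have hre : ∀ {w : F →+* ℂ} {τ : k →+* ℝ}, (∀ y, w (algebraMap k F y) = τ y) → ∀ u : kˣ,
      (w ((up F u : Fˣ) : F)).re = τ u := by
    intro w τ h u
    have h1 : w ((up F u : Fˣ) : F) = τ u := h u
    rw [h1, Complex.ofReal_re]
  obtain ⟨τ, hτ⟩ := exists_tau (hk w0 hw0)
  have hq0 : q ≠ 0 := by
    rintro rfl
    rw [zero_mul, zero_mul] at hnq
    exact zero_ne_one hnq
  have hqL : q ∈ L := (hL q).2 ⟨hsq, hiq⟩
  let qL : Lˣ := Units.mk0 ⟨q, hqL⟩ fun h => hq0 (congrArg Subtype.val h)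
  have hqv : algebraMap L F (qL : L) = q := rfl
  have hNL : NumberField L := NumberField.of_module_finite k L
  have hq : ∀ w : L →+* ℝ, w.comp (algebraMap k L) = τ → 0 < w (qL : L) := by
    intro w hw
    obtain ⟨w', hw'⟩ := exists_ext (F := F) w
    have h1 : ∀ y : k, w' (algebraMap k F y) = w0 (algebraMap k F y) := by
      intro y
      rw [hτ, IsScalarTower.algebraMap_apply k L F, hw', ← hw]
      rfl
    obtain ⟨g, hg⟩ := exists_gal (k := k) h1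
    obtain ⟨j, hj⟩ := (act3 hcl hr.three hi.two hc hir hsq hiq g).1 0
    have h2 : w0 (ρ^[j] q) = w (qL : L) := by
      rw [← hj, ← hw', hqv, hg]
      rfl
    have h3 := hwq j (by rw [h2, Complex.ofReal_im])
    rwa [h2, Complex.ofReal_re] at h3
  have hdat : IsDataIR ρ σ ι d a b c qL :=
    { L3 := hL3
      E4 := hL4
      ρ1 := hr.exists_ne
      ρ3 := hr.three
      σ2 := hs.two
      ι2 := hi.two
      comm := fun x => (hc x).symm
      σι := hsi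
      ιρ := hir
      σL := fun t => ((hL _).1 t.2).1
      ριL := fun t => ((hL _).1 t.2).2
      α2 := hda
      ρα := hrd
      σα := hsd
      ια := hid
      nq := hnq
      div := div_of haut hd
      hdef := by
        intro τ' hτ'
        obtain ⟨w, hw⟩ := exists_ext (F := F) τ'
        have h1 := hdef w (hRl hw) (by rwa [hre hw])
        rwa [hre hw, hre hw] at h1
      cpt := ⟨τ, by rwa [← hre hτ], hq⟩ }
  exact noIndex_of_m (oL a b c) (TI ρ σ ι d (algebraMap L F (qL : L)) a b c) _ (ti_iff ρ σ ι d q)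
    (H ρ σ ι d a b c qL hdat)

end

end Vale.Agent.P011.H984

end

section

namespace Vale.Agent.P011.H984

open Vale.Agent.P011.H900

theorem oldT_m : OldT_m := fun _ _ _ _ _ _ _ h => D4H.tt_noIndex_m h

theorem oldI_m : OldI_m := fun _ _ _ _ _ _ _ _ h => D4W.ti_noIndex_m h

variable {F : Type} [Field F] [NumberField F] {r s i : F → F} {a b c d q : F}

/-- **Trialitarian groups over cyclic cubic extensions.** -/
theorem d3_m (hD : Dat [r, s] r s a b c d q) :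
    NoIndex_m fun f : Oc a b → Oc a b => Tri c r f ∧ Twi c r s d q f := d3_of_m oldT_m hD

/-- **Trialitarian groups over noncyclic cubic extensions.** -/
theorem d4_m (hD : Dat [r, s, i] r s a b c d q) (hi : Aut 2 i) (hsi : ∀ x, s (i x) = i (s x))
    (hri : ∀ x, r (i (r x)) = i x) (hid : i d = d) (hiq : r (i q) = q) :
    NoIndex_m fun f : Oc a b → Oc a b => Tri c r f ∧ Twi c r s d q f ∧ Swp i f :=
  d4_of_m oldI_m hD hi hsi hri hid hiq

end Vale.Agent.P011.H984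

end
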