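import Vale.Agent.P011NM.FixM
import Vale.Agent.P011NQ.Main
import Vale.Agent.P011.D4.Torus

/-!
A normal subgroup of the stabiliser of the first generator which meets one long subgroup
noncentrally is everything.
-/

open NumberField

namespace Vale.Agent.P011.D4.B.FI

open Vale.Agent.P011.MPQ Vale.Agent.P011.D4 Vale.Agent.P011.D4.Oct

section alg

variable {F : Type} [Field F] {a b c b' c' : Fˣ}

theorem emb_of_hom {Φ : Oct a b' c' ≃ₗ[F] Oct a b c}
    (h3 : ∀ x y, Φ (x * y) = Φ x * Φ y) (hi : Φ gi = gi) (x : Oct a b' c') :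
    Φ x = emb gi (Φ gj) (Φ gl) x := by
  conv_lhs => rw [← emb_std x]
  simp only [emb, qemb, map_add, map_smul, h3, hom_one h3, hi]

theorem trip_of_hom [NeZero (2 : F)] {Φ : Oct a b' c' ≃ₗ[F] Oct a b c}
    (h3 : ∀ x y, Φ (x * y) = Φ x * Φ y) (hi : Φ gi = gi) : Trip a b' c' gi (Φ gj) (Φ gl) := by
  have := trip_map (trip_std (a := a) (b := b') (c := c')) h3
  rwa [hi] at this

/-- The stabiliser of a vector. -/
def fixV (a b c : Fˣ) (v : Oct a b c) : Subgroup (fixI a b c) where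
  carrier := {g | g.1.1 v = v}
  mul_mem' := by
    intro g h hg hh
    change g.1.1 (h.1.1 v) = v
    rw [show h.1.1 v = v from hh]
    exact hg
  one_mem' := rfl
  inv_mem' := by
    intro g hg
    have h1 : (g⁻¹ * g).1.1 v = v := by rw [inv_mul_cancel]; rfl
    change g⁻¹.1.1 (g.1.1 v) = v at h1
    rwa [show g.1.1 v = v from hg] at h1

theorem range_long [NeZero (2 : F)] (Φ : Oct a b' c' ≃ₗ[F] Oct a b c)
    (h3 : ∀ x y, Φ (x * y) = Φ x * Φ y) (hi : Φ gi = gi) :
    ((conjI Φ h3 hi).comp (longI a b' c')).range = fixV a b c (Φ gj) := by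
  ext g
  constructor
  · rintro ⟨t, rfl⟩
    change Φ ((long a b' c' t).1 (Φ.symm (Φ gj))) = Φ gj
    rw [Φ.symm_apply_apply, long_gj]
  · intro hg
    obtain ⟨t, ht, -⟩ := exists_long (NeZero.ne 2) (trip_of_hom h3 hi) Φ (emb_of_hom h3 hi) h3
      (hom_norm h3) g.2 hg
    exact ⟨t, Subtype.ext ht.symm⟩

theorem conjI_surj (Φ : Oct a b' c' ≃ₗ[F] Oct a b c)
    (h3 : ∀ x y, Φ (x * y) = Φ x * Φ y) (hi : Φ gi = gi) (g : fixI a b c) :
    ∃ g' : fixI a b' c', conjI Φ h3 hi g' = g ∧ ∀ x, Φ (g'.1.1 x) = g.1.1 (Φ x) := by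
  refine ⟨conjI Φ.symm (fun x y => Φ.injective (by
    rw [h3, Φ.apply_symm_apply, Φ.apply_symm_apply, Φ.apply_symm_apply]))
    (by rw [← hi, Φ.symm_apply_apply]) g, ?_, fun x => Φ.apply_symm_apply _⟩
  refine Subtype.ext (Subtype.ext (LinearEquiv.ext fun x => ?_))
  change Φ (Φ.symm (g.1.1 (Φ (Φ.symm x)))) = g.1.1 x
  rw [Φ.apply_symm_apply, Φ.apply_symm_apply]

end alg

section nf

variable {k : Type} [Field k] [CharZero k] {a b c : kˣ}

theorem one_sub_ne (hab : Aniso a b) (m : k) : 1 - a * m ^ 2 ≠ 0 := fun h => by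
  have := congrArg QuaternionAlgebra.re (hab ⟨1, m, 0, 0⟩ (by
    simp only [nrd]
    linear_combination h))
  simp at this

/-- A subgroup of finite index contains noncentral elements of the torus. -/
theorem exists_torus (hab : Aniso a b) (N : Subgroup (SL1 a b)) (hN : N.index ≠ 0) :
    ∃ x ∈ N, ∃ p r : k, r ≠ 0 ∧ ((x : (Qt a b)ˣ) : Qt a b) = ⟨p, r, 0, 0⟩ := by
  have hn : ∀ m : ℕ, nrd (⟨(1 + a * m ^ 2) / (1 - a * m ^ 2), 2 * m / (1 - a * m ^ 2), 0, 0⟩ :
      Qt a b) = 1 := fun m => by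
    have := one_sub_ne hab m
    simp only [nrd]
    field_simp
    ring
  have hfin : Finite (SL1 a b ⧸ N) := Subgroup.index_ne_zero_iff_finite.1 hN
  obtain ⟨y, hy⟩ := Finite.exists_infinite_fiber fun m : ℕ => (H24.mkSL _ (hn m) : SL1 a b ⧸ N)
  have hinf := Set.infinite_coe_iff.1 hy
  obtain ⟨m0, h0⟩ := hinf.nonempty
  have hsub : ({m : ℕ | (a : k) * m0 * m = 1} : Set ℕ).Subsingleton := fun m h1 m' h2 => by
    have h1' : (a : k) * m0 * m = 1 := h1
    have h2' : (a : k) * m0 * m' = 1 := h2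
    have : (m : k) = m' := by
      linear_combination (-(m : k)) * h2' + (m' : k) * h1'
    exact_mod_cast this
  obtain ⟨m, h1, h2⟩ := hinf.exists_notMem_finite (hsub.finite.insert m0)
  simp only [Set.mem_insert_iff, Set.mem_ofPred_eq, not_or] at h2
  have h3 : (H24.mkSL _ (hn m0))⁻¹ * H24.mkSL _ (hn m) ∈ N :=
    QuotientGroup.eq.1 ((show _ = y from h0).trans (show _ = y from h1).symm)
  have e0 := one_sub_ne hab m0
  have e1 := one_sub_ne hab m
  refine ⟨_, h3, ((1 + a * m0 ^ 2) * (1 + a * m ^ 2) - 4 * a * m0 * m) /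
    ((1 - a * m0 ^ 2) * (1 - a * m ^ 2)), 2 * (m - m0) * (1 - a * m0 * m) /
    ((1 - a * m0 ^ 2) * (1 - a * m ^ 2)), ?_, ?_⟩
  · refine div_ne_zero (mul_ne_zero (mul_ne_zero two_ne_zero (sub_ne_zero.2 ?_))
      (sub_ne_zero.2 (Ne.symm h2.2))) (mul_ne_zero e0 e1)
    exact_mod_cast h2.1
  · change star (⟨_, _, 0, 0⟩ : Qt a b) * (⟨_, _, 0, 0⟩ : Qt a b) = _
    ext <;> simp <;> field_simp <;> ring

/-- The commutator step in standard coordinates. -/
theorem step_std (hab : Aniso a b) (M : Subgroup (fixI a b c)) (hM : M.Normal) {h : fixI a b c}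
    (hh : h ∈ M) (hl : h.1.1 gl = gl) {p r : k} (hr : r ≠ 0)
    (hj : h.1.1 gj = p • gj + r • (gi * gj)) :
    ¬ M.comap (longI a b c) ≤ Subgroup.center (SL1 a b) := by
  intro hc
  have h1 := one_sub_ne hab 1
  have h2 : (1 : k) - b ≠ 0 := fun h => by
    have := congrArg QuaternionAlgebra.re (hab ⟨1, 0, 1, 0⟩ (by
      simp only [nrd]
      linear_combination h))
    simp at this
  rw [one_pow, mul_one] at h1
  have n1 : nrd (⟨(1 + a) / (1 - a), 2 / (1 - a), 0, 0⟩ : Qt a b) = 1 := by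
    simp only [nrd]
    field_simp
    ring
  have n2 : nrd (⟨(1 + b) / (1 - b), 0, 2 / (1 - b), 0⟩ : Qt a b) = 1 := by
    simp only [nrd]
    field_simp
    ring
  obtain ⟨s, hs⟩ : ∃ s : SL1 a b, s = H24.mkSL _ n2 := ⟨_, rfl⟩
  have hsv : ((s : (Qt a b)ˣ) : Qt a b) = ⟨(1 + b) / (1 - b), 0, 2 / (1 - b), 0⟩ := by
    rw [hs]; rfl
  have hi : h.1.1 gi = gi := h.2
  have hm : ∀ x y, h.1.1 (x * y) = h.1.1 x * h.1.1 y := h.1.2
  have hinv : ∀ x, h.1.1 (h⁻¹.1.1 x) = x := fun x => by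
    have : (h * h⁻¹).1.1 x = x := by rw [mul_inv_cancel]; rfl
    exact this
  have hfix : ∀ (t : SL1 a b) (x : Oct a b c), x.snd = 0 → (longI a b c t).1.1 x = x := by
    intro t x hx
    refine Oct.ext rfl ?_
    change ((t : (Qt a b)ˣ) : Qt a b) * x.snd = x.snd
    rw [hx, mul_zero]
  have h0 : (h⁻¹.1.1 gj).snd = 0 := by
    have hk : h.1.1 (gi * gj) = (a * r : k) • gj + p • (gi * gj) := by
      rw [hm, hi, hj]
      refine Oct.ext ?_ ?_ <;> ext <;> simp [gi, gj]
    have hn : p ^ 2 - a * r ^ 2 = 1 := by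
      have e := Oct.aut_norm h.1 gj
      rw [hj] at e
      simp [Oct.norm, nrd, gi, gj] at e
      have hb := b.ne_zero
      apply mul_left_cancel₀ hb
      linear_combination -e
    have e : h⁻¹.1.1 gj = p • gj - r • (gi * gj) := by
      apply h.1.1.injective
      rw [hinv, map_sub, map_smul, map_smul, hk, hj]
      refine Oct.ext ?_ ?_ <;> ext <;> simp [gi, gj]
      · linear_combination -hn
      · ring
    rw [e]
    simp [gi, gj]
  -- the commutator
  have hy : h * (longI a b c s * h⁻¹ * (longI a b c s)⁻¹) ∈ M :=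
    M.mul_mem hh (hM.conj_mem _ (M.inv_mem hh) _)
  have hy1 : (h * (longI a b c s * h⁻¹ * (longI a b c s)⁻¹)).1.1 gj = gj := by
    rw [← map_inv]
    change h.1.1 ((longI a b c s).1.1 (h⁻¹.1.1 ((longI a b c s⁻¹).1.1 gj))) = gj
    rw [hfix _ gj rfl, hfix _ _ h0, hinv]
  obtain ⟨t, ht⟩ : h * (longI a b c s * h⁻¹ * (longI a b c s)⁻¹) ∈
      ((conjI (LinearEquiv.refl k (Oct a b c)) (fun _ _ => rfl) rfl).comp (longI a b c)).range := by
    exact (range_long (LinearEquiv.refl k (Oct a b c)) (fun _ _ => rfl) rfl).ge hy1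
  have ht' : longI a b c t = h * (longI a b c s * h⁻¹ * (longI a b c s)⁻¹) := ht
  have hct := Subgroup.mem_center_iff.1 (hc (show longI a b c t ∈ M from ht' ▸ hy))
  have e1 : longI a b c (t * s) * h = h * longI a b c s := by
    rw [map_mul, ht']
    group
  have e2 := congrArg (fun g : fixI a b c => (g.1.1 gl).snd) e1
  have e3 : (longI a b c s).1.1 gl = ((1 + b) / (1 - b) : k) • gl + (2 / (1 - b) : k) • (gj * gl) := by
    change (long a b c s).1 gl = _
    rw [long_gl, hsv]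
    refine Oct.ext ?_ ?_ <;> ext <;> simp [Y, gj, gl]
  change ((longI a b c (t * s)).1.1 (h.1.1 gl)).snd = (h.1.1 ((longI a b c s).1.1 gl)).snd at e2
  rw [hl, e3, map_add, map_smul, map_smul, hm, hl, hj] at e2
  have e4 : ((longI a b c (t * s)).1.1 gl).snd =
      ((t : (Qt a b)ˣ) : Qt a b) * ((s : (Qt a b)ˣ) : Qt a b) := mul_one _
  rw [e4, hsv] at e2
  have c1 := congrArg (fun x : SL1 a b => ((x : (Qt a b)ˣ) : Qt a b)) (hct s)
  have c2 := congrArg (fun x : SL1 a b => ((x : (Qt a b)ˣ) : Qt a b)) (hct (H24.mkSL _ n1))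
  simp only [Subgroup.coe_mul, Units.val_mul, H24.coe_mkSL, hsv] at c1 c2
  have d1 := congrArg QuaternionAlgebra.imK c1
  have d3 := congrArg QuaternionAlgebra.imJ c2
  have d4 := congrArg QuaternionAlgebra.imK e2
  simp [gi, gj, gl] at d1 d3 d4
  have u0 : (2 : k) / (1 - b) ≠ 0 := div_ne_zero two_ne_zero h2
  have v0 : (2 : k) / (1 - a) ≠ 0 := div_ne_zero two_ne_zero h1
  have f1 : ((t : (Qt a b)ˣ) : Qt a b).imI = 0 :=
    mul_left_cancel₀ (mul_ne_zero two_ne_zero u0) (by linear_combination -d1)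
  have f2 : ((t : (Qt a b)ˣ) : Qt a b).imK = 0 :=
    mul_left_cancel₀ (mul_ne_zero two_ne_zero (mul_ne_zero a.ne_zero v0))
      (by linear_combination d3)
  rw [f1, f2] at d4
  exact mul_ne_zero u0 hr (by linear_combination -d4)

end nf

section top

variable {k : Type} [Field k] [NumberField k] {a b c : kˣ}

theorem step (hdiv : Division a b c) (M : Subgroup (fixI a b c)) (hM : M.Normal) {b1 c1 : kˣ}
    {u v : Oct a b c} (T : Trip a b1 c1 gi u v) (h : M.relIndex (fixV a b c v) ≠ 0) :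
    M.relIndex (fixV a b c u) ≠ 0 := by
  obtain ⟨Ψ, g1, g3, -, -⟩ := Oct.exists_emb T.rot.swap
  have gi' : Ψ gi = gi := by rw [g1, emb_gi]
  have gj' : Ψ gj = v := by rw [g1, emb_gj]
  have gl' : Ψ gl = u := by rw [g1, emb_gl]
  rw [← gj', ← range_long Ψ g3 gi', ← Subgroup.index_comap] at h
  obtain ⟨x, hx, p, r, hr, hx'⟩ := exists_torus (aniso_of_trip hdiv T.rot.swap).1 _ h
  obtain ⟨Φ, h1, h3, -, -⟩ := Oct.exists_emb T
  have hi' : Φ gi = gi := by rw [h1, emb_gi]
  have hj' : Φ gj = u := by rw [h1, emb_gj]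
  have hl' : Φ gl = v := by rw [h1, emb_gl]
  obtain ⟨y, hy, hy'⟩ := conjI_surj Φ h3 hi' ((conjI Ψ g3 gi').comp (longI a c1 b1) x)
  have hab := (aniso_of_trip hdiv T).1
  have := step_std hab (M.comap (conjI Φ h3 hi')) (hM.comap _) (h := y)
    (by rw [Subgroup.mem_comap, hy]; exact hx)
    (Φ.injective (by
      rw [hy', hl', ← gj']
      change Ψ ((long a c1 b1 x).1 (Ψ.symm (Ψ gj))) = Ψ gj
      rw [Ψ.symm_apply_apply, long_gj])) (p := p) hr
    (Φ.injective (by
      rw [hy', map_add, map_smul, map_smul, h3, hi', hj', ← gl']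
      change Ψ ((long a c1 b1 x).1 (Ψ.symm (Ψ gl))) = _
      rw [Ψ.symm_apply_apply, long_gl, hx']
      nth_rewrite 1 [← gi']
      rw [← g3, ← map_smul, ← map_smul, ← map_add]
      congr 1
      refine Oct.ext ?_ ?_ <;> ext <;> simp [Y, gi, gl]))
  rw [← hj', ← range_long Φ h3 hi', ← Subgroup.index_comap]
  have hn : (M.comap ((conjI Φ h3 hi').comp (longI a b1 c1))).Normal := hM.comap _
  exact P011NQ.index_ne_zero a b1 hab _ this

/-- **The stabiliser of `i`**, for normal subgroups which meet the long subgroup noncentrally. -/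
theorem fixI_top_of (hdiv : Division a b c) (M : Subgroup (fixI a b c)) (hM : M.Normal)
    (h : ¬ M.comap (longI a b c) ≤ Subgroup.center (SL1 a b)) : M = ⊤ := by
  have h2 : (2 : k) ≠ 0 := two_ne_zero
  refine fixI_top_m hdiv M hM fun b' c' Φ h3 hi => ?_
  have hn : (M.comap (longI a b c)).Normal := hM.comap _
  have h0 : M.relIndex (fixV a b c gj) ≠ 0 := by
    have := range_long (LinearEquiv.refl k (Oct a b c)) (fun _ _ => rfl) rfl
    rw [show fixV a b c gj = (longI a b c).range from this.symm, ← Subgroup.index_comap]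
    exact P011NQ.index_ne_zero a b hdiv.aniso _ h
  have T0 := trip_std (a := a) (b := b) (c := c)
  have T := trip_of_hom h3 hi
  obtain ⟨u, hu0, hu⟩ := Oct.exists_perp
    (![1, gi, gj, gi * gj, Φ gj, gi * Φ gj, 0] : Fin 7 → Oct a b c)
  have hn0 : norm u ≠ 0 := fun h => hu0 (hdiv _ h)
  obtain ⟨d, hd⟩ : ∃ d : kˣ, (d : k) = -norm u := ⟨Units.mk0 _ (neg_ne_zero.mpr hn0), rfl⟩
  have key : ∀ {b1 c1 : kˣ} {v m : Oct a b c}, Trip a b1 c1 gi v m → dot u v = 0 →
      dot u (gi * v) = 0 → Trip a b1 d gi v u := by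
    intro b1 c1 v m T e1 e2
    have n1 := norm_of_sq T.si T.ii
    have n2 := norm_of_sq T.sj T.jj
    exact trip_of ⟨T.si, T.sj, by rw [n1]; exact neg_ne_zero.2 a.ne_zero,
      by rw [n2]; exact neg_ne_zero.2 b1.ne_zero, T.ij⟩ ⟨hu 0, hu 1, e1, e2⟩
      (by rw [n1, neg_neg]) (by rw [n2, neg_neg]) hd
  rw [Subgroup.index_comap, range_long]
  exact step hdiv M hM (key T (hu 4) (hu 5))
    (step hdiv M hM (key T0 (hu 2) (hu 3)).rot.swap h0)

end top

end Vale.Agent.P011.D4.B.FI
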